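import Vale.Agent.P148.R2.H729.Q2

/-!
# P148, module Q, part 2b: quenched averaging, Bochner integrals
-/

set_option linter.unusedSectionVars false

open MeasureTheory Set Metric Topology Filter ProbabilityTheory
open scoped ENNReal NNReal

namespace P148
namespace H729

section
variable {Ω : Type*} [MeasurableSpace Ω] {P : Measure Ω} {S : Ω → Set Pt} {lam : ℝ≥0}
variable {E : Type*} [NormedAddCommGroup E] [NormedSpace ℝ E]

theorem eventually_avgE (B : Set ℂ) (F : Set Pt → E) (S : Set Pt) (h : (pts S ∩ B).Finite) :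
    ∀ᶠ k : ℕ in atTop, ((2 : ℝ) ^ (win k).card)⁻¹ • pixSum k B F S = avgE B F S := by
  filter_upwards [eventually_separated h] with k hk
  have h1 := ncard_le_win h hk.1 hk.2
  rw [pixSum_eq k B F S h hk.1 hk.2, avgE, ← Nat.cast_smul_eq_nsmul ℝ, smul_smul]
  congr 1
  have h2 : (win k).card = (win k).card - (pts S ∩ B).ncard + (pts S ∩ B).ncard := by omega
  have h3 : ((2 : ℝ) ^ (win k).card) =
      2 ^ ((win k).card - (pts S ∩ B).ncard) * 2 ^ (pts S ∩ B).ncard := by
    rw [← pow_add, ← h2]
  rw [h3]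
  push_cast
  field_simp

theorem norm_recolSum_le (B : Set ℂ) (F : Set Pt → E) (T : Set Pt) :
    ‖recolSum B F T‖ₑ ≤ recolSum B (fun T => ‖F T‖ₑ) T := by
  unfold recolSum
  split_ifs
  · exact enorm_sum_le _ _
  · simp

theorem enorm_avgE_le (B : Set ℂ) (F : Set Pt → E) (T : Set Pt) :
    ‖avgE B F T‖ₑ ≤ avg B (fun T => ‖F T‖ₑ) T := by
  unfold avgE avg
  rw [enorm_smul]
  refine mul_le_mul' (le_of_eq ?_) (norm_recolSum_le B F T)
  rw [enorm_inv (by positivity), enorm_pow]
  congr 2
  rw [Real.enorm_eq_ofReal (by norm_num)]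
  simp

variable [MeasurableSpace E] [BorelSpace E] [SecondCountableTopology E]

theorem measurable_avgE (h : IsColouredPoisson P S lam) {B : Set ℂ} (hB : MeasurableSet B)
    (hb : Bornology.IsBounded B) {F : Set Pt → E} (hF : @Measurable _ _ voidSigma _ F) :
    Measurable fun ω => avgE B F (S ω) := by
  refine measurable_of_tendsto_metrizable
    (f := fun k ω => ((2 : ℝ) ^ (win k).card)⁻¹ • pixSum k B F (S ω))
    (fun k => (measurable_pixSum h hB k hF).const_smul _) ?_
  rw [tendsto_pi_nhds]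
  intro ω
  exact tendsto_const_nhds.congr' ((eventually_avgE B F (S ω) (finite_pts h hb ω)).mono
    fun k hk => hk.symm)

theorem integrable_flip [IsProbabilityMeasure P] (h : IsColouredPoisson P S lam) {U : Set ℂ}
    (hU : MeasurableSet U) {F : Set Pt → E} (hF : @Measurable _ _ voidSigma _ F)
    (hi : Integrable (fun ω => F (S ω)) P) : Integrable (fun ω => F (flipOn U '' S ω)) P := by
  refine ⟨(measurable_comp_flip h hU hF).aestronglyMeasurable, ?_⟩
  have h1 : @Measurable _ _ voidSigma _ fun T : Set Pt => ‖F T‖ₑ :=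
    @Measurable.comp _ _ _ voidSigma _ _ _ _ measurable_enorm hF
  have h2 := lintegral_flipOn h hU h1
  have h3 : ∫⁻ ω, ‖F (S ω)‖ₑ ∂P < ⊤ := hi.2
  rw [← h2] at h3
  exact h3

theorem integral_pixSum [IsProbabilityMeasure P] (h : IsColouredPoisson P S lam) {B : Set ℂ}
    (hB : MeasurableSet B) (k : ℕ) {F : Set Pt → E} (hF : @Measurable _ _ voidSigma _ F)
    (hi : Integrable (fun ω => F (S ω)) P) :
    ∫ ω, ((2 : ℝ) ^ (win k).card)⁻¹ • pixSum k B F (S ω) ∂P = ∫ ω, F (S ω) ∂P := by
  rw [integral_smul]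
  have h1 : ∫ ω, pixSum k B F (S ω) ∂P = (2 : ℝ) ^ (win k).card • ∫ ω, F (S ω) ∂P := by
    unfold pixSum
    rw [integral_finsetSum _ fun T _ => integrable_flip h (measurableSet_pixReg k hB T) hF hi]
    rw [Finset.sum_congr rfl fun T _ => integral_flipOn h (measurableSet_pixReg k hB T) hF,
      Finset.sum_const, Finset.card_powerset, ← Nat.cast_smul_eq_nsmul ℝ]
    push_cast
    rfl
  rw [h1, smul_smul, inv_mul_cancel₀ (by positivity), one_smul]

/-- The average is integrable. -/
theorem integrable_avgE [IsProbabilityMeasure P] (h : IsColouredPoisson P S lam) {B : Set ℂ}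
    (hB : MeasurableSet B) (hb : Bornology.IsBounded B) {F : Set Pt → E}
    (hF : @Measurable _ _ voidSigma _ F) (hi : Integrable (fun ω => F (S ω)) P) :
    Integrable (fun ω => avgE B F (S ω)) P := by
  refine ⟨(measurable_avgE h hB hb hF).aestronglyMeasurable, ?_⟩
  have h1 : @Measurable _ _ voidSigma _ fun T : Set Pt => ‖F T‖ₑ :=
    @Measurable.comp _ _ _ voidSigma _ _ _ _ measurable_enorm hF
  have h2 := lintegral_avg h hB hb h1
  have h3 : ∫⁻ ω, ‖F (S ω)‖ₑ ∂P < ⊤ := hi.2
  rw [← h2] at h3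
  exact (lintegral_mono fun ω => enorm_avgE_le B F (S ω)).trans_lt h3

theorem integral_avgE_bdd [IsProbabilityMeasure P] (h : IsColouredPoisson P S lam) {B : Set ℂ}
    (hB : MeasurableSet B) (hb : Bornology.IsBounded B) {F : Set Pt → E}
    (hF : @Measurable _ _ voidSigma _ F) {C : ℝ} (hC : ∀ T, ‖F T‖ ≤ C) :
    ∫ ω, avgE B F (S ω) ∂P = ∫ ω, F (S ω) ∂P := by
  have hi : Integrable (fun ω => F (S ω)) P :=
    Integrable.of_bound (@Measurable.comp _ _ _ _ voidSigma _ _ _ hF
      h.measurable_self).aestronglyMeasurable C (Eventually.of_forall fun ω => hC _)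
  have h1 : Tendsto (fun k => ∫ ω, ((2 : ℝ) ^ (win k).card)⁻¹ • pixSum k B F (S ω) ∂P) atTop
      (𝓝 (∫ ω, avgE B F (S ω) ∂P)) := by
    refine tendsto_integral_of_dominated_convergence (fun _ => C)
      (fun k => ((measurable_pixSum h hB k hF).const_smul _).aestronglyMeasurable)
      (integrable_const _)
      (fun k => Eventually.of_forall fun ω => ?_)
      (Eventually.of_forall fun ω => ?_)
    · rw [norm_smul, norm_inv, norm_pow, Real.norm_ofNat]
      rw [inv_mul_le_iff₀ (by positivity)]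
      unfold pixSum
      refine (norm_sum_le_of_le _ fun T _ => hC _).trans (le_of_eq ?_)
      rw [Finset.sum_const, Finset.card_powerset, nsmul_eq_mul]
      push_cast
      rfl
    · exact tendsto_const_nhds.congr' ((eventually_avgE B F (S ω) (finite_pts h hb ω)).mono
        fun k hk => hk.symm)
  refine tendsto_nhds_unique h1 ?_
  simp_rw [integral_pixSum h hB _ hF hi]
  exact tendsto_const_nhds

open Classical in
/-- Truncation. -/
noncomputable def trunc (F : Set Pt → E) (N : ℕ) (T : Set Pt) : E := if ‖F T‖ ≤ N then F T else 0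

theorem measurable_trunc_aux {X : Type*} {mX : MeasurableSpace X} {F : X → E}
    (hF : Measurable F) (N : ℕ) : Measurable ({x | ‖F x‖ ≤ N}.indicator F) :=
  hF.indicator (hF.norm measurableSet_Iic)

theorem trunc_eq (F : Set Pt → E) (N : ℕ) : trunc F N = {x | ‖F x‖ ≤ N}.indicator F := by
  classical
  funext T
  unfold trunc
  by_cases h : ‖F T‖ ≤ N
  · rw [if_pos h, indicator_of_mem (show T ∈ {x | ‖F x‖ ≤ N} from h)]
  · rw [if_neg h, indicator_of_notMem (show T ∉ {x | ‖F x‖ ≤ N} from h)]

theorem measurable_trunc {F : Set Pt → E} (hF : @Measurable _ _ voidSigma _ F) (N : ℕ) :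
    @Measurable _ _ voidSigma _ (trunc F N) := by
  rw [trunc_eq]
  exact @measurable_trunc_aux _ _ _ _ _ _ _ voidSigma _ hF N

theorem norm_trunc_le (F : Set Pt → E) (N : ℕ) (T : Set Pt) : ‖trunc F N T‖ ≤ N := by
  unfold trunc
  split_ifs with h
  · exact h
  · simp

theorem norm_trunc_le' (F : Set Pt → E) (N : ℕ) (T : Set Pt) : ‖trunc F N T‖ ≤ ‖F T‖ := by
  unfold trunc
  split_ifs with h
  · exact le_rfl
  · simp

theorem tendsto_trunc (F : Set Pt → E) (T : Set Pt) :
    Tendsto (fun N => trunc F N T) atTop (𝓝 (F T)) := by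
  obtain ⟨N₀, hN₀⟩ := exists_nat_ge ‖F T‖
  refine tendsto_const_nhds.congr' ?_
  filter_upwards [eventually_ge_atTop N₀] with N hN
  unfold trunc
  rw [if_pos (hN₀.trans (by exact_mod_cast hN))]

/-- **Q2, Bochner form.** Quenched averaging over the colours in a bounded Borel set. -/
theorem integral_avgE [IsProbabilityMeasure P] (h : IsColouredPoisson P S lam) {B : Set ℂ}
    (hB : MeasurableSet B) (hb : Bornology.IsBounded B) {F : Set Pt → E}
    (hF : @Measurable _ _ voidSigma _ F) (hi : Integrable (fun ω => F (S ω)) P) :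
    ∫ ω, avgE B F (S ω) ∂P = ∫ ω, F (S ω) ∂P := by
  have hN : @Measurable _ _ voidSigma _ fun T : Set Pt => ‖F T‖ :=
    @Measurable.comp _ _ _ voidSigma _ _ _ _ measurable_norm hF
  have h0 : ∀ N : ℕ, ∫ ω, avgE B (trunc F N) (S ω) ∂P = ∫ ω, trunc F N (S ω) ∂P :=
    fun N => integral_avgE_bdd h hB hb (measurable_trunc hF N) (norm_trunc_le F N)
  have h1 : Tendsto (fun N : ℕ => ∫ ω, avgE B (trunc F N) (S ω) ∂P) atTop
      (𝓝 (∫ ω, avgE B F (S ω) ∂P)) := by
    refine tendsto_integral_of_dominated_convergence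
      (fun ω => avgE B (fun T => ‖F T‖) (S ω))
      (fun N => (measurable_avgE h hB hb (measurable_trunc hF N)).aestronglyMeasurable)
      (integrable_avgE h hB hb hN hi.norm)
      (fun N => Eventually.of_forall fun ω => ?_)
      (Eventually.of_forall fun ω => ?_)
    · unfold avgE
      rw [norm_smul, norm_inv, norm_pow, Real.norm_ofNat, smul_eq_mul]
      refine mul_le_mul_of_nonneg_left ?_ (by positivity)
      unfold recolSum
      simp only [dif_pos (finite_pts h hb ω)]
      exact (norm_sum_le _ _).trans (Finset.sum_le_sum fun W _ => norm_trunc_le' F N _)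
    · unfold avgE
      refine Tendsto.const_smul ?_ _
      unfold recolSum
      simp only [dif_pos (finite_pts h hb ω)]
      exact tendsto_finsetSum _ fun W _ => tendsto_trunc F _
  have h2 : Tendsto (fun N : ℕ => ∫ ω, trunc F N (S ω) ∂P) atTop (𝓝 (∫ ω, F (S ω) ∂P)) := by
    refine tendsto_integral_of_dominated_convergence (fun ω => ‖F (S ω)‖)
      (fun N => (@Measurable.comp _ _ _ _ voidSigma _ _ _ (measurable_trunc hF N)
        h.measurable_self).aestronglyMeasurable) hi.norm
      (fun N => Eventually.of_forall fun ω => norm_trunc_le' F N _)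
      (Eventually.of_forall fun ω => tendsto_trunc F _)
  refine tendsto_nhds_unique h1 ?_
  simp_rw [h0]
  exact h2

/-- The exchange principle, Bochner form. -/
theorem integral_eq_of_recolSum_eq [IsProbabilityMeasure P] (h : IsColouredPoisson P S lam)
    {B : Set ℂ} (hB : MeasurableSet B) (hb : Bornology.IsBounded B) {F G : Set Pt → E}
    (hF : @Measurable _ _ voidSigma _ F) (hG : @Measurable _ _ voidSigma _ G)
    (hi : Integrable (fun ω => F (S ω)) P) (hi' : Integrable (fun ω => G (S ω)) P)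
    (hFG : ∀ᵐ ω ∂P, recolSum B F (S ω) = recolSum B G (S ω)) :
    ∫ ω, F (S ω) ∂P = ∫ ω, G (S ω) ∂P := by
  rw [← integral_avgE h hB hb hF hi, ← integral_avgE h hB hb hG hi']
  refine integral_congr_ae (hFG.mono fun ω hω => ?_)
  simp only [avgE, hω]

end

end H729
end P148
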