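import Vale.Agent.P148.R2.H729.Q3
import Vale.Agent.P148.R2.H729.Q2b

/-!
# P148, module Q, part 4: measurability of everything combinatorial

* `num A T` = number of points of `T` in `A` is measurable in `T` (no finiteness assumption);
* `tupK A n T` = counting measure on the `n`-tuples of points of `T ∩ A` is an s-finite kernel;
* an event / a function of `T ∩ A` is measurable when its pull-backs to the spaces of `n`-tuples
  are measurable; the same with a parameter.
-/

open MeasureTheory Set Metric Topology Filter ProbabilityTheory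
open scoped ENNReal NNReal

set_option linter.unusedSectionVars false

namespace P148
namespace H729

/-- The number of points of the configuration `T` in `A`. -/
noncomputable def num (A : Set Pt) (T : Set Pt) : ℝ≥0∞ := ((T ∩ A).encard : ℝ≥0∞)

/-- The index of the pixel of `q`, with its colour. -/
noncomputable def pix3 (k : ℕ) (q : Pt) : (ℤ × ℤ) × Bool := (pidx k q.1, q.2)

theorem measurable_pix3 (k : ℕ) : Measurable (pix3 k) :=
  ((measurable_pidx k).comp measurable_fst).prodMk measurable_snd

theorem eventually_injOn_pix3 {V : Set Pt} (hV : V.Finite) : ∀ᶠ k : ℕ in atTop,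
    Set.InjOn (pix3 k) V := by
  have h1 : ∀ᶠ k : ℕ in atTop, ∀ v ∈ V, ∀ w ∈ V, v ≠ w → pix3 k v ≠ pix3 k w := by
    refine (hV.eventually_all).mpr fun v _ => (hV.eventually_all).mpr fun w _ => ?_
    by_cases h : v.1 = w.1
    · refine Eventually.of_forall fun k hne h' => hne (Prod.ext h ?_)
      have h2 : (pix3 k v).2 = (pix3 k w).2 := by rw [h']
      exact h2
    · filter_upwards [eventually_pidx_ne h] with k hk _ h' using hk (congrArg Prod.fst h')
  filter_upwards [h1] with k h2
  exact fun v hv w hw h => by_contra fun h' => h2 v hv w hw h' h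

theorem measurable_occ (k : ℕ) {A : Set Pt} (hm : MeasurableSet A) (hA : Bdd A) :
    @Measurable _ _ voidSigma _ fun T : Set Pt => ((pix3 k '' (T ∩ A)).encard : ℝ≥0∞) := by
  have h1 : (fun T : Set Pt => ((pix3 k '' (T ∩ A)).encard : ℝ≥0∞)) =
      fun T : Set Pt => ∑' j : (ℤ × ℤ) × Bool,
        {T : Set Pt | T ∩ (A ∩ pix3 k ⁻¹' {j}) = ∅}ᶜ.indicator (fun _ => (1 : ℝ≥0∞)) T := by
    funext T
    rw [← ENNReal.tsum_set_one, tsum_subtype (pix3 k '' (T ∩ A)) (fun _ => (1 : ℝ≥0∞))]
    refine tsum_congr fun j => ?_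
    by_cases hj : j ∈ pix3 k '' (T ∩ A)
    · rw [indicator_of_mem hj, indicator_of_mem]
      obtain ⟨q, ⟨hq, hq'⟩, rfl⟩ := hj
      intro h0
      exact (Set.eq_empty_iff_forall_notMem.mp h0) q ⟨hq, hq', rfl⟩
    · rw [indicator_of_notMem hj, indicator_of_notMem]
      rw [notMem_compl_iff]
      show T ∩ (A ∩ pix3 k ⁻¹' {j}) = ∅
      rw [Set.eq_empty_iff_forall_notMem]
      rintro q ⟨hq, hq', hj'⟩
      exact hj ⟨q, ⟨hq, hq'⟩, hj'⟩
  rw [h1]
  have h2 : ∀ j : (ℤ × ℤ) × Bool, @Measurable Conf ℝ≥0∞ _ _
      ({T : Set Pt | T ∩ (A ∩ pix3 k ⁻¹' {j}) = ∅}ᶜ.indicator (fun _ => (1 : ℝ≥0∞))) := by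
    intro j
    have h3 : @MeasurableSet Conf _ ({T : Set Pt | T ∩ (A ∩ pix3 k ⁻¹' {j}) = ∅}ᶜ) :=
      @MeasurableSet.compl _ _ voidSigma (measurableSet_voidEvent
        (hm.inter (measurable_pix3 k (measurableSet_singleton _)))
        (bdd_mono inter_subset_left hA))
    exact measurable_const.indicator h3
  have h4 : Measurable fun T : Conf => ∑' j : (ℤ × ℤ) × Bool,
      ({T : Set Pt | T ∩ (A ∩ pix3 k ⁻¹' {j}) = ∅}ᶜ.indicator (fun _ => (1 : ℝ≥0∞))) T :=
    Measurable.tsum h2
  exact h4

theorem num_eq_iSup (A T : Set Pt) : num A T = ⨆ k : ℕ, ((pix3 k '' (T ∩ A)).encard : ℝ≥0∞) := by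
  apply le_antisymm
  · have key : ∀ n : ℕ, (n : ℕ∞) ≤ (T ∩ A).encard →
        (n : ℝ≥0∞) ≤ ⨆ k : ℕ, ((pix3 k '' (T ∩ A)).encard : ℝ≥0∞) := by
      intro n hn
      obtain ⟨V, hV, hVn⟩ := Set.exists_subset_encard_eq hn
      have hVf : V.Finite := Set.finite_of_encard_eq_coe hVn
      obtain ⟨k, hk⟩ := (eventually_injOn_pix3 hVf).exists
      refine le_trans ?_ (le_iSup (fun k : ℕ => ((pix3 k '' (T ∩ A)).encard : ℝ≥0∞)) k)
      have h2 : (n : ℕ∞) ≤ (pix3 k '' (T ∩ A)).encard := by
        rw [← hVn, ← hk.encard_image]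
        exact Set.encard_le_encard (image_mono hV)
      calc (n : ℝ≥0∞) = ((n : ℕ∞) : ℝ≥0∞) := by simp
        _ ≤ _ := by exact_mod_cast h2
    unfold num
    rcases eq_or_ne (T ∩ A).encard ⊤ with h | h
    · rw [h, ENat.toENNReal_top]
      refine le_of_forall_lt fun x hx => ?_
      obtain ⟨n, hn⟩ := ENNReal.exists_nat_gt hx.ne
      exact lt_of_lt_of_le hn (key n (by rw [h]; exact le_top))
    · obtain ⟨n, hn⟩ := ENat.ne_top_iff_exists.mp h
      have := key n hn.le
      rw [← hn]
      simpa using this
  · refine iSup_le fun k => ?_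
    have h2 : (pix3 k '' (T ∩ A)).encard ≤ (T ∩ A).encard := Set.encard_image_le _ _
    unfold num
    exact_mod_cast h2

/-- **Q4.** The number of points in a bounded Borel set is measurable. -/
theorem measurable_num {A : Set Pt} (hm : MeasurableSet A) (hA : Bdd A) :
    @Measurable _ _ voidSigma _ (num A) := by
  have : num A = fun T => ⨆ k : ℕ, ((pix3 k '' (T ∩ A)).encard : ℝ≥0∞) :=
    funext fun T => num_eq_iSup A T
  rw [this]
  have h2 : ∀ k : ℕ, @Measurable Conf ℝ≥0∞ _ _ fun T : Set Pt =>
      ((pix3 k '' (T ∩ A)).encard : ℝ≥0∞) := fun k => measurable_occ k hm hA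
  exact Measurable.iSup h2

theorem num_lt_top_iff (A T : Set Pt) : num A T < ⊤ ↔ (T ∩ A).Finite := by
  unfold num
  rw [← Set.encard_lt_top_iff]
  exact_mod_cast ENat.toENNReal_lt (n := ⊤)

theorem measurableSet_finite {A : Set Pt} (hm : MeasurableSet A) (hA : Bdd A) :
    @MeasurableSet _ voidSigma {T : Set Pt | (T ∩ A).Finite} := by
  have : {T : Set Pt | (T ∩ A).Finite} = num A ⁻¹' (Iio ⊤) := by
    ext T
    exact (num_lt_top_iff A T).symm
  rw [this]
  exact measurable_num hm hA measurableSet_Iio

/-! ### tuples of points -/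

open Classical in
/-- The counting measure on the `n`-tuples of points of `T ∩ A` (zero if `T ∩ A` is infinite). -/
noncomputable def tupM (A : Set Pt) (n : ℕ) (T : Set Pt) : Measure (Fin n → Pt) :=
  if (T ∩ A).Finite then Measure.count.restrict (Set.pi univ fun _ => T ∩ A) else 0

theorem tupM_of_finite {A T : Set Pt} (n : ℕ) (h : (T ∩ A).Finite) :
    tupM A n T = Measure.count.restrict (Set.pi univ fun _ => T ∩ A) := if_pos h

theorem tupM_of_infinite {A T : Set Pt} (n : ℕ) (h : ¬ (T ∩ A).Finite) :
    tupM A n T = 0 := if_neg h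

theorem finite_tup {A T : Set Pt} (n : ℕ) (h : (T ∩ A).Finite) :
    (Set.pi univ fun _ : Fin n => T ∩ A).Finite := Set.Finite.pi fun _ => h

theorem tupM_apply {A T : Set Pt} {n : ℕ} (h : (T ∩ A).Finite) {F : Set (Fin n → Pt)}
    (hF : MeasurableSet F) : tupM A n T F = ((F ∩ Set.pi univ fun _ => T ∩ A).encard : ℝ≥0∞) := by
  rw [tupM_of_finite n h, Measure.restrict_apply hF]
  exact Measure.count_apply ((finite_tup n h).subset inter_subset_right).measurableSet

instance (A : Set Pt) (n : ℕ) (T : Set Pt) : IsFiniteMeasure (tupM A n T) := by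
  by_cases h : (T ∩ A).Finite
  · refine ⟨?_⟩
    rw [tupM_apply h MeasurableSet.univ, univ_inter]
    have := (finite_tup n h).encard_lt_top
    exact_mod_cast ENat.toENNReal_lt.mpr this
  · rw [tupM_of_infinite n h]
    infer_instance

theorem toENNReal_prod {ι : Type*} (s : Finset ι) (f : ι → ℕ∞) :
    ((∏ i ∈ s, f i : ℕ∞) : ℝ≥0∞) = ∏ i ∈ s, (f i : ℝ≥0∞) := map_prod ENat.toENNRealRingHom f s

theorem tupM_pi {A T : Set Pt} {n : ℕ} (h : (T ∩ A).Finite) {C : Fin n → Set Pt}
    (hC : ∀ i, MeasurableSet (C i)) :
    tupM A n T (Set.pi univ C) = ∏ i, num (A ∩ C i) T := by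
  rw [tupM_apply h (MeasurableSet.univ_pi hC), ← Set.pi_inter_distrib,
    Set.encard_pi_eq_prod_encard, toENNReal_prod]
  refine Finset.prod_congr rfl fun i _ => ?_
  unfold num
  congr 2
  ext q
  simp only [mem_inter_iff]
  tauto

theorem tupM_univ {A T : Set Pt} {n : ℕ} (h : (T ∩ A).Finite) :
    tupM A n T univ = num A T ^ n := by
  have := tupM_pi (n := n) h (C := fun _ => univ) fun _ => MeasurableSet.univ
  rw [Set.pi_univ] at this
  rw [this]
  simp

/-- The tuples form a kernel. -/
theorem measurable_tupM {A : Set Pt} (hm : MeasurableSet A) (hA : Bdd A) (n : ℕ) :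
    @Measurable Conf _ _ _ (tupM A n) := by
  have hfin : @MeasurableSet Conf _ {T : Set Pt | (T ∩ A).Finite} := measurableSet_finite hm hA
  have key : ∀ C : Fin n → Set Pt, (∀ i, MeasurableSet (C i)) →
      @Measurable Conf _ _ _ fun T : Set Pt => tupM A n T (Set.pi univ C) := by
    intro C hC
    have h1 : @Measurable Conf ℝ≥0∞ _ _ fun T : Set Pt => ∏ i, num (A ∩ C i) T := by
      refine Finset.measurable_prod _ fun i _ => ?_
      exact measurable_num (hm.inter (hC i)) (bdd_mono inter_subset_left hA)
    have h2 : (fun T : Set Pt => tupM A n T (Set.pi univ C)) =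
        {T : Set Pt | (T ∩ A).Finite}.indicator fun T => ∏ i, num (A ∩ C i) T := by
      funext T
      by_cases h : (T ∩ A).Finite
      · rw [indicator_of_mem (show T ∈ {T : Set Pt | (T ∩ A).Finite} from h), tupM_pi h hC]
      · rw [indicator_of_notMem (show T ∉ {T : Set Pt | (T ∩ A).Finite} from h),
          tupM_of_infinite n h]
        rfl
    rw [h2]
    exact h1.indicator hfin
  refine Measurable.measure_of_isPiSystem (μ := (tupM A n : Conf → Measure (Fin n → Pt)))
    generateFrom_pi.symm isPiSystem_pi ?_ ?_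
  · rintro _ ⟨C, hC, rfl⟩
    exact key C fun i => hC i (mem_univ i)
  · have := key (fun _ => univ) fun _ => MeasurableSet.univ
    rw [Set.pi_univ] at this
    exact this

/-- The kernel of tuples. -/
noncomputable def tupK (A : Set Pt) (hm : MeasurableSet A) (hA : Bdd A) (n : ℕ) :
    Kernel Conf (Fin n → Pt) := ⟨tupM A n, measurable_tupM hm hA n⟩

theorem tupK_apply (A : Set Pt) (hm : MeasurableSet A) (hA : Bdd A) (n : ℕ) (T : Conf) :
    tupK A hm hA n T = tupM A n T := rfl

instance (A : Set Pt) (hm : MeasurableSet A) (hA : Bdd A) (n : ℕ) :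
    IsSFiniteKernel (tupK A hm hA n) := by
  have hs : ∀ m : ℕ, @MeasurableSet Conf _ {T : Set Pt | num A T = m} := fun m =>
    measurable_num hm hA (measurableSet_singleton _)
  classical
  refine ⟨fun m => Kernel.piecewise (hs m) (tupK A hm hA n) 0, fun m => ⟨(m : ℝ≥0∞) ^ n, ?_, ?_⟩, ?_⟩
  · exact ENNReal.pow_lt_top (ENNReal.natCast_lt_top m)
  · intro T
    rw [Kernel.piecewise_apply]
    split_ifs with h
    · have h' : num A T = m := h
      have hf : ((show Set Pt from T) ∩ A).Finite := by
        rw [← num_lt_top_iff]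
        show num A T < ⊤
        rw [h']
        exact ENNReal.natCast_lt_top m
      rw [tupK_apply, tupM_univ hf]
      show num A T ^ n ≤ _
      rw [h']
    · simp
  · refine Kernel.ext fun T => ?_
    rw [Kernel.sum_apply, tupK_apply]
    by_cases h : ((show Set Pt from T) ∩ A).Finite
    · obtain ⟨m, hm'⟩ := ENat.ne_top_iff_exists.mp h.encard_lt_top.ne
      have hnum : num A T = m := by
        have : num A T = (((show Set Pt from T) ∩ A).encard : ℝ≥0∞) := rfl
        rw [this, ← hm']
        simp
      refine Measure.ext fun F hF => ?_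
      rw [Measure.sum_apply _ hF, tsum_eq_single m]
      · rw [Kernel.piecewise_apply]
        split_ifs with h'
        · rfl
        · exact absurd hnum h'
      · intro m' hne
        rw [Kernel.piecewise_apply]
        split_ifs with h'
        · have h'' : num A T = m' := h'
          rw [hnum] at h''
          exact absurd (by exact_mod_cast h''.symm) hne
        · rfl
    · refine Measure.ext fun F hF => ?_
      rw [Measure.sum_apply _ hF]
      have h0 : tupM A n T = 0 := tupM_of_infinite n h
      rw [h0]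
      simp only [Measure.coe_zero, Pi.zero_apply]
      symm
      rw [ENNReal.tsum_eq_zero]
      intro m
      rw [Kernel.piecewise_apply]
      split_ifs with h'
      · rw [tupK_apply, h0]; rfl
      · rfl

/-! ### the measurability criteria -/

section
variable {Y : Type*} [MeasurableSpace Y]

/-- The kernel of tuples with a parameter: sections of measurable sets. -/
theorem measurable_tupM_section {A : Set Pt} (hm : MeasurableSet A) (hA : Bdd A) (n : ℕ)
    {F : Set ((Y × Conf) × (Fin n → Pt))} (hF : MeasurableSet F) :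
    Measurable fun p : Y × Conf => tupM A n p.2 (Prod.mk p ⁻¹' F) :=
  Kernel.measurable_kernel_prodMk_left
    (κ := (tupK A hm hA n).comap (Prod.snd : Y × Conf → Conf) measurable_snd) hF

/-- The kernel of tuples with a parameter: integrals (= sums over tuples of points). -/
theorem measurable_lintegral_tupM {A : Set Pt} (hm : MeasurableSet A) (hA : Bdd A) (n : ℕ)
    {f : (Y × Conf) × (Fin n → Pt) → ℝ≥0∞} (hf : Measurable f) :
    Measurable fun p : Y × Conf => ∫⁻ x, f (p, x) ∂tupM A n p.2 :=
  Measurable.lintegral_kernel_prod_right'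
    (κ := (tupK A hm hA n).comap (Prod.snd : Y × Conf → Conf) measurable_snd) hf

theorem measurableSet_injective (n : ℕ) :
    MeasurableSet {x : Fin n → Pt | Function.Injective x} := by
  have : {x : Fin n → Pt | Function.Injective x} =
      ⋂ i : Fin n, ⋂ j : Fin n, {x | x i = x j → i = j} := by
    ext x
    simp only [mem_ofPred_eq, mem_iInter]
    rfl
  rw [this]
  refine MeasurableSet.iInter fun i => MeasurableSet.iInter fun j => ?_
  by_cases h : i = j
  · simp [h]
  · have : {x : Fin n → Pt | x i = x j → i = j} = {x | x i = x j}ᶜ := by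
      ext x
      simp [h]
    rw [this]
    exact (measurableSet_eq_fun (measurable_pi_apply i) (measurable_pi_apply j)).compl

theorem exists_enum {V : Set Pt} (hV : V.Finite) :
    ∃ x : Fin hV.toFinset.card → Pt, Function.Injective x ∧ range x = V := by
  refine ⟨fun i => (hV.toFinset.equivFin.symm i : Pt), ?_, ?_⟩
  · exact Subtype.val_injective.comp hV.toFinset.equivFin.symm.injective
  · ext q
    constructor
    · rintro ⟨i, rfl⟩
      exact hV.mem_toFinset.mp (hV.toFinset.equivFin.symm i).2
    · intro hq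
      exact ⟨hV.toFinset.equivFin ⟨q, hV.mem_toFinset.mpr hq⟩, by simp⟩

theorem range_eq_of_injective {V : Set Pt} (hV : V.Finite) {n : ℕ} (hn : hV.toFinset.card = n)
    {x : Fin n → Pt} (hx : Function.Injective x) (hxV : ∀ i, x i ∈ V) : range x = V := by
  refine Set.eq_of_subset_of_ncard_le (range_subset_iff.mpr hxV) ?_ hV
  rw [← Set.image_univ, Set.ncard_image_of_injective _ hx, Set.ncard_univ, Nat.card_eq_fintype_card,
    Fintype.card_fin, Set.ncard_eq_toFinset_card V hV, hn]

/-- **Q4, criterion for events** (with a parameter `y`): an event which depends on the points in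
a bounded Borel window is measurable when its pull-backs to `n`-tuples of points are Borel. -/
theorem measurableSet_window {A : Set Pt} (hm : MeasurableSet A) (hA : Bdd A)
    {E : Y → Set Pt → Prop}
    (hE : ∀ n : ℕ, MeasurableSet {p : Y × (Fin n → Pt) | E p.1 (range p.2)}) :
    MeasurableSet {p : Y × Conf | (@Inter.inter (Set Pt) _ p.2 A).Finite ∧
      E p.1 (@Inter.inter (Set Pt) _ p.2 A)} := by
  have hF : ∀ n : ℕ, MeasurableSet {p : (Y × Conf) × (Fin n → Pt) |
      Function.Injective p.2 ∧ E p.1.1 (range p.2)} := by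
    intro n
    have h1 : MeasurableSet ((fun p : (Y × Conf) × (Fin n → Pt) => p.2) ⁻¹'
      {x : Fin n → Pt | Function.Injective x}) := measurable_snd (measurableSet_injective n)
    have h2 : MeasurableSet ((fun p : (Y × Conf) × (Fin n → Pt) => (p.1.1, p.2)) ⁻¹'
      {p : Y × (Fin n → Pt) | E p.1 (range p.2)}) :=
      ((measurable_fst.comp measurable_fst).prodMk measurable_snd) (hE n)
    exact h1.inter h2
  have hfin : MeasurableSet {p : Y × Conf | (@Inter.inter (Set Pt) _ p.2 A).Finite} := by
    have h0 : @MeasurableSet Conf _ {T : Set Pt | (T ∩ A).Finite} := measurableSet_finite hm hA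
    exact measurable_snd h0
  have hnum : ∀ n : ℕ, MeasurableSet {p : Y × Conf | num A p.2 = n} := by
    intro n
    have h0 : @MeasurableSet Conf _ {T : Set Pt | num A T = n} :=
      measurable_num hm hA (measurableSet_singleton _)
    exact measurable_snd h0
  have hpos : ∀ n : ℕ, MeasurableSet {p : Y × Conf | 0 < tupM A n p.2 (Prod.mk p ⁻¹'
      {p : (Y × Conf) × (Fin n → Pt) | Function.Injective p.2 ∧ E p.1.1 (range p.2)})} := by
    intro n
    exact (measurable_tupM_section hm hA n (hF n)) measurableSet_Ioi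
  have hdec : {p : Y × Conf | (@Inter.inter (Set Pt) _ p.2 A).Finite ∧
      E p.1 (@Inter.inter (Set Pt) _ p.2 A)} =
      {p : Y × Conf | (@Inter.inter (Set Pt) _ p.2 A).Finite} ∩
      ⋃ n : ℕ, {p : Y × Conf | num A p.2 = n} ∩ {p : Y × Conf | 0 < tupM A n p.2 (Prod.mk p ⁻¹'
      {p : (Y × Conf) × (Fin n → Pt) | Function.Injective p.2 ∧ E p.1.1 (range p.2)})} := by
    ext ⟨y, T⟩
    change Set Pt at T
    show (T ∩ A).Finite ∧ E y (T ∩ A) ↔ (T ∩ A).Finite ∧ _
    refine and_congr_right fun hfT => ?_
    simp only [mem_iUnion, mem_inter_iff, mem_ofPred_eq]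
    have hncard : num A T = (hfT.toFinset.card : ℝ≥0∞) := by
      unfold num
      rw [hfT.encard_eq_coe_toFinset_card]
      simp
    have hmeas : ∀ n : ℕ, MeasurableSet (Prod.mk ((y, T) : Y × Conf) ⁻¹'
      {p : (Y × Conf) × (Fin n → Pt) | Function.Injective p.2 ∧ E p.1.1 (range p.2)}) := fun n =>
      measurable_prodMk_left (hF n)
    constructor
    · intro hET
      obtain ⟨x, hxi, hxr⟩ := exists_enum hfT
      refine ⟨hfT.toFinset.card, hncard, ?_⟩
      rw [tupM_apply hfT (hmeas _)]
      have hne : (Prod.mk ((y, T) : Y × Conf) ⁻¹'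
        {p : (Y × Conf) × (Fin hfT.toFinset.card → Pt) |
          Function.Injective p.2 ∧ E p.1.1 (range p.2)} ∩
          Set.pi univ fun _ => T ∩ A).Nonempty := by
        refine ⟨x, ⟨hxi, ?_⟩, fun i _ => hxr.subset (mem_range_self i)⟩
        show E y (range x)
        rw [hxr]
        exact hET
      have h2 := Set.encard_pos.mpr hne
      exact_mod_cast ENat.toENNReal_lt.mpr h2
    · rintro ⟨n, hn, hpos⟩
      have hn' : hfT.toFinset.card = n := by
        rw [hncard] at hn
        exact_mod_cast hn
      rw [tupM_apply hfT (hmeas _)] at hpos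
      have h2 : (Prod.mk ((y, T) : Y × Conf) ⁻¹'
        {p : (Y × Conf) × (Fin n → Pt) |
          Function.Injective p.2 ∧ E p.1.1 (range p.2)} ∩
          Set.pi univ fun _ => T ∩ A).Nonempty := by
        rw [Set.nonempty_iff_ne_empty]
        intro h0
        rw [h0, Set.encard_empty] at hpos
        simp at hpos
      obtain ⟨x, ⟨hxi, hxE⟩, hxT⟩ := h2
      have := range_eq_of_injective hfT hn' hxi fun i => hxT i (mem_univ i)
      rw [← this]
      exact hxE
  rw [hdec]
  exact hfin.inter (MeasurableSet.iUnion fun n => (hnum n).inter (hpos n))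

/-- **Q4, criterion for functions** (with a parameter `y`). -/
theorem measurable_window {X : Type*} [MeasurableSpace X] {A : Set Pt} (hm : MeasurableSet A)
    (hA : Bdd A) {G : Y → Set Pt → X}
    (hG : ∀ n : ℕ, Measurable fun p : Y × (Fin n → Pt) => G p.1 (range p.2)) (x₀ : X) :
    Measurable fun p : Y × Conf => open Classical in
      if (@Inter.inter (Set Pt) _ p.2 A).Finite then G p.1 (@Inter.inter (Set Pt) _ p.2 A)
        else x₀ := by
  classical
  intro s hs
  have h1 := measurableSet_window (Y := Y) hm hA (E := fun y T => G y T ∈ s) fun n => hG n hs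
  have hfin : MeasurableSet {p : Y × Conf | (@Inter.inter (Set Pt) _ p.2 A).Finite} := by
    have h0 : @MeasurableSet Conf _ {T : Set Pt | (T ∩ A).Finite} := measurableSet_finite hm hA
    exact measurable_snd h0
  by_cases hx : x₀ ∈ s
  · convert h1.union hfin.compl using 1
    ext p
    simp only [mem_preimage, mem_union, mem_compl_iff, mem_ofPred_eq]
    split_ifs with h <;> simp [h, hx]
  · convert h1 using 1
    ext p
    simp only [mem_preimage, mem_ofPred_eq]
    split_ifs with h <;> simp [h, hx]

/-- Joint measurability of the number of points in a measurable family of sets. -/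
theorem measurable_num_section {A : Set Pt} (hm : MeasurableSet A) (hA : Bdd A)
    {W : Set (Y × Pt)} (hW : MeasurableSet W) :
    Measurable fun p : Y × Conf => open Classical in
      if (@Inter.inter (Set Pt) _ p.2 A).Finite then num (A ∩ Prod.mk p.1 ⁻¹' W) p.2 else 0 := by
  classical
  have hF : MeasurableSet ((fun q : (Y × Conf) × (Fin 1 → Pt) => (q.1.1, q.2 0)) ⁻¹' W) :=
    ((measurable_fst.comp measurable_fst).prodMk ((measurable_pi_apply 0).comp measurable_snd)) hW
  have h1 := measurable_tupM_section hm hA 1 hF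
  convert h1 using 1
  funext ⟨y, T⟩
  change Set Pt at T
  show (if (T ∩ A).Finite then num (A ∩ Prod.mk y ⁻¹' W) T else 0) = tupM A 1 T _
  split_ifs with h
  · have := tupM_pi (n := 1) h (C := fun _ => Prod.mk y ⁻¹' W)
      fun _ => measurable_prodMk_left hW
    rw [Fin.prod_univ_one] at this
    rw [← this]
    congr 1
    ext x
    simp only [Set.mem_pi, mem_univ, mem_preimage, true_implies]
    constructor
    · intro hx
      exact hx 0
    · intro hx i
      rw [Subsingleton.elim i 0]
      exact hx
  · rw [tupM_of_infinite 1 h]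
    rfl

end

/-- Criterion for events, without parameter. -/
theorem measurableSet_window' {A : Set Pt} (hm : MeasurableSet A) (hA : Bdd A)
    {E : Set Pt → Prop} (hE : ∀ n : ℕ, MeasurableSet {x : Fin n → Pt | E (range x)}) :
    @MeasurableSet _ voidSigma {T : Set Pt | (T ∩ A).Finite ∧ E (T ∩ A)} := by
  have h1 := measurableSet_window (Y := Unit) hm hA (E := fun _ T => E T)
    fun n => measurable_snd (hE n)
  have h2 : @Measurable Conf (Unit × Conf) _ _ fun T => ((), T) :=
    measurable_const.prodMk measurable_id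
  exact h2 h1

/-- Criterion for functions, without parameter. -/
theorem measurable_window' {X : Type*} [MeasurableSpace X] {A : Set Pt} (hm : MeasurableSet A)
    (hA : Bdd A) {G : Set Pt → X} (hG : ∀ n : ℕ, Measurable fun x : Fin n → Pt => G (range x))
    (x₀ : X) :
    @Measurable _ _ voidSigma _ fun T : Set Pt => open Classical in
      if (T ∩ A).Finite then G (T ∩ A) else x₀ := by
  have h1 := measurable_window (Y := Unit) hm hA (G := fun _ T => G T)
    (fun n => (hG n).comp measurable_snd) x₀
  have h2 : @Measurable Conf (Unit × Conf) _ _ fun T => ((), T) :=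
    measurable_const.prodMk measurable_id
  exact h1.comp h2

section
variable {Ω : Type*} [MeasurableSpace Ω] {P : Measure Ω} {S : Ω → Set Pt} {lam : ℝ≥0}

theorem finite_inter (h : IsColouredPoisson P S lam) {A : Set Pt} (hA : Bdd A) (ω : Ω) :
    (S ω ∩ A).Finite := by
  obtain ⟨r, hr⟩ := hA
  exact (h.locFin ω r).subset (inter_subset_inter_right _ hr)

/-- Functions of the points in a window are measurable on the probability space. -/
theorem measurable_window_comp (h : IsColouredPoisson P S lam) {X : Type*} [MeasurableSpace X]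
    {A : Set Pt} (hm : MeasurableSet A) (hA : Bdd A) {G : Set Pt → X}
    (hG : ∀ n : ℕ, Measurable fun x : Fin n → Pt => G (range x)) :
    Measurable fun ω => G (S ω ∩ A) := by
  classical
  have h1 := measurable_window' hm hA hG (G ∅)
  have h2 : Measurable fun ω => if (S ω ∩ A).Finite then G (S ω ∩ A) else G ∅ :=
    @Measurable.comp _ _ _ _ voidSigma _ _ _ h1 h.measurable_self
  convert h2 using 2 with ω
  rw [if_pos (finite_inter h hA ω)]

/-- Events of the points in a window are measurable on the probability space. -/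
theorem measurableSet_window_comp (h : IsColouredPoisson P S lam)
    {A : Set Pt} (hm : MeasurableSet A) (hA : Bdd A) {E : Set Pt → Prop}
    (hE : ∀ n : ℕ, MeasurableSet {x : Fin n → Pt | E (range x)}) :
    MeasurableSet {ω | E (S ω ∩ A)} := by
  have h1 := h.measurable_self (measurableSet_window' hm hA hE)
  convert h1 using 1
  ext ω
  simp only [mem_ofPred_eq, mem_preimage]
  exact ⟨fun h' => ⟨finite_inter h hA ω, h'⟩, fun h' => h'.2⟩

end

end H729
end P148
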