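import Vale.Agent.P148.R2.H729.Q1

/-!
# P148, module Q, part 2: quenched averaging over the colours
-/

open MeasureTheory Set Metric Topology Filter ProbabilityTheory
open scoped ENNReal NNReal

namespace P148
namespace H729

/-! ### counting -/

/-- Sums over the subsets of `J` which only depend on the trace on `V`. -/
theorem sum_powerset_trace {α β M : Type*} [AddCommMonoid M] [DecidableEq α] [DecidableEq β]
    (V : Finset α) (J : Finset β) (m : α → β) (hinj : Set.InjOn m V) (hJ : ∀ v ∈ V, m v ∈ J)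
    (G : Finset α → M) :
    ∑ T ∈ J.powerset, G (V.filter fun v => m v ∈ T) =
      2 ^ (J.card - V.card) • ∑ W ∈ V.powerset, G W := by
  have hsub : V.image m ⊆ J := by
    intro b hb
    obtain ⟨v, hv, rfl⟩ := Finset.mem_image.mp hb
    exact hJ v hv
  have hmaps : ∀ T ∈ J.powerset, (V.filter fun v => m v ∈ T) ∈ V.powerset := fun T _ =>
    Finset.mem_powerset.mpr (Finset.filter_subset _ _)
  rw [← Finset.sum_fiberwise_of_maps_to hmaps, Finset.smul_sum]
  refine Finset.sum_congr rfl fun W hW => ?_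
  have hW' : W ⊆ V := Finset.mem_powerset.mp hW
  have h1 : ∑ T ∈ J.powerset with (V.filter fun v => m v ∈ T) = W,
      G (V.filter fun v => m v ∈ T) = ∑ T ∈ J.powerset with (V.filter fun v => m v ∈ T) = W, G W :=
    Finset.sum_congr rfl fun T hT => by rw [(Finset.mem_filter.mp hT).2]
  rw [h1, Finset.sum_const]
  congr 1
  have h2 : (J \ V.image m).card = J.card - V.card := by
    rw [Finset.card_sdiff_of_subset hsub, Finset.card_image_of_injOn hinj]
  rw [← h2, ← Finset.card_powerset]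
  symm
  refine Finset.card_nbij' (fun R => R ∪ W.image m) (fun T => T \ V.image m) ?_ ?_ ?_ ?_
  · intro R hR
    have hR' : R ⊆ J \ V.image m := Finset.mem_powerset.mp hR
    refine Finset.mem_coe.mpr (Finset.mem_filter.mpr ⟨Finset.mem_powerset.mpr ?_, ?_⟩)
    · refine Finset.union_subset (hR'.trans Finset.sdiff_subset) ?_
      exact (Finset.image_subset_image hW').trans hsub
    · ext v
      rw [Finset.mem_filter]
      constructor
      · rintro ⟨hv, hvR⟩
        rcases Finset.mem_union.mp hvR with h | h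
        · exact absurd (Finset.mem_image_of_mem m hv) (Finset.mem_sdiff.mp (hR' h)).2
        · obtain ⟨w, hw, hwv⟩ := Finset.mem_image.mp h
          rwa [← hinj (hW' hw) hv hwv]
      · intro hv
        exact ⟨hW' hv, Finset.mem_union_right _ (Finset.mem_image_of_mem m hv)⟩
  · intro T hT
    have hT' := (Finset.mem_filter.mp (Finset.mem_coe.mp hT)).1
    exact Finset.mem_coe.mpr (Finset.mem_powerset.mpr
      (Finset.sdiff_subset_sdiff (Finset.mem_powerset.mp hT') subset_rfl))
  · intro R hR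
    have hR' : R ⊆ J \ V.image m := Finset.mem_powerset.mp hR
    ext b
    simp only [Finset.mem_sdiff, Finset.mem_union]
    constructor
    · rintro ⟨h | h, h3⟩
      · exact h
      · exact absurd (Finset.image_subset_image hW' h) h3
    · intro h
      exact ⟨Or.inl h, (Finset.mem_sdiff.mp (hR' h)).2⟩
  · intro T hT
    obtain ⟨hT1, hT2⟩ := Finset.mem_filter.mp (Finset.mem_coe.mp hT)
    ext b
    simp only [Finset.mem_sdiff, Finset.mem_union, Finset.mem_image]
    constructor
    · rintro (⟨h, -⟩ | ⟨w, hw, rfl⟩)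
      · exact h
      · rw [← hT2] at hw
        exact (Finset.mem_filter.mp hw).2
    · intro h
      by_cases hb : ∃ a ∈ V, m a = b
      · obtain ⟨a, ha, rfl⟩ := hb
        right
        refine ⟨a, ?_, rfl⟩
        rw [← hT2]
        exact Finset.mem_filter.mpr ⟨ha, h⟩
      · exact Or.inl ⟨h, hb⟩

/-! ### pixels -/

/-- The index of the pixel of side `2⁻ᵏ` which contains `z`. -/
noncomputable def pidx (k : ℕ) (z : ℂ) : ℤ × ℤ := (⌊z.re * 2 ^ k⌋, ⌊z.im * 2 ^ k⌋)

/-- The pixels of level `k` in a large window. -/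
noncomputable def win (k : ℕ) : Finset (ℤ × ℤ) :=
  Finset.Icc (-4 ^ k) (4 ^ k) ×ˢ Finset.Icc (-4 ^ k) (4 ^ k)

theorem measurable_pidx (k : ℕ) : Measurable (pidx k) := by
  have h1 : Measurable fun z : ℂ => ⌊z.re * 2 ^ k⌋ :=
    Int.measurable_floor.comp (Complex.measurable_re.mul_const _)
  have h2 : Measurable fun z : ℂ => ⌊z.im * 2 ^ k⌋ :=
    Int.measurable_floor.comp (Complex.measurable_im.mul_const _)
  exact h1.prodMk h2

theorem tendsto_two_pow : Tendsto (fun k : ℕ => (2 : ℝ) ^ k) atTop atTop :=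
  tendsto_pow_atTop_atTop_of_one_lt (by norm_num)

theorem eventually_floor_mem (x : ℝ) : ∀ᶠ k : ℕ in atTop,
    ⌊x * 2 ^ k⌋ ∈ Finset.Icc (-4 ^ k : ℤ) (4 ^ k) := by
  filter_upwards [tendsto_two_pow.eventually_ge_atTop |x|] with k hk
  have h4 : (4 : ℝ) ^ k = 2 ^ k * 2 ^ k := by rw [← mul_pow]; norm_num
  have hp : (0 : ℝ) < 2 ^ k := by positivity
  have h1 := abs_le.mp hk
  rw [Finset.mem_Icc]
  constructor
  · rw [Int.le_floor]
    push_cast
    rw [h4]
    nlinarith
  · have h2 : (⌊x * 2 ^ k⌋ : ℝ) ≤ x * 2 ^ k := Int.floor_le _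
    have h3 : (⌊x * 2 ^ k⌋ : ℝ) ≤ (4 : ℝ) ^ k := by
      rw [h4]
      nlinarith
    exact_mod_cast h3

theorem eventually_mem_win (z : ℂ) : ∀ᶠ k : ℕ in atTop, pidx k z ∈ win k := by
  filter_upwards [eventually_floor_mem z.re, eventually_floor_mem z.im] with k h1 h2
  exact Finset.mem_product.mpr ⟨h1, h2⟩

theorem eventually_floor_ne {x y : ℝ} (h : x ≠ y) : ∀ᶠ k : ℕ in atTop,
    ⌊x * 2 ^ k⌋ ≠ ⌊y * 2 ^ k⌋ := by
  filter_upwards [tendsto_two_pow.eventually_ge_atTop (1 / |x - y|)] with k hk heq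
  have hpos : 0 < |x - y| := abs_pos.mpr (sub_ne_zero.mpr h)
  have h1 : 1 ≤ |x * 2 ^ k - y * 2 ^ k| := by
    rw [← sub_mul, abs_mul, abs_of_pos (by positivity : (0 : ℝ) < 2 ^ k)]
    rw [div_le_iff₀ hpos] at hk
    linarith [mul_comm |x - y| ((2 : ℝ) ^ k)]
  exact absurd (Int.abs_sub_lt_one_of_floor_eq_floor heq) (not_lt.mpr h1)

theorem eventually_pidx_ne {z w : ℂ} (h : z ≠ w) : ∀ᶠ k : ℕ in atTop, pidx k z ≠ pidx k w := by
  by_cases hre : z.re = w.re
  · have him : z.im ≠ w.im := fun h' => h (Complex.ext hre h')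
    filter_upwards [eventually_floor_ne him] with k hk h'
    exact hk (congrArg Prod.snd h')
  · filter_upwards [eventually_floor_ne hre] with k hk h'
    exact hk (congrArg Prod.fst h')

theorem eventually_separated {V : Set ℂ} (hV : V.Finite) : ∀ᶠ k : ℕ in atTop,
    Set.InjOn (pidx k) V ∧ ∀ v ∈ V, pidx k v ∈ win k := by
  have h1 : ∀ᶠ k : ℕ in atTop, ∀ v ∈ V, ∀ w ∈ V, v ≠ w → pidx k v ≠ pidx k w := by
    refine (hV.eventually_all).mpr fun v _ => (hV.eventually_all).mpr fun w _ => ?_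
    by_cases h : v = w
    · exact Eventually.of_forall fun k h' => absurd h h'
    · filter_upwards [eventually_pidx_ne h] with k hk _ using hk
  filter_upwards [h1, (hV.eventually_all).mpr fun v _ => eventually_mem_win v] with k h2 h3
  exact ⟨fun v hv w hw h => by_contra fun h' => h2 v hv w hw h' h, h3⟩

/-! ### sums over recolourings -/

open Classical in
/-- The sum of `F` over all recolourings of the points of `S` in `B` (`0` if there are infinitely
many such points). A recolouring is given by the set `W` of flipped points. -/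
noncomputable def recolSum {M : Type*} [AddCommMonoid M] (B : Set ℂ) (F : Set Pt → M)
    (S : Set Pt) : M :=
  if h : (pts S ∩ B).Finite then ∑ W ∈ h.toFinset.powerset, F (flipOn (W : Set ℂ) '' S) else 0

theorem flipOn_image_congr {U U' : Set ℂ} {S : Set Pt} (h : ∀ v ∈ pts S, v ∈ U ↔ v ∈ U') :
    flipOn U '' S = flipOn U' '' S := by
  refine Set.image_congr fun q hq => ?_
  have h1 : q.1 ∈ pts S := ⟨q, hq, rfl⟩
  unfold flipOn
  by_cases h2 : q.1 ∈ U
  · rw [if_pos h2, if_pos ((h _ h1).mp h2)]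
  · rw [if_neg h2, if_neg fun h3 => h2 ((h _ h1).mpr h3)]

/-- The region of the pixels in `T`. -/
def pixReg (k : ℕ) (B : Set ℂ) (T : Finset (ℤ × ℤ)) : Set ℂ := {z | z ∈ B ∧ pidx k z ∈ T}

theorem measurableSet_pixReg (k : ℕ) {B : Set ℂ} (hB : MeasurableSet B) (T : Finset (ℤ × ℤ)) :
    MeasurableSet (pixReg k B T) :=
  hB.inter (measurable_pidx k (Finset.measurableSet T))

/-- The sum over all flips of pixels. -/
noncomputable def pixSum {M : Type*} [AddCommMonoid M] (k : ℕ) (B : Set ℂ) (F : Set Pt → M)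
    (S : Set Pt) : M :=
  ∑ T ∈ (win k).powerset, F (flipOn (pixReg k B T) '' S)

theorem pixSum_eq {M : Type*} [AddCommMonoid M] (k : ℕ) (B : Set ℂ) (F : Set Pt → M)
    (S : Set Pt) (h : (pts S ∩ B).Finite) (hinj : Set.InjOn (pidx k) (pts S ∩ B))
    (hwin : ∀ v ∈ pts S ∩ B, pidx k v ∈ win k) :
    pixSum k B F S = 2 ^ ((win k).card - (pts S ∩ B).ncard) • recolSum B F S := by
  classical
  have h1 := sum_powerset_trace h.toFinset (win k) (pidx k) (by rwa [h.coe_toFinset])
    (fun v hv => hwin v (h.mem_toFinset.mp hv)) (fun W => F (flipOn (W : Set ℂ) '' S))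
  rw [recolSum, dif_pos h, Set.ncard_eq_toFinset_card _ h, ← h1, pixSum]
  refine Finset.sum_congr rfl fun T _ => ?_
  congr 1
  refine flipOn_image_congr fun v hv => ?_
  simp only [pixReg, mem_ofPred_eq, Finset.coe_filter, Finite.mem_toFinset, mem_inter_iff]
  tauto

theorem ncard_le_win {k : ℕ} {V : Set ℂ} (hV : V.Finite) (hinj : Set.InjOn (pidx k) V)
    (hwin : ∀ v ∈ V, pidx k v ∈ win k) : V.ncard ≤ (win k).card := by
  classical
  rw [Set.ncard_eq_toFinset_card _ hV]
  refine Finset.card_le_card_of_injOn (pidx k) (fun v hv => ?_) ?_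
  · exact hwin v (hV.mem_toFinset.mp hv)
  · rwa [hV.coe_toFinset]

/-- The average of `F` over the recolourings of the points in `B`. -/
noncomputable def avg (B : Set ℂ) (F : Set Pt → ℝ≥0∞) (S : Set Pt) : ℝ≥0∞ :=
  (2 ^ (pts S ∩ B).ncard)⁻¹ * recolSum B F S

/-- The average of a vector valued `F` over the recolourings of the points in `B`. -/
noncomputable def avgE {E : Type*} [AddCommGroup E] [Module ℝ E] (B : Set ℂ) (F : Set Pt → E)
    (S : Set Pt) : E :=
  ((2 : ℝ) ^ (pts S ∩ B).ncard)⁻¹ • recolSum B F S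

theorem eventually_avg (B : Set ℂ) (F : Set Pt → ℝ≥0∞) (S : Set Pt) (h : (pts S ∩ B).Finite) :
    ∀ᶠ k : ℕ in atTop, (2 ^ (win k).card)⁻¹ * pixSum k B F S = avg B F S := by
  filter_upwards [eventually_separated h] with k hk
  have h1 := ncard_le_win h hk.1 hk.2
  rw [pixSum_eq k B F S h hk.1 hk.2, avg]
  have h2 : (win k).card = (win k).card - (pts S ∩ B).ncard + (pts S ∩ B).ncard := by omega
  conv_lhs => rw [h2]
  rw [Nat.add_sub_cancel, pow_add, nsmul_eq_mul, ENNReal.mul_inv (by simp) (by simp)]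
  push_cast
  rw [mul_assoc, mul_left_comm _ ((2 : ℝ≥0∞) ^ _) (recolSum B F S)] 
  rw [mul_comm ((2 : ℝ≥0∞) ^ (pts S ∩ B).ncard)⁻¹ _, ← mul_assoc, ← mul_assoc,
    ENNReal.inv_mul_cancel (by simp) (by simp), one_mul, mul_comm]

/-! ### the averaging theorem -/

section
variable {Ω : Type*} [MeasurableSpace Ω] {P : Measure Ω} {S : Ω → Set Pt} {lam : ℝ≥0}

theorem finite_pts (h : IsColouredPoisson P S lam) {B : Set ℂ} (hB : Bornology.IsBounded B)
    (ω : Ω) : (pts (S ω) ∩ B).Finite := by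
  obtain ⟨r, hr⟩ := hB.subset_ball (0 : ℂ)
  refine ((h.locFin ω r).image Prod.fst).subset ?_
  rintro v ⟨⟨q, hq, rfl⟩, hv⟩
  exact ⟨q, ⟨hq, hr hv, mem_univ _⟩, rfl⟩

theorem measurable_comp_flip (h : IsColouredPoisson P S lam) {U : Set ℂ} (hU : MeasurableSet U)
    {M : Type*} [MeasurableSpace M] {F : Set Pt → M} (hF : @Measurable _ _ voidSigma _ F) :
    Measurable fun ω => F (flipOn U '' S ω) :=
  @Measurable.comp _ _ _ _ voidSigma _ _ _ hF (measurable_flipOn_image h hU)

theorem measurable_pixSum (h : IsColouredPoisson P S lam) {B : Set ℂ} (hB : MeasurableSet B)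
    (k : ℕ) {M : Type*} [AddCommMonoid M] [MeasurableSpace M] [MeasurableAdd₂ M]
    {F : Set Pt → M} (hF : @Measurable _ _ voidSigma _ F) :
    Measurable fun ω => pixSum k B F (S ω) := by
  unfold pixSum
  exact Finset.measurable_sum _ fun T _ =>
    measurable_comp_flip h (measurableSet_pixReg k hB T) hF

theorem lintegral_pixSum [IsProbabilityMeasure P] (h : IsColouredPoisson P S lam) {B : Set ℂ}
    (hB : MeasurableSet B) (k : ℕ) {F : Set Pt → ℝ≥0∞} (hF : @Measurable _ _ voidSigma _ F) :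
    ∫⁻ ω, (2 ^ (win k).card)⁻¹ * pixSum k B F (S ω) ∂P = ∫⁻ ω, F (S ω) ∂P := by
  rw [lintegral_const_mul _ (measurable_pixSum h hB k hF)]
  have h1 : ∫⁻ ω, pixSum k B F (S ω) ∂P = 2 ^ (win k).card * ∫⁻ ω, F (S ω) ∂P := by
    unfold pixSum
    rw [lintegral_finsetSum _ fun T _ =>
      measurable_comp_flip h (measurableSet_pixReg k hB T) hF]
    rw [Finset.sum_congr rfl fun T _ => lintegral_flipOn h (measurableSet_pixReg k hB T) hF,
      Finset.sum_const, Finset.card_powerset, nsmul_eq_mul]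
    push_cast
    rfl
  rw [h1, ← mul_assoc, ENNReal.inv_mul_cancel (by simp) (by simp), one_mul]

theorem measurable_avg (h : IsColouredPoisson P S lam) {B : Set ℂ} (hB : MeasurableSet B)
    (hb : Bornology.IsBounded B) {F : Set Pt → ℝ≥0∞} (hF : @Measurable _ _ voidSigma _ F) :
    Measurable fun ω => avg B F (S ω) := by
  refine measurable_of_tendsto_metrizable
    (f := fun k ω => (2 ^ (win k).card)⁻¹ * pixSum k B F (S ω))
    (fun k => (measurable_pixSum h hB k hF).const_mul _) ?_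
  rw [tendsto_pi_nhds]
  intro ω
  exact tendsto_const_nhds.congr' ((eventually_avg B F (S ω) (finite_pts h hb ω)).mono
    fun k hk => hk.symm)

theorem pixSum_le {k : ℕ} {B : Set ℂ} {F : Set Pt → ℝ≥0∞} {C : ℝ≥0∞} (hC : ∀ T, F T ≤ C)
    (T : Set Pt) : (2 ^ (win k).card)⁻¹ * pixSum k B F T ≤ C := by
  have h1 : pixSum k B F T ≤ 2 ^ (win k).card * C := by
    refine (Finset.sum_le_card_nsmul _ _ C fun U _ => hC _).trans ?_
    rw [Finset.card_powerset, nsmul_eq_mul]
    push_cast
    rfl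
  calc (2 ^ (win k).card)⁻¹ * pixSum k B F T ≤ (2 ^ (win k).card)⁻¹ * (2 ^ (win k).card * C) := by
        gcongr
    _ = C := by rw [← mul_assoc, ENNReal.inv_mul_cancel (by simp) (by simp), one_mul]

theorem lintegral_avg_bdd [IsProbabilityMeasure P] (h : IsColouredPoisson P S lam) {B : Set ℂ}
    (hB : MeasurableSet B) (hb : Bornology.IsBounded B) {F : Set Pt → ℝ≥0∞}
    (hF : @Measurable _ _ voidSigma _ F) {C : ℝ≥0∞} (hC : ∀ T, F T ≤ C) (hC' : C ≠ ⊤) :
    ∫⁻ ω, avg B F (S ω) ∂P = ∫⁻ ω, F (S ω) ∂P := by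
  have h1 : Tendsto (fun k => ∫⁻ ω, (2 ^ (win k).card)⁻¹ * pixSum k B F (S ω) ∂P) atTop
      (𝓝 (∫⁻ ω, avg B F (S ω) ∂P)) := by
    refine tendsto_lintegral_of_dominated_convergence (fun _ => C)
      (fun k => (measurable_pixSum h hB k hF).const_mul _)
      (fun k => Eventually.of_forall fun ω => pixSum_le hC _) ?_
      (Eventually.of_forall fun ω => ?_)
    · simp [hC']
    · exact tendsto_const_nhds.congr' ((eventually_avg B F (S ω) (finite_pts h hb ω)).mono
        fun k hk => hk.symm)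
  refine tendsto_nhds_unique h1 ?_
  simp_rw [lintegral_pixSum h hB _ hF]
  exact tendsto_const_nhds

theorem measurable_min_const {X : Type*} {mX : MeasurableSpace X} {F : X → ℝ≥0∞}
    (hF : Measurable F) (c : ℝ≥0∞) : Measurable fun x => min (F x) c :=
  hF.min measurable_const

theorem recolSum_mono {B : Set ℂ} {F G : Set Pt → ℝ≥0∞} (hFG : ∀ T, F T ≤ G T) (T : Set Pt) :
    recolSum B F T ≤ recolSum B G T := by
  unfold recolSum
  split_ifs
  · exact Finset.sum_le_sum fun W _ => hFG _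
  · exact le_rfl

/-- **Q2.** Quenched averaging over the colours in a bounded Borel set. -/
theorem lintegral_avg [IsProbabilityMeasure P] (h : IsColouredPoisson P S lam) {B : Set ℂ}
    (hB : MeasurableSet B) (hb : Bornology.IsBounded B) {F : Set Pt → ℝ≥0∞}
    (hF : @Measurable _ _ voidSigma _ F) :
    ∫⁻ ω, avg B F (S ω) ∂P = ∫⁻ ω, F (S ω) ∂P := by
  have hFN : ∀ N : ℕ, @Measurable _ _ voidSigma _ fun T => min (F T) N := fun N =>
    @measurable_min_const _ voidSigma _ hF _
  have h0 : ∀ N : ℕ, ∫⁻ ω, avg B (fun T => min (F T) N) (S ω) ∂P = ∫⁻ ω, min (F (S ω)) N ∂P :=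
    fun N => lintegral_avg_bdd h hB hb (hFN N) (C := N) (fun T => min_le_right _ _) (by simp)
  have hlim : ∀ T : Set Pt, Tendsto (fun N : ℕ => min (F T) (N : ℝ≥0∞)) atTop (𝓝 (F T)) := by
    intro T
    have h1 : Tendsto (fun N : ℕ => (N : ℝ≥0∞)) atTop (𝓝 ⊤) := ENNReal.tendsto_nat_nhds_top
    have h2 : Tendsto (fun N : ℕ => min (F T) (N : ℝ≥0∞)) atTop (𝓝 (min (F T) ⊤)) :=
      tendsto_const_nhds.min h1
    rwa [min_eq_left le_top] at h2
  have hmono : ∀ T : Set Pt, Monotone fun N : ℕ => min (F T) (N : ℝ≥0∞) := fun T a b hab =>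
    min_le_min le_rfl (by exact_mod_cast hab)
  have h1 : Tendsto (fun N : ℕ => ∫⁻ ω, avg B (fun T => min (F T) N) (S ω) ∂P) atTop
      (𝓝 (∫⁻ ω, avg B F (S ω) ∂P)) := by
    refine lintegral_tendsto_of_tendsto_of_monotone
      (fun N => (measurable_avg h hB hb (hFN N)).aemeasurable)
      (Eventually.of_forall fun ω => ?_) (Eventually.of_forall fun ω => ?_)
    · intro a b hab
      exact mul_le_mul_right (recolSum_mono (fun T => hmono T hab) _) _
    · unfold avg
      refine ENNReal.Tendsto.const_mul ?_ (Or.inr (by simp))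
      unfold recolSum
      simp only [dif_pos (finite_pts h hb ω)]
      exact tendsto_finsetSum _ fun W _ => hlim _
  have h2 : Tendsto (fun N : ℕ => ∫⁻ ω, min (F (S ω)) N ∂P) atTop (𝓝 (∫⁻ ω, F (S ω) ∂P)) := by
    refine lintegral_tendsto_of_tendsto_of_monotone
      (fun N => (@Measurable.comp _ _ _ _ voidSigma _ _ _ (hFN N) h.measurable_self).aemeasurable)
      (Eventually.of_forall fun ω => hmono _) (Eventually.of_forall fun ω => hlim _)
  refine tendsto_nhds_unique h1 ?_
  simp_rw [h0]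
  exact h2

/-- The exchange principle, inequality. -/
theorem lintegral_le_of_recolSum_le [IsProbabilityMeasure P] (h : IsColouredPoisson P S lam)
    {B : Set ℂ} (hB : MeasurableSet B) (hb : Bornology.IsBounded B) {F G : Set Pt → ℝ≥0∞}
    (hF : @Measurable _ _ voidSigma _ F) (hG : @Measurable _ _ voidSigma _ G)
    (hFG : ∀ᵐ ω ∂P, recolSum B F (S ω) ≤ recolSum B G (S ω)) :
    ∫⁻ ω, F (S ω) ∂P ≤ ∫⁻ ω, G (S ω) ∂P := by
  rw [← lintegral_avg h hB hb hF, ← lintegral_avg h hB hb hG]
  exact lintegral_mono_ae (hFG.mono fun ω hω => mul_le_mul_right hω _)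

/-- The exchange principle. -/
theorem lintegral_eq_of_recolSum_eq [IsProbabilityMeasure P] (h : IsColouredPoisson P S lam)
    {B : Set ℂ} (hB : MeasurableSet B) (hb : Bornology.IsBounded B) {F G : Set Pt → ℝ≥0∞}
    (hF : @Measurable _ _ voidSigma _ F) (hG : @Measurable _ _ voidSigma _ G)
    (hFG : ∀ᵐ ω ∂P, recolSum B F (S ω) = recolSum B G (S ω)) :
    ∫⁻ ω, F (S ω) ∂P = ∫⁻ ω, G (S ω) ∂P :=
  le_antisymm (lintegral_le_of_recolSum_le h hB hb hF hG (hFG.mono fun _ h => h.le))
    (lintegral_le_of_recolSum_le h hB hb hG hF (hFG.mono fun _ h => h.ge))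

end

end H729
end P148
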