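import Vale.Agent.P148.R2.H729.Q1

/-!
# P148, module Q, part 5: the law depends on the intensity only; isometries; scaling
-/

open MeasureTheory Set Metric Topology Filter ProbabilityTheory
open scoped ENNReal NNReal

set_option linter.unusedSectionVars false

namespace P148
namespace H729

section
variable {Ω : Type*} [MeasurableSpace Ω] {P : Measure Ω} {S : Ω → Set Pt} {lam : ℝ≥0}
variable {Ω' : Type*} [MeasurableSpace Ω'] {P' : Measure Ω'} {S' : Ω' → Set Pt} {lam' : ℝ≥0}

/-- The law of the configuration depends only on the intensity. -/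
theorem law_eq [IsProbabilityMeasure P] [IsProbabilityMeasure P'] (h : IsColouredPoisson P S lam)
    (h' : IsColouredPoisson P' S' lam) :
    @Measure.map _ _ _ voidSigma S' P' = @Measure.map _ _ _ voidSigma S P := by
  refine map_eq_of_void h.measurable_self h'.measurable_self fun A hm hA => ?_
  rw [void_prob' h hm hA, void_prob' h' hm hA]

theorem lintegral_law_eq [IsProbabilityMeasure P] [IsProbabilityMeasure P']
    (h : IsColouredPoisson P S lam) (h' : IsColouredPoisson P' S' lam) {F : Set Pt → ℝ≥0∞}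
    (hF : @Measurable _ _ voidSigma _ F) : ∫⁻ ω, F (S' ω) ∂P' = ∫⁻ ω, F (S ω) ∂P :=
  @lintegral_of_map_eq _ _ _ voidSigma _ _ _ _ _ _ h.measurable_self h'.measurable_self
    (law_eq h h') _ hF

theorem integral_law_eq [IsProbabilityMeasure P] [IsProbabilityMeasure P']
    {E : Type*} [NormedAddCommGroup E] [NormedSpace ℝ E] [MeasurableSpace E] [BorelSpace E]
    [SecondCountableTopology E]
    (h : IsColouredPoisson P S lam) (h' : IsColouredPoisson P' S' lam) {F : Set Pt → E}
    (hF : @Measurable _ _ voidSigma _ F) : ∫ ω, F (S' ω) ∂P' = ∫ ω, F (S ω) ∂P :=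
  @integral_of_map_eq _ _ _ voidSigma _ _ _ _ _ _ _ _ _ _ _ _ h.measurable_self
    h'.measurable_self (law_eq h h') _ hF

theorem prob_law_eq [IsProbabilityMeasure P] [IsProbabilityMeasure P']
    (h : IsColouredPoisson P S lam) (h' : IsColouredPoisson P' S' lam) {E : Set (Set Pt)}
    (hE : @MeasurableSet _ voidSigma E) : P' {ω | S' ω ∈ E} = P {ω | S ω ∈ E} := by
  have h1 := congrArg (fun μ : @Measure (Set Pt) voidSigma => μ E) (law_eq h h')
  rw [@Measure.map_apply _ _ _ voidSigma _ _ h'.measurable_self _ hE,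
    @Measure.map_apply _ _ _ voidSigma _ _ h.measurable_self _ hE] at h1
  exact h1

/-- The map on coloured points induced by a map of the plane and a map of the colours. -/
def mapP (g : ℂ → ℂ) (τ : Bool → Bool) (q : Pt) : Pt := (g q.1, τ q.2)

/-- The image of a coloured Poisson process under a bijection of coloured points which maps the
intensity to the intensity. -/
theorem image_poisson (h : IsColouredPoisson P S lam) {g : Pt → Pt}
    (hinj : Function.Injective g) (hg : MeasurePreserving g (inten lam) (inten lam'))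
    (hb : ∀ A, Bdd A → Bdd (g ⁻¹' A))
    (hc : ∀ p q : Pt, (g p).1 = (g q).1 → p.1 = q.1 ∧ (p.2 = q.2 → (g p).2 = (g q).2)) :
    IsColouredPoisson P (fun ω => g '' S ω) lam' := by
  have key : ∀ (A : Set Pt) (ω : Ω), (g '' S ω ∩ A).ncard = (S ω ∩ g ⁻¹' A).ncard := by
    intro A ω
    rw [← Set.image_inter_preimage, Set.ncard_image_of_injective _ hinj]
  refine ⟨?_, ?_, ?_, ?_, ?_⟩
  · intro ω r
    rw [← Set.image_inter_preimage]
    exact (h.finite_inter ω (hb _ ⟨r, subset_rfl⟩)).image g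
  · rintro ω z ⟨⟨p, hp, hp'⟩, ⟨q, hq, hq'⟩⟩
    have h1 := hc p q (by rw [hp', hq'])
    have hne : p.2 ≠ q.2 := by
      intro hpq
      have := h1.2 hpq
      rw [hp', hq'] at this
      simp at this
    have hcol := h.oneColour ω p.1
    rcases hp2 : p.2 with _ | _ <;> rcases hq2 : q.2 with _ | _
    · exact hne (by rw [hp2, hq2])
    · refine hcol ⟨?_, ?_⟩
      · rw [h1.1, ← hq2]; exact hq
      · rw [← hp2]; exact hp
    · refine hcol ⟨?_, ?_⟩
      · rw [← hp2]; exact hp
      · rw [h1.1, ← hq2]; exact hq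
    · exact hne (by rw [hp2, hq2])
  · intro A hm hA
    simp_rw [key A]
    exact h.meas _ (hg.measurable hm) (hb A hA)
  · intro A hm hA
    simp_rw [key A]
    rw [h.law _ (hg.measurable hm) (hb A hA), hg.measure_preimage hm.nullMeasurableSet]
  · intro n A hm hA hd
    have := h.indep n (fun i => g ⁻¹' A i) (fun i => hg.measurable (hm i)) (fun i => hb _ (hA i))
      (fun i j hij => (hd hij).preimage g)
    simpa only [key] using this

/-- Scaling of the plane. -/
def scaleP (r : ℝ) (q : Pt) : Pt := ((r : ℂ) * q.1, q.2)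

theorem measurePreserving_scale (lam : ℝ≥0) {r : ℝ≥0} (hr : r ≠ 0) :
    MeasurePreserving (scaleP r) (inten lam) (inten (lam / r ^ 2)) := by
  have hr' : (r : ℝ) ≠ 0 := by exact_mod_cast hr
  have h1 : Measure.map (fun z : ℂ => ((r : ℝ) : ℂ) * z) (volume : Measure ℂ) =
      (r ^ 2)⁻¹ • (volume : Measure ℂ) := by
    have h2 := Measure.map_addHaar_smul (volume : Measure ℂ) hr'
    have h3 : (fun z : ℂ => (r : ℝ) • z) = fun z : ℂ => ((r : ℝ) : ℂ) * z := by
      funext z
      exact Complex.real_smul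
    have h4 : ((r : ℝ) • · : ℂ → ℂ) = fun z : ℂ => ((r : ℝ) : ℂ) * z := h3
    rw [h4] at h2
    rw [h2, Complex.finrank_real_complex]
    have h5 : ENNReal.ofReal |((r : ℝ) ^ 2)⁻¹| = (((r ^ 2)⁻¹ : ℝ≥0) : ℝ≥0∞) := by
      rw [abs_of_nonneg (by positivity)]
      rw [← NNReal.coe_pow, ← NNReal.coe_inv, ENNReal.ofReal_coe_nnreal]
    rw [h5]
    rfl
  have hm : Measurable fun z : ℂ => ((r : ℝ) : ℂ) * z := measurable_const_mul _
  have h6 : MeasurePreserving (fun z : ℂ => ((r : ℝ) : ℂ) * z) (volume : Measure ℂ)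
      ((r ^ 2)⁻¹ • (volume : Measure ℂ)) := ⟨hm, h1⟩
  have hfair : SFinite fair := by
    unfold fair
    infer_instance
  have h7 : MeasurePreserving (Prod.map (fun z : ℂ => ((r : ℝ) : ℂ) * z) id)
      ((volume : Measure ℂ).prod fair) (((r ^ 2)⁻¹ • (volume : Measure ℂ)).prod fair) :=
    h6.prod (MeasurePreserving.id fair)
  have h8 : scaleP (r : ℝ) = Prod.map (fun z : ℂ => ((r : ℝ) : ℂ) * z) id := by
    funext q
    rfl
  refine ⟨?_, ?_⟩
  · rw [h8]
    exact h7.measurable
  · rw [h8]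
    unfold inten
    rw [Measure.map_smul, h7.map_eq, Measure.prod_smul_left, smul_smul, div_eq_mul_inv]

theorem bdd_scale {r : ℝ} (hr : 0 < r) (A : Set Pt) (hA : Bdd A) : Bdd (scaleP r ⁻¹' A) := by
  obtain ⟨ρ, hρ⟩ := hA
  refine ⟨ρ / r, fun q hq => ⟨?_, mem_univ _⟩⟩
  have h1 := (hρ hq).1
  rw [mem_ball_zero_iff] at h1 ⊢
  have h2 : ‖(scaleP r q).1‖ = r * ‖q.1‖ := by
    show ‖(r : ℂ) * q.1‖ = _
    rw [norm_mul, Complex.norm_real, Real.norm_eq_abs, abs_of_pos hr]
  rw [h2] at h1
  rw [lt_div_iff₀ hr]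
  linarith

/-- **Scaling**: `r • S` is a coloured Poisson process of intensity `lam / r ^ 2`. -/
theorem scale_poisson (h : IsColouredPoisson P S lam) {r : ℝ≥0} (hr : r ≠ 0) :
    IsColouredPoisson P (fun ω => scaleP r '' S ω) (lam / r ^ 2) := by
  have hr' : (r : ℂ) ≠ 0 := by exact_mod_cast hr
  have hpos : (0 : ℝ) < r := lt_of_le_of_ne r.2 fun h => hr (by exact_mod_cast h.symm)
  refine image_poisson h ?_ (measurePreserving_scale lam hr) (bdd_scale hpos) ?_
  · intro p q hpq
    have h1 : ((r : ℝ) : ℂ) * p.1 = ((r : ℝ) : ℂ) * q.1 := congrArg Prod.fst hpq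
    have h2 : (scaleP r p).2 = (scaleP r q).2 := by rw [hpq]
    exact Prod.ext (mul_left_cancel₀ hr' h1) h2
  · intro p q hpq
    have h1 : ((r : ℝ) : ℂ) * p.1 = ((r : ℝ) : ℂ) * q.1 := hpq
    exact ⟨mul_left_cancel₀ hr' h1, fun h2 => h2⟩

/-- The map on coloured points induced by an isometry of the plane and a permutation of the
colours. -/
noncomputable def isoP (σ : ℂ ≃ᵢ ℂ) (τ : Equiv.Perm Bool) (q : Pt) : Pt := (σ q.1, τ q.2)

/-- **Isometries**: the image under an isometry (and a permutation of the colours) is a coloured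
Poisson process of the same intensity. -/
theorem iso_poisson (h : IsColouredPoisson P S lam) (σ : ℂ ≃ᵢ ℂ) (τ : Equiv.Perm Bool) :
    IsColouredPoisson P (fun ω => isoP σ τ '' S ω) lam := by
  refine image_poisson h ?_ (measurePreserving_inten lam σ τ) (fun A hA => bdd_preimage σ τ hA) ?_
  · intro p q hpq
    have h1 : σ p.1 = σ q.1 := congrArg Prod.fst hpq
    have h2 : τ p.2 = τ q.2 := congrArg Prod.snd hpq
    exact Prod.ext (σ.injective h1) (τ.injective h2)
  · intro p q hpq
    exact ⟨σ.injective hpq, fun h2 => congrArg τ h2⟩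

theorem lintegral_iso [IsProbabilityMeasure P] (h : IsColouredPoisson P S lam) (σ : ℂ ≃ᵢ ℂ)
    (τ : Equiv.Perm Bool) {F : Set Pt → ℝ≥0∞} (hF : @Measurable _ _ voidSigma _ F) :
    ∫⁻ ω, F (isoP σ τ '' S ω) ∂P = ∫⁻ ω, F (S ω) ∂P :=
  lintegral_law_eq h (iso_poisson h σ τ) hF

theorem integral_iso [IsProbabilityMeasure P] {E : Type*} [NormedAddCommGroup E]
    [NormedSpace ℝ E] [MeasurableSpace E] [BorelSpace E] [SecondCountableTopology E]
    (h : IsColouredPoisson P S lam) (σ : ℂ ≃ᵢ ℂ)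
    (τ : Equiv.Perm Bool) {F : Set Pt → E} (hF : @Measurable _ _ voidSigma _ F) :
    ∫ ω, F (isoP σ τ '' S ω) ∂P = ∫ ω, F (S ω) ∂P :=
  integral_law_eq h (iso_poisson h σ τ) hF

/-- The scaling relation for expectations: `S'` of intensity `lam / r ^ 2` has the law of `r • S`. -/
theorem lintegral_scale [IsProbabilityMeasure P] [IsProbabilityMeasure P']
    (h : IsColouredPoisson P S lam) {r : ℝ≥0} (hr : r ≠ 0)
    (h' : IsColouredPoisson P' S' (lam / r ^ 2)) {F : Set Pt → ℝ≥0∞}
    (hF : @Measurable _ _ voidSigma _ F) :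
    ∫⁻ ω, F (scaleP r '' S ω) ∂P = ∫⁻ ω, F (S' ω) ∂P' :=
  lintegral_law_eq h' (scale_poisson h hr) hF

theorem integral_scale [IsProbabilityMeasure P] [IsProbabilityMeasure P']
    {E : Type*} [NormedAddCommGroup E] [NormedSpace ℝ E] [MeasurableSpace E] [BorelSpace E]
    [SecondCountableTopology E]
    (h : IsColouredPoisson P S lam) {r : ℝ≥0} (hr : r ≠ 0)
    (h' : IsColouredPoisson P' S' (lam / r ^ 2)) {F : Set Pt → E}
    (hF : @Measurable _ _ voidSigma _ F) :
    ∫ ω, F (scaleP r '' S ω) ∂P = ∫ ω, F (S' ω) ∂P' :=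
  integral_law_eq h' (scale_poisson h hr) hF

end

end H729
end P148
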