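import Vale.Agent.P148.R2.H729.Q1

/-!
# P148, module Q, part 3: spatial independence and resampling
-/

open MeasureTheory Set Metric Topology Filter ProbabilityTheory
open scoped ENNReal NNReal

set_option linter.unusedSectionVars false

namespace P148
namespace H729

/-- The part of the configuration over `U`. -/
def res (U : Set ℂ) (T : Set Pt) : Set Pt := T ∩ U ×ˢ univ

theorem res_union (U V : Set ℂ) (T : Set Pt) : res (U ∪ V) T = res U T ∪ res V T := by
  unfold res
  rw [Set.union_prod, Set.inter_union_distrib_left]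

theorem res_res (U V : Set ℂ) (T : Set Pt) : res U (res V T) = res (U ∩ V) T := by
  unfold res
  ext q
  simp only [mem_inter_iff, mem_prod, mem_univ, and_true]
  tauto

@[simp] theorem res_univ (T : Set Pt) : res univ T = T := by
  ext q
  simp only [res, mem_inter_iff, mem_prod, mem_univ, and_true]

theorem res_subset (U : Set ℂ) (T : Set Pt) : res U T ⊆ T := inter_subset_left

theorem res_union_compl (U : Set ℂ) (T : Set Pt) : res U T ∪ res Uᶜ T = T := by
  rw [← res_union, Set.union_compl_self, res_univ]

theorem measurable_res {U : Set ℂ} (hU : MeasurableSet U) :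
    @Measurable _ _ voidSigma voidSigma (res U) := by
  refine @measurable_void _ voidSigma _ fun A hm hA => ?_
  have h1 : {T : Set Pt | res U T ∩ A = ∅} = {T : Set Pt | T ∩ (U ×ˢ univ ∩ A) = ∅} := by
    ext T
    simp only [res, mem_ofPred_eq, Set.inter_assoc]
  rw [h1]
  exact measurableSet_voidEvent ((hU.prod MeasurableSet.univ).inter hm)
    (bdd_mono inter_subset_right hA)

/-- The union of two configurations. -/
def cup (p : Conf × Conf) : Conf := (@Union.union (Set Pt) _ p.1 p.2 : Set Pt)

theorem cup_apply (T T' : Set Pt) : cup (T, T') = (T ∪ T' : Set Pt) := rfl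

/-- The union of two configurations is measurable. -/
theorem measurable_cup : Measurable cup := by
  refine @measurable_void _ _ _ fun A hm hA => ?_
  have h0 : @MeasurableSet Conf _ {T : Set Pt | T ∩ A = ∅} :=
    measurableSet_voidEvent hm hA
  have h1 := (measurable_fst (α := Conf) (β := Conf) h0).inter
    (measurable_snd (α := Conf) (β := Conf) h0)
  have h2 : {p : Conf × Conf | @Inter.inter (Set Pt) _ (cup p) A = ∅} =
      (Prod.fst ⁻¹' (show Set Conf from {T : Set Pt | T ∩ A = ∅}) ∩
        Prod.snd ⁻¹' (show Set Conf from {T : Set Pt | T ∩ A = ∅})) := by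
    ext p
    obtain ⟨T, T'⟩ := p
    have key : ∀ T T' : Set Pt, (T ∪ T') ∩ A = ∅ ↔ T ∩ A = ∅ ∧ T' ∩ A = ∅ := by
      intro T T'
      rw [Set.union_inter_distrib_right, Set.union_empty_iff]
    exact key T T'
  have h3 : MeasurableSet {p : Conf × Conf | @Inter.inter (Set Pt) _ (cup p) A = ∅} := by
    rw [h2]; exact h1
  exact h3

section
variable {Ω : Type*} [MeasurableSpace Ω] {P : Measure Ω} {S : Ω → Set Pt} {lam : ℝ≥0}

theorem measurable_res_comp (h : IsColouredPoisson P S lam) {U : Set ℂ} (hU : MeasurableSet U) :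
    @Measurable _ _ _ voidSigma fun ω => res U (S ω) :=
  @Measurable.comp _ _ _ _ voidSigma voidSigma _ _ (measurable_res hU) h.measurable_self

/-- The sigma-algebra of the configuration over `U`. -/
@[reducible] def sig (S : Ω → Set Pt) (U : Set ℂ) : MeasurableSpace Ω :=
  MeasurableSpace.comap (fun ω => res U (S ω)) voidSigma

theorem sig_le (h : IsColouredPoisson P S lam) {U : Set ℂ} (hU : MeasurableSet U) :
    sig S U ≤ ‹MeasurableSpace Ω› :=
  (measurable_res_comp h hU).comap_le

/-- **Q3.** The parts of the configuration over disjoint Borel sets are independent. -/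
theorem iIndep_sig [IsProbabilityMeasure P] (h : IsColouredPoisson P S lam) {ι : Type*}
    {U : ι → Set ℂ} (hU : ∀ i, MeasurableSet (U i))
    (hd : Pairwise fun i j => Disjoint (U i) (U j)) : iIndep (fun i => sig S (U i)) P := by
  have hgen : ∀ i, sig S (U i) = MeasurableSpace.generateFrom
      {s | ∃ t ∈ voids, (fun ω => res (U i) (S ω)) ⁻¹' t = s} := by
    intro i
    exact MeasurableSpace.comap_generateFrom
  refine iIndepSets.iIndep (fun i => sig_le h (hU i)) (fun i =>
    {s | ∃ t ∈ voids, (fun ω => res (U i) (S ω)) ⁻¹' t = s})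
    (fun i => isPiSystem_voids.comap _) hgen ?_
  rw [iIndepSets_iff]
  intro s f hf
  choose! t ht htf using hf
  choose! A hA using fun i (hi : i ∈ s) => ht i hi
  set C : ι → Set Pt := fun i => U i ×ˢ univ ∩ A i with hC
  have hCm : ∀ i ∈ s, MeasurableSet (C i) := fun i hi =>
    ((hU i).prod MeasurableSet.univ).inter (hA i hi).1
  have hCb : ∀ i ∈ s, Bdd (C i) := fun i hi => bdd_mono inter_subset_right (hA i hi).2.1
  have hf' : ∀ i ∈ s, f i = {ω | S ω ∩ C i = ∅} := by
    intro i hi
    rw [← htf i hi, (hA i hi).2.2]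
    ext ω
    simp only [mem_preimage, mem_ofPred_eq, res, hC, Set.inter_assoc]
  have h1 : (⋂ i ∈ s, f i) = {ω | S ω ∩ (⋃ i ∈ s, C i) = ∅} := by
    ext ω
    simp only [mem_iInter, mem_ofPred_eq]
    constructor
    · intro hω
      rw [Set.eq_empty_iff_forall_notMem]
      rintro q ⟨hq, hq'⟩
      obtain ⟨i, hi, hqi⟩ := mem_iUnion₂.mp hq'
      have := hω i hi
      rw [hf' i hi] at this
      exact (Set.eq_empty_iff_forall_notMem.mp this) q ⟨hq, hqi⟩
    · intro hω i hi
      rw [hf' i hi]
      show S ω ∩ C i = ∅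
      rw [Set.eq_empty_iff_forall_notMem]
      rintro q ⟨hq, hq'⟩
      exact (Set.eq_empty_iff_forall_notMem.mp hω) q ⟨hq, mem_iUnion₂.mpr ⟨i, hi, hq'⟩⟩
  have hbU : Bdd (⋃ i ∈ s, C i) := by
    classical
    clear h1 hf' htf ht
    induction s using Finset.induction_on with
    | empty => exact ⟨0, by simp⟩
    | insert a s ha ih =>
      rw [Finset.set_biUnion_insert]
      exact bdd_union (hCb a (Finset.mem_insert_self _ _))
        (ih (fun i hi => hA i (Finset.mem_insert_of_mem hi))
          (fun i hi => hCm i (Finset.mem_insert_of_mem hi))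
          (fun i hi => hCb i (Finset.mem_insert_of_mem hi)))
  have hmU : MeasurableSet (⋃ i ∈ s, C i) := s.measurableSet_biUnion hCm
  rw [h1, void_prob' h hmU hbU]
  have h2 : inten lam (⋃ i ∈ s, C i) = ∑ i ∈ s, inten lam (C i) := by
    refine measure_biUnion_finset ?_ hCm
    intro i _ j _ hij
    rw [Function.onFun, Set.disjoint_left]
    rintro q ⟨hq, -⟩ ⟨hq', -⟩
    exact Set.disjoint_left.mp (hd hij) hq.1 hq'.1
  rw [h2, ENNReal.toReal_sum fun i hi => (inten_lt_top lam (hCb i hi)).ne, ← Finset.sum_neg_distrib,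
    Real.exp_sum, ENNReal.ofReal_prod_of_nonneg fun i _ => (Real.exp_pos _).le]
  refine Finset.prod_congr rfl fun i hi => ?_
  rw [hf' i hi, void_prob' h (hCm i hi) (hCb i hi)]

/-- Independence of the configurations over two disjoint Borel sets. -/
theorem indep_sig [IsProbabilityMeasure P] (h : IsColouredPoisson P S lam)
    {U V : Set ℂ} (hU : MeasurableSet U) (hV : MeasurableSet V)
    (hd : Disjoint U V) : Indep (sig S U) (sig S V) P := by
  have h1 := iIndep_sig h (ι := Bool) (U := fun b => if b then U else V)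
    (by intro b; cases b <;> simpa) (by
      intro a b hab
      cases a <;> cases b <;> simp_all [Disjoint.symm])
  simpa using h1.indep (i := true) (j := false) (by simp)

/-- The configuration over `U` as a random element of `Conf`. -/
def resC (S : Ω → Set Pt) (U : Set ℂ) : Ω → Conf := fun ω => res U (S ω)

theorem measurable_resC (h : IsColouredPoisson P S lam) {U : Set ℂ} (hU : MeasurableSet U) :
    Measurable (resC S U) := measurable_res_comp h hU

theorem indepFun_resC [IsProbabilityMeasure P] (h : IsColouredPoisson P S lam)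
    {U V : Set ℂ} (hU : MeasurableSet U) (hV : MeasurableSet V)
    (hd : Disjoint U V) : IndepFun (resC S U) (resC S V) P := by
  rw [IndepFun_iff_Indep]
  exact indep_sig h hU hV hd

/-- Product formula for two disjoint regions. -/
theorem lintegral_mul_res [IsProbabilityMeasure P] (h : IsColouredPoisson P S lam)
    {U V : Set ℂ} (hU : MeasurableSet U) (hV : MeasurableSet V) (hd : Disjoint U V)
    {F G : Set Pt → ℝ≥0∞} (hF : @Measurable _ _ voidSigma _ F) (hG : @Measurable _ _ voidSigma _ G) :
    ∫⁻ ω, F (res U (S ω)) * G (res V (S ω)) ∂P =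
      (∫⁻ ω, F (res U (S ω)) ∂P) * ∫⁻ ω, G (res V (S ω)) ∂P := by
  have hF' : @Measurable Conf ℝ≥0∞ _ _ F := hF
  have hG' : @Measurable Conf ℝ≥0∞ _ _ G := hG
  have h1 : IndepFun (fun ω => F (resC S U ω)) (fun ω => G (resC S V ω)) P :=
    (indepFun_resC h hU hV hd).comp hF' hG'
  exact lintegral_mul_eq_lintegral_mul_lintegral_of_indepFun
    (hF'.comp (measurable_resC h hU)) (hG'.comp (measurable_resC h hV)) h1

/-- Fubini for two disjoint regions. -/
theorem lintegral_res_fubini [IsProbabilityMeasure P] (h : IsColouredPoisson P S lam)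
    {U V : Set ℂ} (hU : MeasurableSet U) (hV : MeasurableSet V) (hd : Disjoint U V)
    {f : Conf × Conf → ℝ≥0∞} (hf : Measurable f) :
    ∫⁻ ω, f (resC S U ω, resC S V ω) ∂P =
      ∫⁻ ω, ∫⁻ ω', f (resC S U ω, resC S V ω') ∂P ∂P := by
  have hmU := measurable_resC h hU
  have hmV := measurable_resC h hV
  have h1 := (indepFun_iff_map_prod_eq_prod_map_map hmU.aemeasurable hmV.aemeasurable).mp
    (indepFun_resC h hU hV hd)
  have e : ∫⁻ ω, f (resC S U ω, resC S V ω) ∂P =
      ∫⁻ p, f p ∂(P.map fun ω => (resC S U ω, resC S V ω)) :=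
    (lintegral_map hf (hmU.prodMk hmV)).symm
  have hp1 : IsProbabilityMeasure (P.map (resC S U)) := Measure.isProbabilityMeasure_map hmU.aemeasurable
  have hp2 : IsProbabilityMeasure (P.map (resC S V)) := Measure.isProbabilityMeasure_map hmV.aemeasurable
  rw [e, h1, lintegral_prod _ hf.aemeasurable, lintegral_map hf.lintegral_prod_right' hmU]
  refine lintegral_congr fun ω => ?_
  exact lintegral_map (hf.comp measurable_prodMk_left) hmV

/-- **Resampling**: the configuration over `U` and an independent copy outside `U` give together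
a configuration with the same law. -/
theorem lintegral_resample [IsProbabilityMeasure P] (h : IsColouredPoisson P S lam)
    {U : Set ℂ} (hU : MeasurableSet U) {F : Set Pt → ℝ≥0∞} (hF : @Measurable _ _ voidSigma _ F) :
    ∫⁻ ω, F (S ω) ∂P = ∫⁻ ω, ∫⁻ ω', F (res U (S ω) ∪ res Uᶜ (S ω')) ∂P ∂P := by
  have hF' : @Measurable Conf ℝ≥0∞ _ _ F := hF
  have hf : Measurable fun p : Conf × Conf => F (cup p) := hF'.comp measurable_cup
  have h1 := lintegral_res_fubini h hU hU.compl disjoint_compl_right hf
  have h2 : ∀ ω, F (S ω) = F (res U (S ω) ∪ res Uᶜ (S ω)) := fun ω => by rw [res_union_compl]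
  simp_rw [h2]
  exact h1

end

end H729
end P148
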