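import Vale.Agent.P148.R2.H565.Vk
import Vale.Agent.P148.R2.H504.Tk
import Vale.Agent.P148.R2.H172.N3c
import Vale.Agent.P148.R2.H488.Cw
import Vale.Agent.P148.R2.H598.Lln2

/-!
# P148, row N5: the quenched local means `m k` (definition)

For a finite set `Y` of points, `mraw M Θ k Y` is the mean of the value `cellV` of the cell `k` over
the pairs `(B₁, B₂)` of subsets of `Y` (black points of the first and of the second colouring) such
that the hub and corridor events of all the gates `l ∈ tk M k` hold; `cellV` is evaluated at the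
composite colouring (`cmp`).

`mT M Θ K R k T` is the truncated mean as a function of the configuration `T`, which depends on the
points of `T` in the window `win M R k` only; the weight is `cw (hc M k) Θ`.
-/

open MeasureTheory Set Metric

namespace P148
namespace H729

open Vale.Agent.P148.R2
open Vale.Agent.P148.R2.H184 (Dt)
open Vale.Agent.P148.R2.H565 (cellV Qw gb)
open Vale.Agent.P148.R2.H504 (tk)
open Vale.Agent.P148.R2.H172 (ExT)
open Vale.Agent.P148.R2.H488 (cw hc)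
open Vale.Agent.P148.R2.H592 (Three)
open Vale.Agent.P148.R2.H678 (mix)
open Vale.Agent.P148.R2.H938 (HubEv CorEv)
open Vale.Agent.P148.R2.N (ms nc)

/-- The pairs of sets of black points of `Y` for which all the events of the gates in `t` hold. -/
def GPs (M : ℕ) (t : Finset ℕ) (Y : Set ℂ) : Set (Set ℂ × Set ℂ) :=
  {p | (p.1 ⊆ Y ∧ p.2 ⊆ Y) ∧ ∀ l ∈ t, HubEv M Y p.1 (Y \ p.1) l ∧ CorEv M Y p.2 (Y \ p.2) l}

/-- The black points of the composite colouring: first colouring in the hubs of the gates in `t`,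
second one elsewhere. -/
def cmp (M : ℕ) (t : Finset ℕ) (Y B₁ B₂ : Set ℂ) : Set ℂ := mix (ExT M Y B₁ (Y \ B₁) t) B₁ B₂

/-- The local quenched mean of the value of the cell `k` on the finite set `Y` of points. -/
noncomputable def mraw (M : ℕ) (Θ : Dt → ℂ) (k : ℕ) (Y : Set ℂ) : ℂ :=
  (∑ᶠ p ∈ GPs M (tk M k) Y, cellV M Y (cmp M (tk M k) Y p.1 p.2) Θ k) /
    ((GPs M (tk M k) Y).ncard : ℂ)

open Classical in
/-- The truncated mean. -/
noncomputable def mtr (M : ℕ) (Θ : Dt → ℂ) (K : ℝ) (k : ℕ) (Y : Set ℂ) : ℂ :=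
  if Three (Y ∩ Qw M (gb M k)) ∧ ‖mraw M Θ k Y‖ ^ 2 ≤ K * ms M ^ 2 then mraw M Θ k Y else 0

/-- The points with a mark over `U`. -/
def wA (U : Set ℂ) : Set Pt := U ×ˢ univ

open Classical in
/-- **The means** as functions of the configuration. -/
noncomputable def mT (M : ℕ) (Θ : Dt → ℂ) (K R : ℝ) (k : ℕ) (T : Set Pt) : ℂ :=
  if (T ∩ wA (H598.win M R k)).Finite then
    mtr M (cw (hc M k) Θ) K k (pts (T ∩ wA (H598.win M R k))) else 0

theorem norm_mtr_sq_le (M : ℕ) (Θ : Dt → ℂ) {K : ℝ} (hK : 0 ≤ K) (k : ℕ) (Y : Set ℂ) :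
    ‖mtr M Θ K k Y‖ ^ 2 ≤ K * ms M ^ 2 := by
  unfold mtr
  split_ifs with h
  · exact h.2
  · rw [norm_zero, zero_pow two_ne_zero]; positivity

theorem norm_mT_sq_le (M : ℕ) (Θ : Dt → ℂ) {K : ℝ} (hK : 0 ≤ K) (R : ℝ) (k : ℕ) (T : Set Pt) :
    ‖mT M Θ K R k T‖ ^ 2 ≤ K * ms M ^ 2 := by
  unfold mT
  split_ifs with h
  · exact norm_mtr_sq_le M _ hK k _
  · rw [norm_zero, zero_pow two_ne_zero]; positivity

theorem res_wA (U : Set ℂ) (T : Set Pt) : res U T ∩ wA U = T ∩ wA U := by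
  show T ∩ U ×ˢ univ ∩ U ×ˢ univ = T ∩ U ×ˢ univ
  rw [inter_assoc, inter_self]

/-- Locality. -/
theorem mT_res (M : ℕ) (Θ : Dt → ℂ) (K R : ℝ) (k : ℕ) (T : Set Pt) :
    mT M Θ K R k (res (H598.win M R k) T) = mT M Θ K R k T := by
  unfold mT
  rw [res_wA]

theorem pts_inter_wA (U : Set ℂ) (T : Set Pt) : pts (T ∩ wA U) = pts T ∩ U := by
  ext z
  constructor
  · rintro ⟨q, ⟨h1, h2⟩, rfl⟩
    exact ⟨⟨q, h1, rfl⟩, h2.1⟩
  · rintro ⟨⟨q, h1, rfl⟩, h2⟩
    exact ⟨q, ⟨h1, h2, trivial⟩, rfl⟩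

/-- The value of `mT` where the truncation does nothing. -/
theorem mT_eq {M : ℕ} {Θ : Dt → ℂ} {K R : ℝ} {k : ℕ} {T : Set Pt}
    (hfin : (T ∩ wA (H598.win M R k)).Finite) (h3 : Three (pts T ∩ H598.win M R k ∩ Qw M (gb M k)))
    (hb : ‖mraw M (cw (hc M k) Θ) k (pts T ∩ H598.win M R k)‖ ^ 2 ≤ K * ms M ^ 2) :
    mT M Θ K R k T = mraw M (cw (hc M k) Θ) k (pts T ∩ H598.win M R k) := by
  unfold mT mtr
  rw [if_pos hfin, pts_inter_wA, if_pos ⟨h3, hb⟩]

end H729
end P148
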