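import Vale.Agent.P148.R2.H729.Meas7
import Vale.Agent.P148.R2.H729.Mk
import Vale.Agent.P148.R2.H729.Q4

/-!
# P148, row MEAS, part 8: the local means of row N5 are measurable
-/

open MeasureTheory Set Metric Topology Filter
open scoped ENNReal NNReal

namespace P148
namespace H729

open Vale.Agent.P148.R2
open Vale.Agent.P148.R2.H184 (Dt)
open Vale.Agent.P148.R2.H565 (cellV Qw gb)
open Vale.Agent.P148.R2.H504 (tk)
open Vale.Agent.P148.R2.H172 (ExT)
open Vale.Agent.P148.R2.H488 (cw hc)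
open Vale.Agent.P148.R2.H592 (Three)
open Vale.Agent.P148.R2.H678 (mix)
open Vale.Agent.P148.R2.H938 (HubEv CorEv)
open Vale.Agent.P148.R2.N (ms nc cellC csq)

section
variable {Ω : Type} [MeasurableSpace Ω] {X : Ω → Set ℂ} {R : Rep X}

theorem ms_split (R : Rep X) {W : Ω → Set ℂ} (hW : MS R W) {p : Ω → Prop}
    (h : ∀ A : Set R.J, MeasurableSet {ω : acts R W A | p ω}) : MeasurableSet {ω | p ω} := by
  have h1 : Measurable p := measurable_split R hW fun A => measurableSet_setOfPred.mp (h A)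
  exact measurableSet_setOfPred.mpr h1

theorem ms_Three_inter (R : Rep X) {W : Ω → Set ℂ} (hW : MS R W) :
    MeasurableSet {ω | Three (X ω ∩ W ω)} := by
  refine ms_split R hW (p := fun ω => Three (X ω ∩ W ω)) fun A => ?_
  exact ms_Three (R.sub W A)

theorem ms_HubEv (M : ℕ) {B W : Ω → Set ℂ} (hB : MS R B) (hW : MS R W) (k : ℕ) :
    MeasurableSet {ω | HubEv M (X ω) (B ω) (W ω) k} :=
  ms_and (ms_InGood M hW k) (ms_OutGood M hB k)

theorem ms_CorEv (M : ℕ) {B W : Ω → Set ℂ} (hB : MS R B) (hBX : ∀ ω, B ω ⊆ X ω)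
    (hW : MS R W) (hWX : ∀ ω, W ω ⊆ X ω) (k : ℕ) :
    MeasurableSet {ω | CorEv M (X ω) (B ω) (W ω) k} :=
  ms_and (ms_and (ms_Tooth M hW hWX k) (ms_CCr R hW hWX _ _ _)) (ms_Rails M hB hBX hW hWX k)

theorem MS.ExT (M : ℕ) {B W : Ω → Set ℂ} (hB : MS R B) (hW : MS R W) (t : Finset ℕ) :
    MS R fun ω => H172.ExT M (X ω) (B ω) (W ω) t :=
  MS.iUnion fun k => MS.iUnion fun _ => (MS.inHub M hW k).union (MS.outHub M hB k)

theorem MS.cmp (M : ℕ) (t : Finset ℕ) {B₁ B₂ : Ω → Set ℂ} (h₁ : MS R B₁) (h₂ : MS R B₂) :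
    MS R fun ω => H729.cmp M t (X ω) (B₁ ω) (B₂ ω) :=
  (MS.ExT M h₁ (MS.self.diff h₁) t).mix h₁ h₂

/-! ### pairs of finite sets -/

/-- Pairs of finite sets of points as pairs of sets. -/
def cpair (b : Finset ℂ × Finset ℂ) : Set ℂ × Set ℂ := ((b.1 : Set ℂ), (b.2 : Set ℂ))

theorem cpair_injective : Function.Injective cpair := by
  intro a b h
  have h1 := congrArg (fun p : Set ℂ × Set ℂ => p.1) h
  have h2 := congrArg (fun p : Set ℂ × Set ℂ => p.2) h
  exact Prod.ext (Finset.coe_injective h1) (Finset.coe_injective h2)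

/-- The good pairs, as pairs of finite sets. -/
def GPf (M : ℕ) (t : Finset ℕ) (Y : Set ℂ) (b : Finset ℂ × Finset ℂ) : Prop :=
  ∀ l ∈ t, HubEv M Y b.1 (Y \ b.1) l ∧ CorEv M Y b.2 (Y \ b.2) l

theorem GPs_eq_image (M : ℕ) (t : Finset ℕ) {Y : Set ℂ} (hY : Y.Finite) :
    GPs M t Y = cpair '' {b | PT.Mem Y b ∧ GPf M t Y b} := by
  ext p
  constructor
  · rintro ⟨⟨h1, h2⟩, h3⟩
    refine ⟨((hY.subset h1).toFinset, (hY.subset h2).toFinset), ⟨⟨?_, ?_⟩, ?_⟩, ?_⟩
    · intro z hz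
      exact h1 (by simpa using hz)
    · intro z hz
      exact h2 (by simpa using hz)
    · unfold GPf
      simpa only [Set.Finite.coe_toFinset] using h3
    · unfold cpair
      simp only [Set.Finite.coe_toFinset]
  · rintro ⟨b, ⟨⟨h1, h2⟩, h3⟩, rfl⟩
    exact ⟨⟨h1, h2⟩, h3⟩

theorem mraw_eq (M : ℕ) (Θ : Dt → ℂ) (k : ℕ) {Y : Set ℂ} (hY : Y.Finite) :
    mraw M Θ k Y = (∑ᶠ b ∈ {b : Finset ℂ × Finset ℂ | PT.Mem Y b ∧ GPf M (tk M k) Y b},
      cellV M Y (cmp M (tk M k) Y b.1 b.2) Θ k) /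
        (({b : Finset ℂ × Finset ℂ | PT.Mem Y b ∧ GPf M (tk M k) Y b}.ncard : ℕ) : ℂ) := by
  unfold mraw
  rw [GPs_eq_image M _ hY, Set.ncard_image_of_injective _ cpair_injective,
    finsum_mem_image cpair_injective.injOn]
  rfl

theorem ms_GPf (M : ℕ) (t : Finset ℕ) {b : Ω → Finset ℂ × Finset ℂ} (hb : IsT R b) :
    MeasurableSet {ω | GPf M t (X ω) (b ω)} := by
  have h1 := MS.finset hb.fst
  have h2 := MS.finset hb.snd
  have h3 : ∀ ω, ((b ω).2 : Set ℂ) ⊆ X ω := fun ω => (hb.mem ω).2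
  refine ms_allc fun l => ms_imp (ms_const _) (ms_and (ms_HubEv M h1 (MS.self.diff h1) l)
    (ms_CorEv M h2 h3 (MS.self.diff h2) (fun _ => sdiff_subset) l))

open Classical in
theorem ms_mraw (R : Rep X) (M : ℕ) {Θ : Dt → ℂ} (hΘ : Measurable Θ) (k : ℕ) :
    Measurable fun ω => if Three (X ω ∩ Qw M (gb M k)) then mraw M Θ k (X ω) else 0 := by
  have h1 := ms_sum R (α := Finset ℂ × Finset ℂ) (Ψ := fun ω b => GPf M (tk M k) (X ω) b)
    (f := fun ω b => if Three (X ω ∩ Qw M (gb M k)) then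
      cellV M (X ω) (cmp M (tk M k) (X ω) b.1 b.2) Θ k else 0)
    (fun b hb => ms_GPf M _ hb)
    fun b hb => ms_cellV R (MS.cmp M _ (MS.finset hb.fst) (MS.finset hb.snd)) M k hΘ
  have h2 := ms_ncard R (α := Finset ℂ × Finset ℂ) (Ψ := fun ω b => GPf M (tk M k) (X ω) b)
    fun b hb => ms_GPf M _ hb
  have h3 := h1.div ((measurable_from_top (f := fun n : ℕ => (n : ℂ))).comp h2)
  convert h3 using 1
  funext ω
  simp only [Pi.div_apply, Function.comp_apply]
  by_cases h : Three (X ω ∩ Qw M (gb M k))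
  · simp only [h, if_true]
    exact mraw_eq M Θ k (R.finite ω)
  · simp only [h, if_false, finsum_zero, zero_div]

open Classical in
theorem ms_mtr (R : Rep X) (M : ℕ) {Θ : Dt → ℂ} (hΘ : Measurable Θ) (K : ℝ) (k : ℕ) :
    Measurable fun ω => mtr M Θ K k (X ω) := by
  have h1 := ms_mraw R M hΘ k
  have hQ : MS R fun _ => Qw M (gb M k) := MS.borel (isOpen_Qw M _).measurableSet
  have h3 : MeasurableSet {ω | Three (X ω ∩ Qw M (gb M k)) ∧
      ‖(if Three (X ω ∩ Qw M (gb M k)) then mraw M Θ k (X ω) else 0)‖ ^ 2 ≤ K * ms M ^ 2} :=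
    ms_and (ms_Three_inter R hQ) (measurableSet_le (h1.norm.pow_const 2) measurable_const)
  have e : (fun ω => mtr M Θ K k (X ω)) = fun ω =>
      if Three (X ω ∩ Qw M (gb M k)) ∧
        ‖(if Three (X ω ∩ Qw M (gb M k)) then mraw M Θ k (X ω) else 0)‖ ^ 2 ≤ K * ms M ^ 2 then
      (if Three (X ω ∩ Qw M (gb M k)) then mraw M Θ k (X ω) else 0) else 0 := by
    funext ω
    unfold mtr
    by_cases h : Three (X ω ∩ Qw M (gb M k))
    · simp only [h, if_true, true_and]
    · simp only [h, false_and, if_false]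
  rw [e]
  exact Measurable.ite h3 h1 measurable_const

end

theorem measurable_mtr (M : ℕ) {Θ : Dt → ℂ} (hΘ : Measurable Θ) (K : ℝ) (k n : ℕ) :
    Measurable fun x : Fin n → Pt => mtr M Θ K k (pts (range x)) :=
  ms_mtr (repPts n) M hΘ K k

theorem measurableSet_wA {U : Set ℂ} (hU : MeasurableSet U) : MeasurableSet (wA U) :=
  hU.prod MeasurableSet.univ

theorem bdd_wA_win (M : ℕ) (R : ℝ) (k : ℕ) : Bdd (wA (H598.win M R k)) := by
  refine ⟨|(cellC M k).re| + |(cellC M k).im| + 2 * (R * ms M), ?_⟩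
  rintro ⟨z, b⟩ ⟨⟨h1, h2⟩, -⟩
  refine ⟨?_, trivial⟩
  show z ∈ ball (0 : ℂ) _
  rw [mem_ball_zero_iff]
  have h3 := Complex.norm_le_abs_re_add_abs_im z
  change |z.re - (cellC M k).re| < R * ms M at h1
  change |z.im - (cellC M k).im| < R * ms M at h2
  have h4 : |z.re| ≤ |z.re - (cellC M k).re| + |(cellC M k).re| := by
    have := abs_add_le (z.re - (cellC M k).re) (cellC M k).re
    rwa [sub_add_cancel] at this
  have h5 : |z.im| ≤ |z.im - (cellC M k).im| + |(cellC M k).im| := by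
    have := abs_add_le (z.im - (cellC M k).im) (cellC M k).im
    rwa [sub_add_cancel] at this
  linarith

theorem measurableSet_hc (M k : ℕ) : MeasurableSet (hc M k) := by
  have h1 : hc M k = (fun z : ℂ => (-Complex.I) ^ (k / (2 * M + 1)) * z) ⁻¹'
      {w : ℂ | (1 < w.re ∧ w.re < 1 + ms M) ∧ (-1 + (k % (2 * M + 1) : ℕ) * ms M ≤ w.im ∧
        w.im < -1 + (k % (2 * M + 1) : ℕ) * ms M + ms M)} := by
    ext z
    have h2 := H488.mem_hc (M := M) (k := k) (w := (-Complex.I) ^ (k / (2 * M + 1)) * z)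
    rw [N.I_pow_mul_self_pow] at h2
    exact h2
  rw [h1]
  refine (measurable_const_mul _) ?_
  refine MeasurableSet.inter (MeasurableSet.inter ?_ ?_) (MeasurableSet.inter ?_ ?_)
  · exact measurableSet_lt measurable_const Complex.measurable_re
  · exact measurableSet_lt Complex.measurable_re measurable_const
  · exact measurableSet_le measurable_const Complex.measurable_im
  · exact measurableSet_lt Complex.measurable_im measurable_const

/-- **Measurability of the local means** (`Means.meas`). -/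
theorem measurable_mT (M : ℕ) {Θ : Dt → ℂ} (hΘ : Measurable Θ) (K R : ℝ) (k : ℕ) :
    @Measurable _ _ voidSigma _ (mT M Θ K R k) :=
  measurable_window' (measurableSet_wA (H598.measurableSet_win M R k)) (bdd_wA_win M R k)
    (G := fun T => mtr M (cw (hc M k) Θ) K k (pts T))
    (fun n => measurable_mtr M (H488.measurable_cw (measurableSet_hc M k) hΘ) K k n) 0

end H729
end P148
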