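import Vale.Agent.P148.R2.H729.Wsum
import Vale.Agent.P148.R2.H172.Sc6

/-!
# P148, rows (win), (val): the weights of the cells on the scene of the comb

`thk w x₀ M Θ k` is the weight of the cell `k` on the darts of the full triangulation
`TP w.hull x₀` : it is rotating, zero on the faces which are not good, zero on every face with a
corner in a region `reg M u` which is not equal or adjacent to `k`, and its energy is at most
`CT κ (2 * ms M) = CT κ 2 * ms M ^ 2` on `ev_cells`.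
-/

open MeasureTheory Set Metric Filter Topology Complex
open scoped ENNReal

namespace P148
namespace H729

open Vale.Agent.P148.R2
open Vale.Agent.P148.R2.H184
open Vale.Agent.P148.R2.H592 (HullTri Fc Fib tail head vc cr idmap fib_id)
open Vale.Agent.P148.R2.H566 (W0 Ev)
open Vale.Agent.P148.R2.H291 (SiteOK site bR CT GEnv)
open Vale.Agent.P148.R2.H488 (cw cw_ne hc cw_rot)
open Vale.Agent.P148.R2.N (ms nc ms_pos ms_le_one)
open Vale.Agent.P148.R2.H959 (reg)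
open Vale.Agent.P148.R2.H659 (Nr)
open Vale.Agent.P148.R2.H609 (TP)
open Vale.Agent.P148.R2.H172 (fscOf GoodT exists_goodT)

universe u

theorem norm_wt_le {X : Set ℂ} {b : ZMod 3 → ℂ} (h : HullTri X b) {V : Type*} (π : ℂ → V)
    (hπ : Fib X π) (Ψ : Dt → ℂ) (q : Fc X b × ZMod 3) :
    ‖Vale.Agent.P148.R2.H203.wt h π hπ Ψ q‖ ≤ ‖Ψ (dt q)‖ := by
  unfold Vale.Agent.P148.R2.H203.wt
  split_ifs
  · exact le_rfl
  · rw [norm_zero]
    exact norm_nonneg _

/-- The weight of the cell `k` on the darts of the full triangulation. -/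
noncomputable def thk (w : W0) (x₀ : w.X) (M : ℕ) (Θ : Dt → ℂ) (k : ℕ) : w.D → ℂ :=
  Vale.Agent.P148.R2.H203.wt w.hull (idmap w.X x₀) (fib_id w.X x₀) (cw (hc M k) Θ)

section one

variable {w : W0} {x₀ : w.X} {M : ℕ} {Θ : Dt → ℂ} {k : ℕ}

theorem thk_rot {τ : ℂ} (h : ∀ d, Θ (rt d) = τ ^ 2 * Θ d) (q : w.D) :
    thk w x₀ M Θ k ((TP w x₀).nxt q) = τ ^ 2 * thk w x₀ M Θ k q :=
  Vale.Agent.P148.R2.H203.wt_rot w.hull _ _ (cw_rot h) q

theorem thk_good {q : w.D} (h : ¬ (TP w x₀).Good q) : thk w x₀ M Θ k q = 0 :=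
  Vale.Agent.P148.R2.H203.wt_good w.hull _ _ _ q h

theorem good_of_thk {q : w.D} (h : thk w x₀ M Θ k q ≠ 0) : (TP w x₀).Good q := by
  by_contra h1
  exact h (thk_good h1)

theorem cw_of_thk {q : w.D} (h : thk w x₀ M Θ k q ≠ 0) : cw (hc M k) Θ (dt q) ≠ 0 := by
  intro h1
  apply h
  unfold thk Vale.Agent.P148.R2.H203.wt
  rw [h1]
  split_ifs <;> rfl

theorem reg_mod (M k : ℕ) : reg M (k % nc M) = reg M k := by
  have key : ∀ n r, reg M (r + nc M * n) = reg M r := by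
    intro n
    induction n with
    | zero => intro r; simp
    | succ n ih =>
      intro r
      rw [show r + nc M * (n + 1) = (r + nc M * n) + nc M by ring,
        Vale.Agent.P148.R2.H959.reg_add_nc, ih]
  conv_rhs => rw [← Nat.mod_add_div k (nc M)]
  exact (key _ _).symm

variable {T : Set Pt} {R s : ℝ} (hS : SiteOK T R s) (hX : w.X = site T R)
  (hb : w.b = bR R) (hR : 6 ≤ R) (hM : 0 < M) (hs : 4 * s < ms M)
include hS hX hb hR hM hs

/-- A face with its tail in the region `u` : nonzero weight only in adjacent cells. -/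
theorem thk_tail {q : w.D} (hne : thk w x₀ M Θ k q ≠ 0) {u : ℕ} (hu : tail q ∈ reg M u) :
    Nr (nc M) (u % nc M) (k % nc M) := by
  have hn : 0 < nc M := by unfold nc; omega
  have h1 := cw_of_thk hne
  rw [← Vale.Agent.P148.R2.H488.hc_mod] at h1
  rw [← reg_mod] at hu
  exact world_supp hS hX hb hR hM hs (a := 0) (Θ := Θ) (q := q) (Nat.mod_lt _ hn)
    (Nat.mod_lt _ hn) (by rw [zero_add]; exact hu) (by rw [zero_add]; exact h1)

/-- **Support of the weight of the cell `k`.** All corners. -/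
theorem thk_corner (hτ : ∃ τ : ℂ, τ ^ 2 + τ + 1 = 0 ∧ ∀ d, Θ (rt d) = τ ^ 2 * Θ d) {q : w.D}
    (hne : thk w x₀ M Θ k q ≠ 0) {u : ℕ}
    (hu : ((TP w x₀).src q).1 ∈ reg M u ∨ ((TP w x₀).tgt q).1 ∈ reg M u ∨
      ((TP w x₀).apex q).1 ∈ reg M u) : Nr (nc M) (u % nc M) (k % nc M) := by
  obtain ⟨τ, hτ1, hτ2⟩ := hτ
  have ht0 : τ ≠ 0 := by
    rintro rfl
    norm_num at hτ1
  have h1 : thk w x₀ M Θ k ((TP w x₀).nxt q) ≠ 0 := by
    rw [thk_rot hτ2]
    exact mul_ne_zero (pow_ne_zero _ ht0) hne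
  have h2 : thk w x₀ M Θ k ((TP w x₀).nxt ((TP w x₀).nxt q)) ≠ 0 := by
    rw [thk_rot hτ2]
    exact mul_ne_zero (pow_ne_zero _ ht0) h1
  rcases hu with hu | hu | hu
  · refine thk_tail hS hX hb hR hM hs hne (u := u) ?_
    rwa [Vale.Agent.P148.R2.H871.src0] at hu
  · refine thk_tail hS hX hb hR hM hs h1 (u := u) ?_
    have h3 : (TP w x₀).tgt q = (TP w x₀).src ((TP w x₀).nxt q) := ((TP w x₀).src_nxt q).symm
    rw [h3] at hu
    rwa [Vale.Agent.P148.R2.H871.src0] at hu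
  · refine thk_tail hS hX hb hR hM hs h2 (u := u) ?_
    have h3 : (TP w x₀).apex q = (TP w x₀).src ((TP w x₀).nxt ((TP w x₀).nxt q)) := rfl
    rw [h3] at hu
    rwa [Vale.Agent.P148.R2.H871.src0] at hu

end one

/-- **The energies of the weights of the cells, with high probability.** -/
theorem ev_cells {τ : ℂ} {κ : ℝ} {Θ : Dt → ℂ} (hΘ : Wt τ κ Θ) {M : ℕ} (hM : 0 < M) :
    Ev.{u} fun T => SiteOK T 9 (ms M / 1000) ∧ ∀ w : W0, w.X = site T 9 → w.b = bR 9 → ∀ k,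
      ∑ q : w.D, ‖cw (hc M k) Θ (dt q)‖ ^ 2 ≤ CT κ (2 * ms M) := by
  obtain ⟨c, -, hg⟩ := exists_goodT.{u}
  have h0 := ms_pos hM
  have h1 : ms M ≤ 1 := ms_le_one
  refine ((hg M hM).and (Vale.Agent.P148.R2.H291.ev_gEnv.{u} hΘ (R := 3) (s := ms M / 1000)
    (by norm_num) (by linarith) (cellI M) (cellI_pos hM))).mono ?_
  rintro T ⟨h2, h3⟩
  exact ⟨h2.site, fun w hX hb k => world_sum_cw_le h2.site hX hb (by norm_num) hM (by linarith)
    h3 subset_rfl k⟩

theorem ev_thk {τ : ℂ} {κ : ℝ} {Θ : Dt → ℂ} (hΘ : Wt τ κ Θ) {M : ℕ} (hM : 0 < M) :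
    Ev.{u} fun T => SiteOK T 9 (ms M / 1000) ∧ ∀ w : W0, w.X = site T 9 → w.b = bR 9 →
      ∀ (x₀ : w.X) k, ∑ q : w.D, ‖thk w x₀ M Θ k q‖ ^ 2 ≤ CT κ (2 * ms M) := by
  refine (ev_cells hΘ hM).mono ?_
  rintro T ⟨h1, h2⟩
  refine ⟨h1, fun w hX hb x₀ k => (Finset.sum_le_sum fun q _ => ?_).trans (h2 w hX hb k)⟩
  exact pow_le_pow_left₀ (norm_nonneg _) (norm_wt_le w.hull _ _ _ q) 2

theorem CT_two (κ r : ℝ) : CT κ (2 * r) = CT κ 2 * r ^ 2 := by
  unfold Vale.Agent.P148.R2.H291.CT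
  ring

end H729
end P148
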