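import Vale.Agent.P148.R2.H729.Q2b

/-!
# P148, module Q, part 9: quenched averaging in the form of an average over all colourings

`paint S B e c` is the configuration `S` in which the points over `B`, enumerated by `e : I → ℂ`,
have the colours `c : I → Bool`. The expectation of `F S` is the expectation of the average of
`F (paint S B e c)` over all `c`.
-/

open MeasureTheory Set Metric Topology Filter ProbabilityTheory
open scoped ENNReal NNReal

set_option linter.unusedSectionVars false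

namespace P148
namespace H729

/-- The configuration `S` with the colours `c` on the points `e i`, other points over `B`
deleted. -/
def paint {I : Type*} (S : Set Pt) (B : Set ℂ) (e : I → ℂ) (c : I → Bool) : Set Pt :=
  {q | q ∈ S ∧ q.1 ∉ B} ∪ range fun i => (e i, c i)

/-- Every point has only one colour. -/
def OneCol (S : Set Pt) : Prop := ∀ z : ℂ, ¬ ((z, true) ∈ S ∧ (z, false) ∈ S)

theorem OneCol.eq {S : Set Pt} (h : OneCol S) {z : ℂ} {a b : Bool} (ha : (z, a) ∈ S)
    (hb : (z, b) ∈ S) : a = b := by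
  rcases a with _ | _ <;> rcases b with _ | _
  · rfl
  · exact absurd ⟨hb, ha⟩ (h z)
  · exact absurd ⟨ha, hb⟩ (h z)
  · rfl

section
variable {I : Type*} {S : Set Pt} {B : Set ℂ} {e : I → ℂ}

theorem mem_paint_of_notMem (c : I → Bool) (hr : range e = pts S ∩ B) {q : Pt} (hq : q.1 ∉ B) :
    q ∈ paint S B e c ↔ q ∈ S := by
  unfold paint
  constructor
  · rintro (h | ⟨i, rfl⟩)
    · exact h.1
    · exact absurd (hr.subset (mem_range_self i)).2 hq
  · exact fun h => Or.inl ⟨h, hq⟩

theorem mem_paint_of_mem (c : I → Bool) {q : Pt} (hq : q.1 ∈ B) :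
    q ∈ paint S B e c ↔ ∃ i, e i = q.1 ∧ c i = q.2 := by
  unfold paint
  constructor
  · rintro (h | ⟨i, rfl⟩)
    · exact absurd hq h.2
    · exact ⟨i, rfl, rfl⟩
  · rintro ⟨i, h1, h2⟩
    exact Or.inr ⟨i, Prod.ext h1 h2⟩

theorem pts_paint (c : I → Bool) (hr : range e = pts S ∩ B) : pts (paint S B e c) = pts S := by
  ext z
  by_cases hz : z ∈ B
  · constructor
    · rintro ⟨q, hq, rfl⟩
      obtain ⟨i, h1, -⟩ := (mem_paint_of_mem c hz).mp hq
      rw [← h1]
      exact (hr.subset (mem_range_self i)).1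
    · intro hzS
      obtain ⟨i, hi⟩ := hr.superset ⟨hzS, hz⟩
      exact ⟨(z, c i), (mem_paint_of_mem c hz).mpr ⟨i, hi, rfl⟩, rfl⟩
  · constructor
    · rintro ⟨q, hq, rfl⟩
      exact ⟨q, (mem_paint_of_notMem c hr hz).mp hq, rfl⟩
    · rintro ⟨q, hq, rfl⟩
      exact ⟨q, (mem_paint_of_notMem c hr hz).mpr hq, rfl⟩

theorem oneCol_paint (c : I → Bool) (he : Function.Injective e) (hr : range e = pts S ∩ B)
    (hS : OneCol S) : OneCol (paint S B e c) := by
  intro z
  rintro ⟨h1, h2⟩
  by_cases hz : z ∈ B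
  · obtain ⟨i, hi, hc⟩ := (mem_paint_of_mem c hz).mp h1
    obtain ⟨j, hj, hd⟩ := (mem_paint_of_mem c hz).mp h2
    have : i = j := he (hi.trans hj.symm)
    rw [this] at hc
    rw [hc] at hd
    simp at hd
  · exact hS z ⟨(mem_paint_of_notMem c hr hz).mp h1, (mem_paint_of_notMem c hr hz).mp h2⟩

open Classical in
theorem flipOn_eq_paint (hr : range e = pts S ∩ B) (hS : OneCol S)
    {c₀ : I → Bool} (hc₀ : ∀ i, (e i, c₀ i) ∈ S) {W : Set ℂ} (hW : W ⊆ B) :
    flipOn W '' S = paint S B e fun i => if e i ∈ W then !c₀ i else c₀ i := by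
  ext q
  by_cases hq : q.1 ∈ B
  · rw [mem_paint_of_mem _ hq]
    constructor
    · rintro ⟨p, hp, rfl⟩
      have hpB : p.1 ∈ B := hq
      obtain ⟨i, hi⟩ := hr.superset ⟨⟨p, hp, rfl⟩, hpB⟩
      have h1 : c₀ i = p.2 := hS.eq (z := p.1) (by rw [← hi]; exact hc₀ i) hp
      refine ⟨i, hi, ?_⟩
      show _ = if p.1 ∈ W then !p.2 else p.2
      rw [hi, h1]
    · rintro ⟨i, hi, hc⟩
      refine ⟨(e i, c₀ i), hc₀ i, ?_⟩
      exact Prod.ext hi hc
  · rw [mem_paint_of_notMem _ hr hq]
    have hq' : q.1 ∉ W := fun h => hq (hW h)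
    constructor
    · rintro ⟨p, hp, rfl⟩
      have hpW : p.1 ∉ W := hq'
      have : flipOn W p = p := by
        unfold flipOn
        rw [if_neg hpW]
      rwa [this]
    · intro h
      refine ⟨q, h, ?_⟩
      unfold flipOn
      rw [if_neg hq']

/-- The sum over the recolourings is the sum over all colourings of the points over `B`. -/
theorem recolSum_eq_sum {M : Type*} [AddCommMonoid M] [Fintype I] [DecidableEq I]
    (he : Function.Injective e) (hr : range e = pts S ∩ B) (hS : OneCol S) (F : Set Pt → M) :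
    recolSum B F S = ∑ c : I → Bool, F (paint S B e c) := by
  classical
  have hfin : (pts S ∩ B).Finite := by rw [← hr]; exact finite_range e
  have hc : ∀ i, ∃ b, (e i, b) ∈ S := by
    intro i
    obtain ⟨q, hq, hq'⟩ := (hr.subset (mem_range_self i)).1
    exact ⟨q.2, by rw [← hq']; exact hq⟩
  choose c₀ hc₀ using hc
  rw [recolSum, dif_pos hfin]
  refine Finset.sum_bij' (fun W _ => fun i => if e i ∈ (W : Set ℂ) then !c₀ i else c₀ i)
    (fun c _ => (Finset.univ.filter fun i => c i ≠ c₀ i).image e) ?_ ?_ ?_ ?_ ?_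
  · intro W _
    exact Finset.mem_univ _
  · intro c _
    rw [Finset.mem_powerset]
    intro z hz
    obtain ⟨i, -, rfl⟩ := Finset.mem_image.mp hz
    exact hfin.mem_toFinset.mpr (hr.subset (mem_range_self i))
  · intro W hW
    rw [Finset.mem_powerset] at hW
    ext z
    rw [Finset.mem_image]
    constructor
    · rintro ⟨i, hi, rfl⟩
      rw [Finset.mem_filter] at hi
      by_contra hiW
      exact hi.2 (if_neg (by exact_mod_cast hiW))
    · intro hz
      obtain ⟨i, rfl⟩ := hr.superset (hfin.mem_toFinset.mp (hW hz))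
      refine ⟨i, ?_, rfl⟩
      rw [Finset.mem_filter]
      refine ⟨Finset.mem_univ _, ?_⟩
      show (if e i ∈ (W : Set ℂ) then !c₀ i else c₀ i) ≠ c₀ i
      rw [if_pos (by exact_mod_cast hz)]
      cases c₀ i <;> simp
  · intro c _
    funext i
    have h1 : e i ∈ (((Finset.univ.filter fun i => c i ≠ c₀ i).image e : Finset ℂ) : Set ℂ) ↔
        c i ≠ c₀ i := by
      rw [Finset.mem_coe, Finset.mem_image]
      constructor
      · rintro ⟨j, hj, hji⟩
        rw [Finset.mem_filter] at hj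
        rw [← he hji]
        exact hj.2
      · intro h
        exact ⟨i, Finset.mem_filter.mpr ⟨Finset.mem_univ _, h⟩, rfl⟩
    by_cases h : c i = c₀ i
    · rw [if_neg (by rw [h1]; simpa using h), h]
    · rw [if_pos (h1.mpr h)]
      cases hci : c i <;> cases hc0 : c₀ i <;> simp_all
  · intro W hW
    rw [Finset.mem_powerset] at hW
    rw [flipOn_eq_paint hr hS hc₀ (W := (W : Set ℂ)) fun z hz =>
      (hfin.mem_toFinset.mp (hW hz)).2]
    congr!

theorem card_eq_ncard [Fintype I] (he : Function.Injective e) (hr : range e = pts S ∩ B) :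
    (pts S ∩ B).ncard = Fintype.card I := by
  rw [← hr, ← Set.image_univ, Set.ncard_image_of_injective _ he, Set.ncard_univ,
    Nat.card_eq_fintype_card]

theorem avg_eq_sum [Fintype I] [DecidableEq I]
    (he : Function.Injective e) (hr : range e = pts S ∩ B) (hS : OneCol S) (F : Set Pt → ℝ≥0∞) :
    avg B F S = (2 ^ Fintype.card I)⁻¹ * ∑ c : I → Bool, F (paint S B e c) := by
  rw [avg, recolSum_eq_sum he hr hS, card_eq_ncard he hr]

theorem avgE_eq_sum {E : Type*} [AddCommGroup E] [Module ℝ E] [Fintype I] [DecidableEq I]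
    (he : Function.Injective e) (hr : range e = pts S ∩ B) (hS : OneCol S) (F : Set Pt → E) :
    avgE B F S = ((2 : ℝ) ^ Fintype.card I)⁻¹ • ∑ c : I → Bool, F (paint S B e c) := by
  rw [avgE, recolSum_eq_sum he hr hS, card_eq_ncard he hr]

end

section
variable {Ω : Type*} [MeasurableSpace Ω] {P : Measure Ω} {S : Ω → Set Pt} {lam : ℝ≥0}

/-- **Quenched averaging, colouring form.** If for almost every `ω` (with any enumeration `e` of
the points over `B`) the average over all colourings of `F (paint …)` is `A ω`, then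
`E F(S) = E A`. -/
theorem integral_eq_of_colourings [IsProbabilityMeasure P] (h : IsColouredPoisson P S lam)
    {E : Type*} [NormedAddCommGroup E] [NormedSpace ℝ E] [MeasurableSpace E] [BorelSpace E]
    [SecondCountableTopology E] {B : Set ℂ}
    (hB : MeasurableSet B) (hb : Bornology.IsBounded B) {F : Set Pt → E}
    (hF : @Measurable _ _ voidSigma _ F) (hi : Integrable (fun ω => F (S ω)) P) {A : Ω → E}
    (hA : ∀ᵐ ω ∂P, ∃ (I : Type) (_ : Fintype I) (_ : DecidableEq I) (e : I → ℂ),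
      Function.Injective e ∧ range e = pts (S ω) ∩ B ∧
      ((2 : ℝ) ^ Fintype.card I)⁻¹ • ∑ c : I → Bool, F (paint (S ω) B e c) = A ω) :
    ∫ ω, F (S ω) ∂P = ∫ ω, A ω ∂P := by
  rw [← integral_avgE h hB hb hF hi]
  refine integral_congr_ae (hA.mono fun ω hω => ?_)
  obtain ⟨I, i1, i2, e, he, hr, hA⟩ := hω
  show avgE B F (S ω) = A ω
  rw [← hA]
  exact avgE_eq_sum he hr (h.oneColour ω) F

theorem lintegral_eq_of_colourings [IsProbabilityMeasure P] (h : IsColouredPoisson P S lam)
    {B : Set ℂ} (hB : MeasurableSet B) (hb : Bornology.IsBounded B) {F : Set Pt → ℝ≥0∞}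
    (hF : @Measurable _ _ voidSigma _ F) {A : Ω → ℝ≥0∞}
    (hA : ∀ᵐ ω ∂P, ∃ (I : Type) (_ : Fintype I) (_ : DecidableEq I) (e : I → ℂ),
      Function.Injective e ∧ range e = pts (S ω) ∩ B ∧
      (2 ^ Fintype.card I)⁻¹ * ∑ c : I → Bool, F (paint (S ω) B e c) = A ω) :
    ∫⁻ ω, F (S ω) ∂P = ∫⁻ ω, A ω ∂P := by
  rw [← lintegral_avg h hB hb hF]
  refine lintegral_congr_ae (hA.mono fun ω hω => ?_)
  obtain ⟨I, i1, i2, e, he, hr, hA⟩ := hω
  show avg B F (S ω) = A ω
  rw [← hA]
  exact avg_eq_sum he hr (h.oneColour ω) F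

/-- One-sided form. -/
theorem lintegral_le_of_colourings [IsProbabilityMeasure P] (h : IsColouredPoisson P S lam)
    {B : Set ℂ} (hB : MeasurableSet B) (hb : Bornology.IsBounded B) {F : Set Pt → ℝ≥0∞}
    (hF : @Measurable _ _ voidSigma _ F) {A : Ω → ℝ≥0∞}
    (hA : ∀ᵐ ω ∂P, ∃ (I : Type) (_ : Fintype I) (_ : DecidableEq I) (e : I → ℂ),
      Function.Injective e ∧ range e = pts (S ω) ∩ B ∧
      (2 ^ Fintype.card I)⁻¹ * ∑ c : I → Bool, F (paint (S ω) B e c) ≤ A ω) :
    ∫⁻ ω, F (S ω) ∂P ≤ ∫⁻ ω, A ω ∂P := by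
  rw [← lintegral_avg h hB hb hF]
  refine lintegral_mono_ae (hA.mono fun ω hω => ?_)
  obtain ⟨I, i1, i2, e, he, hr, hA⟩ := hω
  refine le_trans (le_of_eq ?_) hA
  exact avg_eq_sum he hr (h.oneColour ω) F

theorem le_lintegral_of_colourings [IsProbabilityMeasure P] (h : IsColouredPoisson P S lam)
    {B : Set ℂ} (hB : MeasurableSet B) (hb : Bornology.IsBounded B) {F : Set Pt → ℝ≥0∞}
    (hF : @Measurable _ _ voidSigma _ F) {A : Ω → ℝ≥0∞}
    (hA : ∀ᵐ ω ∂P, ∃ (I : Type) (_ : Fintype I) (_ : DecidableEq I) (e : I → ℂ),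
      Function.Injective e ∧ range e = pts (S ω) ∩ B ∧
      A ω ≤ (2 ^ Fintype.card I)⁻¹ * ∑ c : I → Bool, F (paint (S ω) B e c)) :
    ∫⁻ ω, A ω ∂P ≤ ∫⁻ ω, F (S ω) ∂P := by
  rw [← lintegral_avg h hB hb hF]
  refine lintegral_mono_ae (hA.mono fun ω hω => ?_)
  obtain ⟨I, i1, i2, e, he, hr, hA⟩ := hω
  refine le_trans hA (le_of_eq ?_)
  exact (avg_eq_sum he hr (h.oneColour ω) F).symm

end

end H729
end P148
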