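import Vale.Agent.P148.R2.H729.Mk
import Vale.Agent.P148.R2.H504.Gl

/-!
# P148, row N5: the local means in the language of the law of the gates

For the sites `e : V → ℂ` of a finite set `Y = range e`, `mraw M Θ k Y` is the conditional mean of
`cellV` of the composite colouring given the events of the gates in `tk M k` (`H172.combLaw`).
-/

open MeasureTheory Set Metric
open scoped Classical

namespace P148
namespace H729

open Vale.Agent.P148.R2
open Vale.Agent.P148.R2.H184 (Dt)
open Vale.Agent.P148.R2.H565 (cellV Qw gb)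
open Vale.Agent.P148.R2.H504 (tk tk_sub ex2_eq_sum)
open Vale.Agent.P148.R2.H172 (ExT combLaw ex2 GateLaw pc_W ex_pair)
open Vale.Agent.P148.R2.H938 (HubEv CorEv pc pc_not pc_subset)
open Vale.Agent.P148.R2.H953 (ex pr)
open Vale.Agent.P148.R2.N (ms nc)

universe v

section

variable {V : Type v} [Fintype V] {e : V → ℂ} {M : ℕ}

/-- Colourings as sets of black points. -/
def bpair (e : V → ℂ) (p : (V → Bool) × (V → Bool)) : Set ℂ × Set ℂ :=
  (pc e true p.1, pc e true p.2)

omit [Fintype V] in
theorem pc_inj (he : Function.Injective e) {c : Bool} {σ ρ : V → Bool}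
    (h : pc e c σ = pc e c ρ) : σ = ρ := by
  funext v
  have h1 : σ v = c ↔ ρ v = c := by
    rw [← H172.mem_pc he, ← H172.mem_pc he, h]
  cases c <;> cases h2 : σ v <;> cases h3 : ρ v <;> simp_all

omit [Fintype V] in
theorem bpair_injective (he : Function.Injective e) : Function.Injective (bpair e) := by
  intro a b h
  have h1 := congrArg (fun p : Set ℂ × Set ℂ => p.1) h
  have h2 := congrArg (fun p : Set ℂ × Set ℂ => p.2) h
  exact Prod.ext (pc_inj he h1) (pc_inj he h2)

omit [Fintype V] in
theorem exists_pc {B : Set ℂ} (hB : B ⊆ range e) :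
    ∃ σ : V → Bool, pc e true σ = B := by
  refine ⟨fun v => decide (e v ∈ B), ?_⟩
  ext z
  constructor
  · rintro ⟨v, hv, rfl⟩
    have h : decide (e v ∈ B) = true := hv
    exact of_decide_eq_true h
  · intro hz
    obtain ⟨v, rfl⟩ := hB hz
    refine ⟨v, ?_, rfl⟩
    show decide (e v ∈ B) = true
    exact decide_eq_true hz

theorem diff_pc (he : Function.Injective e) (σ : V → Bool) :
    range e \ pc e true σ = pc e false σ := (pc_not he true σ).symm

variable (hM : 0 < M) (t : Finset ℕ)

/-- All the events of the gates in `t`. -/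
def GC (hM : 0 < M) (t : Finset ℕ) (Y : Set ℂ) (e : V → ℂ) (p : (V → Bool) × (V → Bool)) : Prop :=
  ∀ l ∈ t, (combLaw hM Y e).He l p.1 ∧ (combLaw hM Y e).Ce l p.2

theorem GPs_eq_bpair (he : Function.Injective e) :
    GPs M t (range e) = bpair e '' {p | GC hM t (range e) e p} := by
  ext q
  constructor
  · rintro ⟨⟨h1, h2⟩, h3⟩
    obtain ⟨c₁, h4⟩ := exists_pc (e := e) h1
    obtain ⟨c₂, h5⟩ := exists_pc (e := e) h2
    refine ⟨(c₁, c₂), fun l hl => ?_, Prod.ext h4 h5⟩
    obtain ⟨h6, h7⟩ := h3 l hl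
    rw [← h4, diff_pc he] at h6
    rw [← h5, diff_pc he] at h7
    exact ⟨h6, h7⟩
  · rintro ⟨p, hp, rfl⟩
    refine ⟨⟨pc_subset _ _ _, pc_subset _ _ _⟩, fun l hl => ?_⟩
    obtain ⟨h6, h7⟩ := hp l hl
    refine ⟨?_, ?_⟩
    · show HubEv M (range e) (pc e true p.1) (range e \ pc e true p.1) l
      rw [diff_pc he]; exact h6
    · show CorEv M (range e) (pc e true p.2) (range e \ pc e true p.2) l
      rw [diff_pc he]; exact h7

theorem cmp_bpair (he : Function.Injective e) (p : (V → Bool) × (V → Bool)) :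
    cmp M t (range e) (bpair e p).1 (bpair e p).2 =
      pc e true ((combLaw hM (range e) e).W t p.1 p.2) := by
  rw [pc_W e hM (range e) he t true p.1 p.2]
  unfold cmp bpair
  rw [diff_pc he]

/-- The local mean as a mean over pairs of colourings. -/
theorem mraw_eq_sum (he : Function.Injective e) (Θ : Dt → ℂ) (k : ℕ) :
    mraw M Θ k (range e) =
      (∑ p : (V → Bool) × (V → Bool), if GC hM (tk M k) (range e) e p then
        cellV M (range e) (pc e true ((combLaw hM (range e) e).W (tk M k) p.1 p.2)) Θ k else 0) /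
      ∑ p : (V → Bool) × (V → Bool), if GC hM (tk M k) (range e) e p then 1 else 0 := by
  unfold mraw
  rw [GPs_eq_bpair hM _ he, Set.ncard_image_of_injective _ (bpair_injective he),
    finsum_mem_image (bpair_injective he).injOn]
  congr 1
  · rw [finsum_mem_eq_finite_toFinset_sum _ (Set.toFinite _), ← Finset.sum_filter]
    refine Finset.sum_congr ?_ fun p _ => ?_
    · ext p
      simp
    · rw [cmp_bpair hM _ he]
  · rw [Finset.sum_boole, Set.ncard_eq_toFinset_card _ (Set.toFinite _)]
    congr 2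
    ext p
    simp

theorem ex2_GC (Y : Set ℂ) (ht : t ⊆ Finset.range (nc M)) :
    (∏ l ∈ t, pr ((combLaw hM Y e).He l)) * ∏ l ∈ t, pr ((combLaw hM Y e).Ce l) =
      (∑ p : (V → Bool) × (V → Bool), if GC hM t Y e p then (1 : ℝ) else 0) /
        (2 ^ Fintype.card V * 2 ^ Fintype.card V) := by
  rw [← (combLaw hM Y e).pr_all_eq ht]
  rw [← ex2_eq_sum fun c₁ c₂ => if GC hM t Y e (c₁, c₂) then (1 : ℝ) else 0, ← ex_pair]
  unfold pr
  congr 1
  funext σ
  by_cases h : GC hM t Y e (σ ∘ Sum.inl, σ ∘ Sum.inr)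
  · rw [if_pos h, if_pos (((combLaw hM Y e).all_iff t σ).2 h)]
  · rw [if_neg h, if_neg fun h' => h (((combLaw hM Y e).all_iff t σ).1 h')]

/-- **Bridge.** Real part of the local mean, in the form of `GateLaw.qe_local'`. -/
theorem mraw_re (he : Function.Injective e) (Θ : Dt → ℂ) (k : ℕ) :
    (mraw M Θ k (range e)).re =
      (ex2 fun c₁ c₂ => if ∀ l ∈ tk M k, (combLaw hM (range e) e).He l c₁ ∧
          (combLaw hM (range e) e).Ce l c₂ then
        (cellV M (range e) (pc e true ((combLaw hM (range e) e).W (tk M k) c₁ c₂)) Θ k).re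
          else 0) /
      ((∏ l ∈ tk M k, pr ((combLaw hM (range e) e).He l)) *
        ∏ l ∈ tk M k, pr ((combLaw hM (range e) e).Ce l)) := by
  rw [ex2_GC hM (tk M k) (range e) (tk_sub M k), ex2_eq_sum, mraw_eq_sum hM he]
  have h4 : (0 : ℝ) < 2 ^ Fintype.card V * 2 ^ Fintype.card V := by positivity
  rw [div_div_div_cancel_right₀ h4.ne']
  have e1 : (∑ p : (V → Bool) × (V → Bool), if GC hM (tk M k) (range e) e p then (1 : ℂ) else 0) =
      ((∑ p : (V → Bool) × (V → Bool), if GC hM (tk M k) (range e) e p then (1 : ℝ) else 0 : ℝ) :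
        ℂ) := by
    push_cast
    exact Finset.sum_congr rfl fun p _ => by split_ifs <;> simp
  rw [e1, Complex.div_ofReal_re, Complex.re_sum]
  congr 1
  refine Finset.sum_congr rfl fun p _ => ?_
  by_cases h : GC hM (tk M k) (range e) e p
  · have h' : ∀ l ∈ tk M k, (combLaw hM (range e) e).He l p.1 ∧
        (combLaw hM (range e) e).Ce l p.2 := h
    rw [if_pos h, if_pos h']
  · have h' : ¬ ∀ l ∈ tk M k, (combLaw hM (range e) e).He l p.1 ∧
        (combLaw hM (range e) e).Ce l p.2 := h
    rw [if_neg h, if_neg h']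
    rfl

/-- **Bridge.** Imaginary part of the local mean. -/
theorem mraw_im (he : Function.Injective e) (Θ : Dt → ℂ) (k : ℕ) :
    (mraw M Θ k (range e)).im =
      (ex2 fun c₁ c₂ => if ∀ l ∈ tk M k, (combLaw hM (range e) e).He l c₁ ∧
          (combLaw hM (range e) e).Ce l c₂ then
        (cellV M (range e) (pc e true ((combLaw hM (range e) e).W (tk M k) c₁ c₂)) Θ k).im
          else 0) /
      ((∏ l ∈ tk M k, pr ((combLaw hM (range e) e).He l)) *
        ∏ l ∈ tk M k, pr ((combLaw hM (range e) e).Ce l)) := by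
  rw [ex2_GC hM (tk M k) (range e) (tk_sub M k), ex2_eq_sum, mraw_eq_sum hM he]
  have h4 : (0 : ℝ) < 2 ^ Fintype.card V * 2 ^ Fintype.card V := by positivity
  rw [div_div_div_cancel_right₀ h4.ne']
  have e1 : (∑ p : (V → Bool) × (V → Bool), if GC hM (tk M k) (range e) e p then (1 : ℂ) else 0) =
      ((∑ p : (V → Bool) × (V → Bool), if GC hM (tk M k) (range e) e p then (1 : ℝ) else 0 : ℝ) :
        ℂ) := by
    push_cast
    exact Finset.sum_congr rfl fun p _ => by split_ifs <;> simp
  rw [e1, Complex.div_ofReal_im, Complex.im_sum]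
  congr 1
  refine Finset.sum_congr rfl fun p _ => ?_
  by_cases h : GC hM (tk M k) (range e) e p
  · have h' : ∀ l ∈ tk M k, (combLaw hM (range e) e).He l p.1 ∧
        (combLaw hM (range e) e).Ce l p.2 := h
    rw [if_pos h, if_pos h']
  · have h' : ¬ ∀ l ∈ tk M k, (combLaw hM (range e) e).He l p.1 ∧
        (combLaw hM (range e) e).Ce l p.2 := h
    rw [if_neg h, if_neg h']
    rfl

end

end H729
end P148
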