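import Mathlib

/-!
# P148, row MEAS, part 1: a calculus of Borel predicates of random finite sets of points

`Ω` is a measurable space and `X : Ω → Set ℂ` a random finite set of points with a measurable
enumeration (`Rep X`). A *term* is a function `e : Ω → α` (`α` = points, darts, finite sequences of
points, ...) whose value is a fixed tuple of the enumerated points. Predicates built from Borel
atoms by Boolean operations, countable unions and quantification over tuples of points of `X ω` are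
measurable: prove it for terms and use `ms_ex`, `ms_all`.
-/

open MeasureTheory Set

namespace P148
namespace H729

/-- Types of tuples of points. -/
class PT (α : Type) where
  /-- index type of the tuples for points enumerated by `J` -/
  Idx : Type → Type
  cnt : ∀ (J : Type) [Countable J], Countable (Idx J)
  /-- evaluation -/
  ev : ∀ {J : Type}, (J → ℂ) → Idx J → α
  /-- all points of the tuple are in the set -/
  Mem : Set ℂ → α → Prop
  mem_iff : ∀ {J : Type} (g : J → ℂ) (a : α), Mem (range g) a ↔ ∃ j : Idx J, ev g j = a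
  meq : ∀ {J Ω : Type} [MeasurableSpace Ω] (g : J → Ω → ℂ), (∀ j, Measurable (g j)) →
    ∀ i j : Idx J, MeasurableSet {ω | ev (fun k => g k ω) i = ev (fun k => g k ω) j}

attribute [instance] PT.cnt

/-- Evaluation of tuples is measurable. -/
class MPT (α : Type) [MeasurableSpace α] [PT α] : Prop where
  meas : ∀ {J Ω : Type} [MeasurableSpace Ω] (g : J → Ω → ℂ), (∀ j, Measurable (g j)) →
    ∀ j : PT.Idx α J, Measurable fun ω => PT.ev (fun k => g k ω) j

instance : PT ℂ where
  Idx J := J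
  cnt _ _ := inferInstance
  ev g j := g j
  Mem X z := z ∈ X
  mem_iff _ _ := Iff.rfl
  meq _ hg i j := measurableSet_eq_fun (hg i) (hg j)

instance : MPT ℂ where
  meas _ hg j := hg j

instance {α β : Type} [PT α] [PT β] : PT (α × β) where
  Idx J := PT.Idx α J × PT.Idx β J
  cnt _ _ := inferInstance
  ev g j := (PT.ev g j.1, PT.ev g j.2)
  Mem X a := PT.Mem X a.1 ∧ PT.Mem X a.2
  mem_iff g a := by
    rw [PT.mem_iff, PT.mem_iff]
    constructor
    · rintro ⟨⟨i, hi⟩, ⟨j, hj⟩⟩
      exact ⟨(i, j), Prod.ext hi hj⟩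
    · rintro ⟨⟨i, j⟩, h⟩
      exact ⟨⟨i, congrArg Prod.fst h⟩, ⟨j, congrArg Prod.snd h⟩⟩
  meq g hg i j := by
    have : {ω | (PT.ev (fun k => g k ω) i.1, PT.ev (fun k => g k ω) i.2) =
        ((PT.ev (fun k => g k ω) j.1 : α), (PT.ev (fun k => g k ω) j.2 : β))} =
        {ω | PT.ev (fun k => g k ω) i.1 = PT.ev (fun k => g k ω) j.1} ∩
        {ω | PT.ev (fun k => g k ω) i.2 = PT.ev (fun k => g k ω) j.2} := by
      ext ω
      exact Prod.mk_inj
    rw [this]
    exact (PT.meq g hg _ _).inter (PT.meq g hg _ _)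

instance {α β : Type} [MeasurableSpace α] [MeasurableSpace β] [PT α] [PT β] [MPT α] [MPT β] :
    MPT (α × β) where
  meas g hg j := (MPT.meas g hg j.1).prodMk (MPT.meas g hg j.2)

instance {α : Type} [PT α] (m : ℕ) : PT (Fin m → α) where
  Idx J := Fin m → PT.Idx α J
  cnt _ _ := inferInstance
  ev g j := fun l => PT.ev g (j l)
  Mem X a := ∀ l, PT.Mem X (a l)
  mem_iff g a := by
    simp_rw [PT.mem_iff]
    constructor
    · intro h
      choose j hj using h
      exact ⟨j, funext hj⟩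
    · rintro ⟨j, h⟩ l
      exact ⟨j l, congrFun h l⟩
  meq g hg i j := by
    have : {ω | (fun l => (PT.ev (fun k => g k ω) (i l) : α)) =
        fun l => PT.ev (fun k => g k ω) (j l)} =
        ⋂ l, {ω | (PT.ev (fun k => g k ω) (i l) : α) = PT.ev (fun k => g k ω) (j l)} := by
      ext ω
      simp only [mem_ofPred_eq, mem_iInter]
      exact funext_iff
    rw [this]
    exact MeasurableSet.iInter fun l => PT.meq g hg _ _

instance {α : Type} [MeasurableSpace α] [PT α] [MPT α] (m : ℕ) : MPT (Fin m → α) where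
  meas g hg j := measurable_pi_iff.mpr fun l => MPT.meas g hg (j l)

instance {α : Type} [PT α] : PT (List α) where
  Idx J := List (PT.Idx α J)
  cnt _ _ := inferInstance
  ev g j := j.map (PT.ev g)
  Mem X a := ∀ b ∈ a, PT.Mem X b
  mem_iff g a := by
    constructor
    · intro h
      induction a with
      | nil => exact ⟨[], rfl⟩
      | cons b l ih =>
        obtain ⟨j, hj⟩ := (PT.mem_iff g b).mp (h b (by simp))
        obtain ⟨k, hk⟩ := ih fun c hc => h c (by simp [hc])
        exact ⟨j :: k, by simp only [List.map_cons, hj, hk]⟩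
    · rintro ⟨j, rfl⟩ b hb
      obtain ⟨i, -, rfl⟩ := List.mem_map.mp hb
      exact (PT.mem_iff g _).mpr ⟨i, rfl⟩
  meq g hg i := by
    induction i with
    | nil =>
      intro j
      cases j with
      | nil => simp
      | cons b l => simp
    | cons a k ih =>
      intro j
      cases j with
      | nil => simp
      | cons b l =>
        have : {ω | List.map (PT.ev fun k => g k ω) (a :: k) =
            List.map (PT.ev fun k => g k ω) (b :: l)} =
            {ω | (PT.ev (fun k => g k ω) a : α) = PT.ev (fun k => g k ω) b} ∩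
            {ω | List.map (PT.ev fun k => g k ω) k = List.map (PT.ev fun k => g k ω) l} := by
          ext ω
          simp only [List.map_cons, List.cons.injEq, mem_ofPred_eq, mem_inter_iff]
        rw [this]
        exact (PT.meq g hg _ _).inter (ih l)

/-- Countable types of parameters. -/
@[reducible] def PT.disc (α : Type) [Countable α] : PT α where
  Idx _ := α
  cnt _ _ := inferInstance
  ev _ j := j
  Mem _ _ := True
  mem_iff _ a := ⟨fun _ => ⟨a, rfl⟩, fun _ => trivial⟩
  meq _ _ i j := MeasurableSet.const (i = j)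

instance : PT ℕ := PT.disc ℕ
instance : PT ℤ := PT.disc ℤ
instance : PT Bool := PT.disc Bool
instance : PT Unit := PT.disc Unit
instance (m : ℕ) : PT (Fin m) := PT.disc (Fin m)
instance : PT (ZMod 3) := @PT.disc (ZMod 3) (inferInstanceAs (Countable (Fin 3)))

/-- A measurable enumeration of a random finite set of points. -/
structure Rep {Ω : Type} [MeasurableSpace Ω] (X : Ω → Set ℂ) where
  /-- indices -/
  J : Type
  fin : Finite J
  /-- the points -/
  g : J → Ω → ℂ
  meas : ∀ j, Measurable (g j)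
  eq : ∀ ω, X ω = range fun j => g j ω

attribute [instance] Rep.fin

section
variable {Ω : Type} [MeasurableSpace Ω] {X : Ω → Set ℂ} (R : Rep X)
variable {α β γ : Type} [PT α] [PT β] [PT γ]

/-- Terms. -/
def IsT (e : Ω → α) : Prop := ∃ j : PT.Idx α R.J, ∀ ω, e ω = PT.ev (fun i => R.g i ω) j

variable {R}

theorem IsT.mem {e : Ω → α} (he : IsT R e) (ω : Ω) : PT.Mem (X ω) (e ω) := by
  obtain ⟨j, hj⟩ := he
  rw [R.eq, PT.mem_iff]
  exact ⟨j, (hj ω).symm⟩

theorem IsT.mem_pt {e : Ω → ℂ} (he : IsT R e) (ω : Ω) : e ω ∈ X ω := IsT.mem he ω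

theorem IsT.measurable [MeasurableSpace α] [MPT α] {e : Ω → α} (he : IsT R e) : Measurable e := by
  obtain ⟨j, hj⟩ := he
  have : e = fun ω => PT.ev (fun i => R.g i ω) j := funext hj
  rw [this]
  exact MPT.meas R.g R.meas j

theorem IsT.fst {e : Ω → α × β} (he : IsT R e) : IsT R fun ω => (e ω).1 := by
  obtain ⟨j, hj⟩ := he
  exact ⟨j.1, fun ω => congrArg Prod.fst (hj ω)⟩

theorem IsT.snd {e : Ω → α × β} (he : IsT R e) : IsT R fun ω => (e ω).2 := by
  obtain ⟨j, hj⟩ := he
  exact ⟨j.2, fun ω => congrArg Prod.snd (hj ω)⟩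

theorem IsT.prodMk {e : Ω → α} {f : Ω → β} (he : IsT R e) (hf : IsT R f) :
    IsT R fun ω => (e ω, f ω) := by
  obtain ⟨j, hj⟩ := he
  obtain ⟨k, hk⟩ := hf
  exact ⟨(j, k), fun ω => Prod.ext (hj ω) (hk ω)⟩

theorem IsT.app {m : ℕ} {e : Ω → Fin m → α} (he : IsT R e) (l : Fin m) :
    IsT R fun ω => e ω l := by
  obtain ⟨j, hj⟩ := he
  exact ⟨j l, fun ω => congrFun (hj ω) l⟩

theorem IsT.pi {m : ℕ} {e : Ω → Fin m → α} (he : ∀ l, IsT R fun ω => e ω l) : IsT R e := by
  choose j hj using he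
  exact ⟨j, fun ω => funext fun l => hj l ω⟩

theorem IsT.nil : IsT R fun _ : Ω => ([] : List α) := ⟨[], fun _ => rfl⟩

theorem IsT.cons {e : Ω → α} {f : Ω → List α} (he : IsT R e) (hf : IsT R f) :
    IsT R fun ω => e ω :: f ω := by
  obtain ⟨j, hj⟩ := he
  obtain ⟨k, hk⟩ := hf
  refine ⟨j :: k, fun ω => ?_⟩
  show e ω :: f ω = _
  rw [hj, hk]
  rfl

theorem IsT.append {e f : Ω → List α} (he : IsT R e) (hf : IsT R f) :
    IsT R fun ω => e ω ++ f ω := by
  obtain ⟨j, hj⟩ := he
  obtain ⟨k, hk⟩ := hf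
  change List (PT.Idx α R.J) at j k
  refine ⟨(j ++ k : List (PT.Idx α R.J)), fun ω => ?_⟩
  show e ω ++ f ω = _
  rw [hj, hk]
  exact (List.map_append (f := PT.ev fun i => R.g i ω)).symm

theorem IsT.disc_nat (a : ℕ) : IsT R fun _ : Ω => a := ⟨a, fun _ => rfl⟩
theorem IsT.disc_int (a : ℤ) : IsT R fun _ : Ω => a := ⟨a, fun _ => rfl⟩
theorem IsT.disc_bool (a : Bool) : IsT R fun _ : Ω => a := ⟨a, fun _ => rfl⟩
theorem IsT.disc_fin {m : ℕ} (a : Fin m) : IsT R fun _ : Ω => a := ⟨a, fun _ => rfl⟩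
theorem IsT.disc_zmod (a : ZMod 3) : IsT R fun _ : Ω => a := ⟨a, fun _ => rfl⟩

/-- A list term is a list of terms. -/
theorem IsT.list_cases {e : Ω → List α} (he : IsT R e) :
    (∀ ω, e ω = []) ∨ ∃ (a : Ω → α) (l : Ω → List α), IsT R a ∧ IsT R l ∧
      ∀ ω, e ω = a ω :: l ω := by
  obtain ⟨j, hj⟩ := he
  cases j with
  | nil => exact Or.inl hj
  | cons a l => exact Or.inr ⟨_, _, ⟨a, fun _ => rfl⟩, ⟨l, fun _ => rfl⟩, hj⟩

/-- Induction on list terms. -/
theorem IsT.list_induction {C : (Ω → List α) → Prop} (h0 : C fun _ => [])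
    (hc : ∀ (a : Ω → α) (l : Ω → List α), IsT R a → IsT R l → C l → C fun ω => a ω :: l ω)
    {e : Ω → List α} (he : IsT R e) : C e := by
  obtain ⟨j, hj⟩ := he
  have : e = fun ω => List.map (PT.ev fun i => R.g i ω) j := funext hj
  rw [this]
  clear this hj
  induction j with
  | nil => exact h0
  | cons a l ih => exact hc _ _ ⟨a, fun _ => rfl⟩ ⟨l, fun _ => rfl⟩ ih

/-! ### Boolean operations, in the form of predicates -/

section bool
variable {p q : Ω → Prop}

theorem ms_and (hp : MeasurableSet {ω | p ω}) (hq : MeasurableSet {ω | q ω}) :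
    MeasurableSet {ω | p ω ∧ q ω} := hp.inter hq

theorem ms_or (hp : MeasurableSet {ω | p ω}) (hq : MeasurableSet {ω | q ω}) :
    MeasurableSet {ω | p ω ∨ q ω} := hp.union hq

theorem ms_not (hp : MeasurableSet {ω | p ω}) : MeasurableSet {ω | ¬ p ω} := hp.compl

theorem ms_imp (hp : MeasurableSet {ω | p ω}) (hq : MeasurableSet {ω | q ω}) :
    MeasurableSet {ω | p ω → q ω} := by
  have : {ω | p ω → q ω} = {ω | ¬ p ω ∨ q ω} := by ext ω; exact imp_iff_not_or
  rw [this]
  exact ms_or (ms_not hp) hq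

theorem ms_iff (hp : MeasurableSet {ω | p ω}) (hq : MeasurableSet {ω | q ω}) :
    MeasurableSet {ω | p ω ↔ q ω} := by
  have : {ω | p ω ↔ q ω} = {ω | (p ω → q ω) ∧ (q ω → p ω)} := by ext ω; exact iff_iff_implies_and_implies
  rw [this]
  exact ms_and (ms_imp hp hq) (ms_imp hq hp)

theorem ms_const (a : Prop) : MeasurableSet {_ω : Ω | a} := MeasurableSet.const a

theorem ms_exc {ι : Sort*} [Countable ι] {p : ι → Ω → Prop} (h : ∀ i, MeasurableSet {ω | p i ω}) :
    MeasurableSet {ω | ∃ i, p i ω} := by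
  have : {ω | ∃ i, p i ω} = ⋃ i, {ω | p i ω} := by ext ω; simp
  rw [this]
  exact MeasurableSet.iUnion h

theorem ms_allc {ι : Sort*} [Countable ι] {p : ι → Ω → Prop}
    (h : ∀ i, MeasurableSet {ω | p i ω}) : MeasurableSet {ω | ∀ i, p i ω} := by
  have : {ω | ∀ i, p i ω} = ⋂ i, {ω | p i ω} := by ext ω; simp
  rw [this]
  exact MeasurableSet.iInter h

/-- Replace a predicate by an equivalent one. -/
theorem ms_congr (hp : MeasurableSet {ω | p ω}) (h : ∀ ω, q ω ↔ p ω) :
    MeasurableSet {ω | q ω} := by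
  have : {ω | q ω} = {ω | p ω} := by ext ω; exact h ω
  rwa [this]

end bool

/-! ### quantifiers over tuples of points -/

theorem ms_ex (R : Rep X) {Ψ : Ω → α → Prop}
    (h : ∀ e : Ω → α, IsT R e → MeasurableSet {ω | Ψ ω (e ω)}) :
    MeasurableSet {ω | ∃ a, PT.Mem (X ω) a ∧ Ψ ω a} := by
  have : {ω | ∃ a, PT.Mem (X ω) a ∧ Ψ ω a} =
      ⋃ j : PT.Idx α R.J, {ω | Ψ ω (PT.ev (fun i => R.g i ω) j)} := by
    ext ω
    simp only [mem_ofPred_eq, mem_iUnion]
    constructor
    · rintro ⟨a, ha, h1⟩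
      rw [R.eq, PT.mem_iff] at ha
      obtain ⟨j, rfl⟩ := ha
      exact ⟨j, h1⟩
    · rintro ⟨j, h1⟩
      exact ⟨_, by rw [R.eq, PT.mem_iff]; exact ⟨j, rfl⟩, h1⟩
  rw [this]
  exact MeasurableSet.iUnion fun j => h _ ⟨j, fun _ => rfl⟩

theorem ms_all (R : Rep X) {Ψ : Ω → α → Prop}
    (h : ∀ e : Ω → α, IsT R e → MeasurableSet {ω | Ψ ω (e ω)}) :
    MeasurableSet {ω | ∀ a, PT.Mem (X ω) a → Ψ ω a} := by
  have h1 := (ms_ex R (Ψ := fun ω a => ¬ Ψ ω a) fun e he => ms_not (h e he)).compl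
  refine ms_congr (p := fun ω => ¬ ∃ a, PT.Mem (X ω) a ∧ ¬ Ψ ω a) h1 fun ω => ?_
  push Not
  rfl

theorem ms_ex_pt (R : Rep X) {Ψ : Ω → ℂ → Prop}
    (h : ∀ e : Ω → ℂ, IsT R e → MeasurableSet {ω | Ψ ω (e ω)}) :
    MeasurableSet {ω | ∃ z ∈ X ω, Ψ ω z} := ms_ex R h

theorem ms_all_pt (R : Rep X) {Ψ : Ω → ℂ → Prop}
    (h : ∀ e : Ω → ℂ, IsT R e → MeasurableSet {ω | Ψ ω (e ω)}) :
    MeasurableSet {ω | ∀ z ∈ X ω, Ψ ω z} := ms_all R h

theorem ms_ex_list (R : Rep X) {Ψ : Ω → List α → Prop}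
    (h : ∀ e : Ω → List α, IsT R e → MeasurableSet {ω | Ψ ω (e ω)}) :
    MeasurableSet {ω | ∃ l, (∀ a ∈ l, PT.Mem (X ω) a) ∧ Ψ ω l} := ms_ex R h

theorem ms_ex_fin (R : Rep X) {m : ℕ} {Ψ : Ω → (Fin m → α) → Prop}
    (h : ∀ e : Ω → (Fin m → α), IsT R e → MeasurableSet {ω | Ψ ω (e ω)}) :
    MeasurableSet {ω | ∃ f, (∀ i, PT.Mem (X ω) (f i)) ∧ Ψ ω f} := ms_ex R h

/-! ### atoms -/

theorem ms_borel [MeasurableSpace α] [MPT α] {e : Ω → α} (he : IsT R e) {B : Set α}
    (hB : MeasurableSet B) : MeasurableSet {ω | e ω ∈ B} := he.measurable hB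

theorem ms_eq {e f : Ω → α} (he : IsT R e) (hf : IsT R f) : MeasurableSet {ω | e ω = f ω} := by
  obtain ⟨j, hj⟩ := he
  obtain ⟨k, hk⟩ := hf
  refine ms_congr (PT.meq R.g R.meas j k) fun ω => ?_
  rw [hj, hk]

/-- Random colourings. -/
def MC (R : Rep X) (c : Ω → ℂ → Bool) : Prop := ∀ j, Measurable fun ω => c ω (R.g j ω)

theorem MC.term {c : Ω → ℂ → Bool} (hc : MC R c) {e : Ω → ℂ} (he : IsT R e) :
    Measurable fun ω => c ω (e ω) := by
  obtain ⟨j, hj⟩ := he
  have : (fun ω => c ω (e ω)) = fun ω => c ω (R.g j ω) := funext fun ω => by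
    rw [hj ω]; rfl
  rw [this]
  exact hc j

theorem ms_col_eq {c c' : Ω → ℂ → Bool} (hc : MC R c) (hc' : MC R c') {e f : Ω → ℂ}
    (he : IsT R e) (hf : IsT R f) : MeasurableSet {ω | c ω (e ω) = c' ω (f ω)} :=
  measurableSet_eq_fun (hc.term he) (hc'.term hf)

theorem ms_col {c : Ω → ℂ → Bool} (hc : MC R c) {e : Ω → ℂ} (he : IsT R e) (b : Bool) :
    MeasurableSet {ω | c ω (e ω) = b} :=
  hc.term he (measurableSet_singleton b)

/-! ### reflexive transitive closures -/

theorem ms_chain {Rl : Ω → α → α → Prop}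
    (h : ∀ e f : Ω → α, IsT R e → IsT R f → MeasurableSet {ω | Rl ω (e ω) (f ω)})
    {e : Ω → List α} (he : IsT R e) : MeasurableSet {ω | List.IsChain (Rl ω) (e ω)} := by
  refine IsT.list_induction (R := R) (C := fun e => MeasurableSet {ω | List.IsChain (Rl ω) (e ω)})
    (by simp) ?_ he
  intro a l ha hl ih
  rcases hl.list_cases with h0 | ⟨b, l', hb, hl', h1⟩
  · refine ms_congr (ms_const True) fun ω => ?_
    simp [h0 ω]
  · refine ms_congr (ms_and (h a b ha hb) ih) fun ω => ?_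
    simp only [h1 ω]
    exact List.isChain_cons_cons

theorem ms_getLast {e : Ω → List α} (he : IsT R e) {d : Ω → α} (hd : IsT R d) :
    IsT R fun ω => (e ω).getLastD (d ω) := by
  obtain ⟨j, hj⟩ := he
  obtain ⟨k, hk⟩ := hd
  change List (PT.Idx α R.J) at j
  refine ⟨j.getLastD k, fun ω => ?_⟩
  show (e ω).getLastD (d ω) = _
  rw [hj, hk]
  show (List.map (PT.ev fun i => R.g i ω) j).getLastD _ = _
  rcases List.eq_nil_or_concat j with rfl | ⟨l, a, rfl⟩
  · rfl
  · simp

theorem getLastD_eq {α : Type*} (a : α) (l : List α) :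
    (a :: l).getLast (List.cons_ne_nil _ _) = l.getLastD a := by
  cases l with
  | nil => rfl
  | cons b l => simp [List.getLastD]

/-- **Reflexive transitive closures** of definable relations on tuples of points. -/
theorem ms_rtg (R : Rep X) {Rl : Ω → α → α → Prop}
    (h : ∀ e f : Ω → α, IsT R e → IsT R f → MeasurableSet {ω | Rl ω (e ω) (f ω)})
    (hm : ∀ ω a b, Rl ω a b → PT.Mem (X ω) b)
    {e f : Ω → α} (he : IsT R e) (hf : IsT R f) :
    MeasurableSet {ω | Relation.ReflTransGen (Rl ω) (e ω) (f ω)} := by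
  have h1 : MeasurableSet {ω | ∃ l : List α, (∀ a ∈ l, PT.Mem (X ω) a) ∧
      (List.IsChain (Rl ω) (e ω :: l) ∧ l.getLastD (e ω) = f ω)} :=
    ms_ex_list R fun l hl => ms_and (ms_chain (R := R) h (he.cons hl))
      (ms_eq (ms_getLast hl he) hf)
  refine ms_congr h1 fun ω => ?_
  constructor
  · intro hr
    obtain ⟨l, h2, h3⟩ := List.exists_isChain_cons_of_relationReflTransGen hr
    refine ⟨l, ?_, h2, by rw [← h3, getLastD_eq]⟩
    have key : ∀ (l : List α) (a : α), List.IsChain (Rl ω) (a :: l) → ∀ b ∈ l,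
        PT.Mem (X ω) b := by
      intro l
      induction l with
      | nil => intro a _ b hb; simp at hb
      | cons c l ih =>
        intro a hc b hb
        rw [List.isChain_cons_cons] at hc
        rcases List.mem_cons.mp hb with rfl | hb
        · exact hm ω _ _ hc.1
        · exact ih c hc.2 b hb
    exact key l (e ω) h2
  · rintro ⟨l, -, h2, h3⟩
    exact List.relationReflTransGen_of_exists_isChain_cons l h2 (by rw [getLastD_eq, h3])

/-- Quantification over lists inside a formula: membership in a list term. -/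
theorem ms_list_all {Ψ : Ω → α → Prop}
    (h : ∀ e : Ω → α, IsT R e → MeasurableSet {ω | Ψ ω (e ω)})
    {l : Ω → List α} (hl : IsT R l) : MeasurableSet {ω | ∀ a ∈ l ω, Ψ ω a} := by
  refine IsT.list_induction (R := R) (C := fun l => MeasurableSet {ω | ∀ a ∈ l ω, Ψ ω a})
    (by simp) ?_ hl
  intro a l ha hl ih
  refine ms_congr (ms_and (h a ha) ih) fun ω => ?_
  simp

theorem ms_list_ex {Ψ : Ω → α → Prop}
    (h : ∀ e : Ω → α, IsT R e → MeasurableSet {ω | Ψ ω (e ω)})
    {l : Ω → List α} (hl : IsT R l) : MeasurableSet {ω | ∃ a ∈ l ω, Ψ ω a} := by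
  refine ms_congr (ms_not (ms_list_all (Ψ := fun ω a => ¬ Ψ ω a)
    (fun e he => ms_not (h e he)) hl)) fun ω => ?_
  push Not
  rfl

theorem ms_list_mem {a : Ω → α} (ha : IsT R a) {l : Ω → List α} (hl : IsT R l) :
    MeasurableSet {ω | a ω ∈ l ω} := by
  refine ms_congr (ms_list_ex (Ψ := fun ω b => b = a ω) (fun e he => ms_eq he ha) hl) fun ω => ?_
  simp

/-! ### representations -/

/-- Union of two random sets. -/
def Rep.union {Y : Ω → Set ℂ} (R : Rep X) (R' : Rep Y) : Rep fun ω => X ω ∪ Y ω where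
  J := R.J ⊕ R'.J
  fin := inferInstance
  g := Sum.elim R.g R'.g
  meas := by
    rintro (j | j)
    · exact R.meas j
    · exact R'.meas j
  eq ω := by
    ext z
    rw [R.eq, R'.eq]
    simp only [mem_union, mem_range, Sum.exists, Sum.elim_inl, Sum.elim_inr]

/-- A constant finite set. -/
def Rep.const {K : Type} [Finite K] (b : K → ℂ) : Rep fun _ : Ω => range b where
  J := K
  fin := inferInstance
  g k _ := b k
  meas _ := measurable_const
  eq _ := rfl

end

end H729
end P148
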