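import Vale.Agent.P148.R2.H729.Meas1
import Vale.Agent.P148.R2.H184.L6
import Vale.Agent.P148.R2.H592.Dom1
import Vale.Agent.P148.R2.H592.Gen2

/-!
# P148, row MEAS, part 2: Delaunay atoms

Voronoi cells, Delaunay neighbours, faces, local faces, components, connected sets, next darts of
strands, colours of the points of a configuration.
-/

open MeasureTheory Set Metric Topology Filter
open scoped ENNReal NNReal

namespace P148
namespace H729

open Vale.Agent.P148.R2.H592 Vale.Agent.P148.R2.H184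

/-! ### projections -/

theorem isClosed_proj {E : Type*} [TopologicalSpace E] {C : Set (E × ℂ)} (hC : IsClosed C)
    {K : Set ℂ} (hK : IsCompact K) : IsClosed {p | ∃ z ∈ K, (p, z) ∈ C} := by
  have : CompactSpace K := isCompact_iff_compactSpace.mp hK
  have h1 : IsClosed {q : E × K | (q.1, (q.2 : ℂ)) ∈ C} :=
    hC.preimage (continuous_fst.prodMk (continuous_subtype_val.comp continuous_snd))
  have h2 := isClosedMap_fst_of_compactSpace (X := E) (Y := K) _ h1
  convert h2 using 1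
  ext p
  simp only [mem_ofPred_eq, mem_image, Prod.exists, exists_and_right, exists_eq_right,
    Subtype.exists]
  constructor
  · rintro ⟨z, hz, h⟩
    exact ⟨z, hz, h⟩
  · rintro ⟨z, hz, h⟩
    exact ⟨z, hz, h⟩

theorem measurableSet_proj {E : Type*} [TopologicalSpace E] [MeasurableSpace E]
    [OpensMeasurableSpace E] {C : Set (E × ℂ)} (hC : IsClosed C)
    {U : Set ℂ} (hU : IsSigmaCompact U) : MeasurableSet {p | ∃ z ∈ U, (p, z) ∈ C} := by
  obtain ⟨K, hK, rfl⟩ := hU
  have : {p | ∃ z ∈ ⋃ n, K n, (p, z) ∈ C} = ⋃ n, {p | ∃ z ∈ K n, (p, z) ∈ C} := by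
    ext p
    simp only [mem_ofPred_eq, mem_iUnion]
    constructor
    · rintro ⟨z, ⟨n, hn⟩, h⟩
      exact ⟨n, z, hn, h⟩
    · rintro ⟨n, z, hn, h⟩
      exact ⟨z, ⟨n, hn⟩, h⟩
  rw [this]
  exact MeasurableSet.iUnion fun n => (isClosed_proj hC (hK n)).measurableSet

theorem isSigmaCompact_of_isClosed {U : Set ℂ} (hU : IsClosed U) : IsSigmaCompact U := by
  refine ⟨fun n => U ∩ closedBall 0 n, fun n => (isCompact_closedBall 0 (n : ℝ)).inter_left hU, ?_⟩
  ext z
  simp only [mem_iUnion, mem_inter_iff, mem_closedBall, dist_zero_right, exists_and_left,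
    and_iff_left_iff_imp]
  intro _
  exact exists_nat_ge _

theorem isSigmaCompact_of_isOpen {U : Set ℂ} (hU : IsOpen U) : IsSigmaCompact U := by
  obtain ⟨F, hF, -, hFU, -⟩ := hU.exists_iUnion_isClosed
  rw [← hFU]
  exact isSigmaCompact_iUnion _ fun n => isSigmaCompact_of_isClosed (hF n)

section
variable {Ω : Type} [MeasurableSpace Ω] {X : Ω → Set ℂ} {R : Rep X}

/-- The points are in the Voronoi cells of the terms `v i`. -/
theorem ms_proj (R : Rep X) {U : Set ℂ} (hU : IsSigmaCompact U) {m : ℕ} {v : Fin m → Ω → ℂ}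
    (hv : ∀ i, IsT R (v i)) : MeasurableSet {ω | ∃ z ∈ U, ∀ i, z ∈ vcell (X ω) (v i ω)} := by
  choose j hj using hv
  let C : Set ((R.J → ℂ) × ℂ) := {q | ∀ i, ∀ k, dist q.2 (q.1 (j i)) ≤ dist q.2 (q.1 k)}
  have hC : IsClosed C := by
    simp only [C, ofPred_forall]
    refine isClosed_iInter fun i => isClosed_iInter fun k => ?_
    exact isClosed_le (continuous_snd.dist ((continuous_apply _).comp continuous_fst))
      (continuous_snd.dist ((continuous_apply _).comp continuous_fst))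
  have hp : Measurable fun ω => fun k : R.J => R.g k ω := measurable_pi_iff.mpr R.meas
  have h1 := hp (measurableSet_proj hC hU)
  refine ms_congr h1 fun ω => ?_
  refine exists_congr fun z => and_congr_right fun _ => ?_
  show (∀ i, z ∈ vcell (X ω) (v i ω)) ↔ ∀ i, ∀ k, dist z (R.g (j i) ω) ≤ dist z (R.g k ω)
  refine forall_congr' fun i => ?_
  rw [hj i ω, R.eq ω]
  exact forall_mem_range

theorem ms_proj_univ (R : Rep X) {m : ℕ} {v : Fin m → Ω → ℂ}
    (hv : ∀ i, IsT R (v i)) : MeasurableSet {ω | ∃ z, ∀ i, z ∈ vcell (X ω) (v i ω)} := by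
  refine ms_congr (ms_proj R (isSigmaCompact_of_isClosed isClosed_univ) hv) fun ω => ?_
  simp

theorem ms_vcell {v z : Ω → ℂ} (hv : IsT R v) (hz : Measurable z) :
    MeasurableSet {ω | z ω ∈ vcell (X ω) (v ω)} :=
  ms_all_pt R fun _ he => measurableSet_le (hz.dist hv.measurable) (hz.dist he.measurable)

/-- The cell of `v` meets `U` (open or closed). -/
theorem ms_vcell_meets {U : Set ℂ} (hU : IsSigmaCompact U) {v : Ω → ℂ} (hv : IsT R v) :
    MeasurableSet {ω | (vcell (X ω) (v ω) ∩ U).Nonempty} := by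
  refine ms_congr (ms_proj R hU (v := fun _ : Fin 1 => v) fun _ => hv) fun ω => ?_
  constructor
  · rintro ⟨z, hz, hzU⟩
    exact ⟨z, hzU, fun _ => hz⟩
  · rintro ⟨z, hzU, hz⟩
    exact ⟨z, hz 0, hzU⟩

theorem ms_ne {u v : Ω → ℂ} (hu : IsT R u) (hv : IsT R v) : MeasurableSet {ω | u ω ≠ v ω} :=
  ms_not (ms_eq hu hv)

theorem ms_mem {u : Ω → ℂ} (hu : IsT R u) : MeasurableSet {ω | u ω ∈ X ω} :=
  ms_congr (ms_const True) fun ω => iff_true_intro (hu.mem ω)

theorem ms_nbr {v w : Ω → ℂ} (hv : IsT R v) (hw : IsT R w) :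
    MeasurableSet {ω | nbr (X ω) (v ω) (w ω)} := by
  refine ms_and (ms_mem hv) (ms_and (ms_mem hw) (ms_and (ms_ne hv hw) ?_))
  refine ms_congr (ms_proj_univ R (v := ![v, w]) fun i => ?_) fun ω => ?_
  · fin_cases i
    · exact hv
    · exact hw
  · constructor
    · rintro ⟨z, h1, h2⟩
      refine ⟨z, fun i => ?_⟩
      fin_cases i
      · exact h1
      · exact h2
    · rintro ⟨z, h⟩
      exact ⟨z, h 0, h 1⟩

theorem ms_tri {v w u : Ω → ℂ} (hv : IsT R v) (hw : IsT R w) (hu : IsT R u) :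
    MeasurableSet {ω | tri (X ω) (v ω) (w ω) (u ω)} := by
  refine ms_and (ms_mem hv) (ms_and (ms_mem hw) (ms_and (ms_mem hu) (ms_and (ms_ne hv hw)
    (ms_and (ms_ne hw hu) (ms_and (ms_ne hu hv) ?_)))))
  refine ms_congr (ms_proj_univ R (v := ![v, w, u]) fun i => ?_) fun ω => ?_
  · fin_cases i
    · exact hv
    · exact hw
    · exact hu
  · constructor
    · rintro ⟨z, ⟨h1, h2⟩, h3⟩
      refine ⟨z, fun i => ?_⟩
      fin_cases i
      · exact h1
      · exact h2
      · exact h3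
    · rintro ⟨z, h⟩
      exact ⟨z, ⟨h 0, h 1⟩, h 2⟩

theorem measurable_cr3 {v w u : Ω → ℂ} (hv : IsT R v) (hw : IsT R w) (hu : IsT R u) :
    Measurable fun ω => cr (v ω) (w ω) (u ω) :=
  measurable_cr.comp (hv.measurable.prodMk (hw.measurable.prodMk hu.measurable))

theorem ms_face {v w u : Ω → ℂ} (hv : IsT R v) (hw : IsT R w) (hu : IsT R u) :
    MeasurableSet {ω | face (X ω) (v ω) (w ω) (u ω)} :=
  ms_and (ms_tri hv hw hu) (measurableSet_lt measurable_const (measurable_cr3 hv hw hu))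

/-- Local faces. -/
theorem ms_LF {Q : Set ℂ} (hQ : IsOpen Q) {d : Ω → Dt} (hd : IsT R d) :
    MeasurableSet {ω | LF (X ω) Q (d ω)} := by
  have hc : Measurable fun ω => cc (d ω) := measurable_cc.comp hd.measurable
  have hr : Measurable fun ω => dist (cc (d ω)) (d ω).1 := hc.dist hd.fst.measurable
  refine ms_and (ms_and (ms_mem hd.fst) (ms_and (ms_mem hd.snd.fst) (ms_mem hd.snd.snd)))
    (ms_and (measurableSet_lt measurable_const (measurable_cr3 hd.fst hd.snd.fst hd.snd.snd))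
    (ms_and ?_ (ms_all_pt R fun x hx => measurableSet_le hr (hc.dist hx.measurable))))
  by_cases hne : Q = univ
  · subst hne
    exact ms_congr (ms_const True) fun ω => iff_true_intro (subset_univ _)
  · refine ms_congr (p := fun ω => dist (cc (d ω)) (d ω).1 < infDist (cc (d ω)) Qᶜ) ?_
      fun ω => closedBall_subset_iff hQ hne _ _
    exact measurableSet_lt hr ((continuous_infDist_pt _).measurable.comp hc)

/-! ### components, connected sets -/

theorem ms_conn_rel {O : Ω → ℂ → Prop}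
    (hO : ∀ e : Ω → ℂ, IsT R e → MeasurableSet {ω | O ω (e ω)}) {v w : Ω → ℂ} (hv : IsT R v)
    (hw : IsT R w) : MeasurableSet {ω | Relation.ReflTransGen
      (fun a b => nbr (X ω) a b ∧ O ω a ∧ O ω b) (v ω) (w ω)} :=
  ms_rtg R (Rl := fun ω a b => nbr (X ω) a b ∧ O ω a ∧ O ω b)
    (fun _ _ he hf => ms_and (ms_nbr he hf) (ms_and (hO _ he) (hO _ hf)))
    (fun _ _ _ h => h.1.2.1) hv hw

theorem ms_comp {O : Ω → Set ℂ}
    (hO : ∀ e : Ω → ℂ, IsT R e → MeasurableSet {ω | e ω ∈ O ω}) {v w : Ω → ℂ} (hv : IsT R v)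
    (hw : IsT R w) : MeasurableSet {ω | w ω ∈ comp (X ω) (O ω) (v ω)} :=
  ms_and (hO w hw) (ms_conn_rel (O := fun ω a => a ∈ O ω) hO hv hw)

theorem ms_connIn {O : Ω → Set ℂ} (hsub : ∀ ω, O ω ⊆ X ω)
    (hO : ∀ e : Ω → ℂ, IsT R e → MeasurableSet {ω | e ω ∈ O ω}) :
    MeasurableSet {ω | ConnIn (X ω) (O ω)} := by
  refine ms_and (ms_congr (ms_const True) fun ω => iff_true_intro (hsub ω)) ?_
  refine ms_congr (p := fun ω => ∀ x ∈ X ω, ∀ y ∈ X ω, x ∈ O ω → y ∈ O ω →
    Relation.ReflTransGen (fun a b => nbr (X ω) a b ∧ a ∈ O ω ∧ b ∈ O ω) x y) ?_ fun ω => ?_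
  · exact ms_all_pt R fun x hx => ms_all_pt R fun y hy => ms_imp (hO x hx) (ms_imp (hO y hy)
      (ms_conn_rel (O := fun ω a => a ∈ O ω) hO hx hy))
  · constructor
    · intro h x _ y _ hx hy
      exact h x hx y hy
    · intro h x hx y hy
      exact h x (hsub ω hx) y (hsub ω hy) hx hy

/-! ### strands -/

variable {c : Ω → ℂ → Bool}

theorem ms_Nx (hc : MC R c) {d d' : Ω → Dt} (hd : IsT R d) (hd' : IsT R d') :
    MeasurableSet {ω | Nx (c ω) (d ω) (d' ω)} := by
  have e1 := ms_not (ms_col_eq hc hc hd.fst hd.snd.fst)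
  have e2 := ms_col_eq hc hc hd.snd.snd hd.fst
  refine ms_congr (p := fun ω => c ω (d ω).1 ≠ c ω (d ω).2.1 ∧
    ((c ω (d ω).2.2 = c ω (d ω).1 → (d' ω).1 = (d ω).2.2 ∧ (d' ω).2.1 = (d ω).2.1) ∧
     (c ω (d ω).2.2 ≠ c ω (d ω).1 → (d' ω).1 = (d ω).1 ∧ (d' ω).2.1 = (d ω).2.2)))
    (ms_and e1 (ms_and (ms_imp e2 (ms_and (ms_eq hd'.fst hd.snd.snd) (ms_eq hd'.snd.fst hd.snd.fst)))
      (ms_imp (ms_not e2) (ms_and (ms_eq hd'.fst hd.fst) (ms_eq hd'.snd.fst hd.snd.snd))))) fun ω => ?_
  unfold Nx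
  by_cases h : c ω (d ω).2.2 = c ω (d ω).1
  · simp [h]
  · simp [h]

theorem ms_Mn (hc : MC R c) {d : Ω → Dt} (hd : IsT R d) :
    MeasurableSet {ω | Mn (c ω) (d ω)} :=
  ms_and (ms_not (ms_col_eq hc hc hd.fst hd.snd.fst)) (ms_col_eq hc hc hd.snd.snd hd.fst)

end

/-! ### configurations given by tuples -/

/-- The points of a configuration given by a tuple. -/
def repPts (n : ℕ) : Rep fun x : Fin n → Pt => pts (range x) where
  J := Fin n
  fin := inferInstance
  g i x := (x i).1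
  meas i := measurable_fst.comp (measurable_pi_apply i)
  eq x := by
    ext z
    rw [mem_pts_range]
    rfl

open Classical in
/-- The points over a window together with three constant points. -/
noncomputable def repXU (n : ℕ) {U : Set ℂ} (hU : MeasurableSet U) (b : ZMod 3 → ℂ) :
    Rep fun x : Fin n → Pt => XU (range x) U b where
  J := Fin n ⊕ ZMod 3
  fin := @Finite.instSum _ _ _ (inferInstanceAs (Finite (Fin 3)))
  g := Sum.elim (fun i x => if (x i).1 ∈ U then (x i).1 else b 0) fun k _ => b k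
  meas := by
    rintro (i | k)
    · have h1 : Measurable fun x : Fin n → Pt => (x i).1 :=
        measurable_fst.comp (measurable_pi_apply i)
      exact Measurable.ite (h1 hU) h1 measurable_const
    · exact measurable_const
  eq x := by
    ext z
    simp only [XU, mem_union, mem_inter_iff, mem_pts_range, mem_range, Sum.exists, Sum.elim_inl,
      Sum.elim_inr]
    constructor
    · rintro (⟨⟨i, rfl⟩, h⟩ | h)
      · exact Or.inl ⟨i, if_pos h⟩
      · exact Or.inr h
    · rintro (⟨i, hi⟩ | h)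
      · split_ifs at hi with h1
        · exact Or.inl ⟨⟨i, hi⟩, hi ▸ h1⟩
        · exact Or.inr ⟨0, hi⟩
      · exact Or.inr h

/-- The colour of a measurable point. -/
theorem measurable_col_range (n : ℕ) {f : (Fin n → Pt) → ℂ} (hf : Measurable f) :
    Measurable fun x : Fin n → Pt => Vale.Agent.P148.R2.H184.col (range x) (f x) := by
  have h1 : MeasurableSet {x : Fin n → Pt | ∃ i, x i = (f x, true)} :=
    ms_exc fun i => measurableSet_eq_fun (measurable_pi_apply i) (hf.prodMk measurable_const)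
  refine measurable_to_bool ?_
  refine ms_congr h1 fun x => ?_
  show Vale.Agent.P148.R2.H184.col (range x) (f x) = true ↔ _
  simp only [Vale.Agent.P148.R2.H184.col, decide_eq_true_eq, mem_range]

theorem MC_col {n : ℕ} {X : (Fin n → Pt) → Set ℂ} (R : Rep X) :
    MC R fun x => Vale.Agent.P148.R2.H184.col (range x) := fun j => measurable_col_range n (R.meas j)

end H729
end P148
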