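import Vale.Agent.P148.R2.H729.Meas1

/-!
# P148, row MEAS, part 3: finite sums, counting, quantification over finite sets of points

`Finset ℂ` is a type of tuples of points, so one can quantify and sum over subsets of the random
set (colourings, circuits, explored sets).
-/

open MeasureTheory Set

namespace P148
namespace H729

open Classical in
noncomputable instance : PT (Finset ℂ) where
  Idx J := Finset J
  cnt _ _ := inferInstance
  ev g s := s.image g
  Mem X s := ∀ z ∈ s, z ∈ X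
  mem_iff {J} g a := by
    constructor
    · intro h
      choose k hk using h
      refine ⟨a.attach.image fun z => k z.1 z.2, ?_⟩
      ext z
      simp only [Finset.mem_image, Finset.mem_attach, true_and, Subtype.exists]
      constructor
      · rintro ⟨j, ⟨w, hw, rfl⟩, rfl⟩
        rw [hk w hw]
        exact hw
      · intro hz
        exact ⟨k z hz, ⟨z, hz, rfl⟩, hk z hz⟩
    · rintro ⟨s, rfl⟩ z hz
      obtain ⟨j, -, rfl⟩ := Finset.mem_image.mp hz
      exact mem_range_self j
  meq {J Ω} _ g hg s t := by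
    have : {ω | Finset.image (fun k => g k ω) s = Finset.image (fun k => g k ω) t} =
        (⋂ i ∈ s, ⋃ j ∈ t, {ω | g j ω = g i ω}) ∩ ⋂ j ∈ t, ⋃ i ∈ s, {ω | g i ω = g j ω} := by
      ext ω
      simp only [mem_ofPred_eq, mem_inter_iff, mem_iInter, mem_iUnion]
      constructor
      · intro h
        refine ⟨fun i hi => ?_, fun j hj => ?_⟩
        · have : g i ω ∈ Finset.image (fun k => g k ω) t := by
            rw [← h]; exact Finset.mem_image_of_mem _ hi
          obtain ⟨j, hj, hji⟩ := Finset.mem_image.mp this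
          exact ⟨j, hj, hji⟩
        · have : g j ω ∈ Finset.image (fun k => g k ω) s := by
            rw [h]; exact Finset.mem_image_of_mem _ hj
          obtain ⟨i, hi, hij⟩ := Finset.mem_image.mp this
          exact ⟨i, hi, hij⟩
      · rintro ⟨h1, h2⟩
        ext z
        rw [Finset.mem_image, Finset.mem_image]
        constructor
        · rintro ⟨i, hi, rfl⟩
          obtain ⟨j, hj, hji⟩ := h1 i hi
          exact ⟨j, hj, hji⟩
        · rintro ⟨j, hj, rfl⟩
          obtain ⟨i, hi, hij⟩ := h2 j hj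
          exact ⟨i, hi, hij⟩
    rw [this]
    exact (Finset.measurableSet_biInter _ fun i _ => Finset.measurableSet_biUnion _ fun j _ =>
      measurableSet_eq_fun (hg j) (hg i)).inter
      (Finset.measurableSet_biInter _ fun j _ => Finset.measurableSet_biUnion _ fun i _ =>
      measurableSet_eq_fun (hg i) (hg j))

/-- Types of tuples with finitely many tuples. -/
class FPT (α : Type) [PT α] : Prop where
  fin : ∀ (J : Type) [Finite J], Finite (PT.Idx α J)

attribute [instance] FPT.fin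

instance : FPT ℂ where
  fin J h := h

instance {α β : Type} [PT α] [PT β] [FPT α] [FPT β] : FPT (α × β) where
  fin J _ := inferInstanceAs (Finite (PT.Idx α J × PT.Idx β J))

instance {α : Type} [PT α] [FPT α] (m : ℕ) : FPT (Fin m → α) where
  fin J _ := inferInstanceAs (Finite (Fin m → PT.Idx α J))

instance : FPT (Finset ℂ) where
  fin J _ := by
    classical
    have := Fintype.ofFinite J
    exact inferInstanceAs (Finite (Finset J))

instance : FPT Bool where
  fin _ _ := inferInstanceAs (Finite Bool)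

instance (m : ℕ) : FPT (Fin m) where
  fin _ _ := inferInstanceAs (Finite (Fin m))

instance : FPT Unit where
  fin _ _ := inferInstanceAs (Finite Unit)

section
variable {Ω : Type} [MeasurableSpace Ω] {X : Ω → Set ℂ} {R : Rep X}
variable {α β γ : Type} [PT α] [PT β] [PT γ]

/-! ### sets of points as terms -/

theorem ms_mem_finset {z : Ω → ℂ} (hz : IsT R z) {s : Ω → Finset ℂ} (hs : IsT R s) :
    MeasurableSet {ω | z ω ∈ s ω} := by
  classical
  obtain ⟨S, hS⟩ := hs
  change Finset R.J at S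
  refine ms_congr (p := fun ω => ∃ j : R.J, j ∈ S ∧ R.g j ω = z ω)
    (ms_exc fun j => ms_and (ms_const _) (measurableSet_eq_fun (R.meas j) hz.measurable))
    fun ω => ?_
  rw [hS ω]
  show z ω ∈ Finset.image (fun i => R.g i ω) S ↔ _
  rw [Finset.mem_image]

/-- The colouring given by a set of black points. -/
theorem MC_finset {s : Ω → Finset ℂ} (hs : IsT R s) : MC R fun ω z => decide (z ∈ s ω) := by
  intro j
  refine measurable_to_bool ?_
  refine ms_congr (p := fun ω => R.g j ω ∈ s ω) (ms_mem_finset (R := R) ⟨j, fun _ => rfl⟩ hs)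
    fun ω => ?_
  show decide (R.g j ω ∈ s ω) = true ↔ _
  rw [decide_eq_true_iff]

/-- Quantification over the subsets of the random set. -/
theorem ms_ex_finset (R : Rep X) {Ψ : Ω → Finset ℂ → Prop}
    (h : ∀ e : Ω → Finset ℂ, IsT R e → MeasurableSet {ω | Ψ ω (e ω)}) :
    MeasurableSet {ω | ∃ s : Finset ℂ, (∀ z ∈ s, z ∈ X ω) ∧ Ψ ω s} := ms_ex R h

theorem Rep.finite (R : Rep X) (ω : Ω) : (X ω).Finite := by
  rw [R.eq]; exact finite_range _

/-- Quantification over the subsets of the random set, as sets. -/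
theorem ms_ex_set (R : Rep X) {Ψ : Ω → Set ℂ → Prop}
    (h : ∀ e : Ω → Finset ℂ, IsT R e → MeasurableSet {ω | Ψ ω (e ω : Set ℂ)}) :
    MeasurableSet {ω | ∃ s : Set ℂ, s ⊆ X ω ∧ Ψ ω s} := by
  refine ms_congr (ms_ex_finset R (Ψ := fun ω s => Ψ ω (s : Set ℂ)) h) fun ω => ?_
  constructor
  · rintro ⟨s, hs, h1⟩
    refine ⟨((R.finite ω).subset hs).toFinset, fun z hz => hs (by simpa using hz), ?_⟩
    rwa [Set.Finite.coe_toFinset]
  · rintro ⟨s, hs, h1⟩
    exact ⟨s, hs, h1⟩

theorem ms_all_set (R : Rep X) {Ψ : Ω → Set ℂ → Prop}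
    (h : ∀ e : Ω → Finset ℂ, IsT R e → MeasurableSet {ω | Ψ ω (e ω : Set ℂ)}) :
    MeasurableSet {ω | ∀ s : Set ℂ, s ⊆ X ω → Ψ ω s} := by
  refine ms_congr (ms_not (ms_ex_set R (Ψ := fun ω s => ¬ Ψ ω s)
    fun e he => ms_not (h e he))) fun ω => ?_
  push Not
  rfl

/-! ### sums -/

theorem sum_first {I α E : Type*} [Fintype I] [AddCommMonoid E] {enc : I → ℕ}
    (henc : Function.Injective enc) (ev : I → α) (p : α → Prop) (f : α → E) [DecidablePred p]
    [DecidablePred fun i : I => ∀ i', enc i' < enc i → ev i' ≠ ev i] :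
    ∑ᶠ a ∈ {a | (∃ i, ev i = a) ∧ p a}, f a =
      ∑ i, if (∀ i', enc i' < enc i → ev i' ≠ ev i) ∧ p (ev i) then f (ev i) else 0 := by
  classical
  have hfin : {a | (∃ i, ev i = a) ∧ p a}.Finite :=
    (finite_range ev).subset fun a ha => ha.1
  rw [finsum_mem_eq_finite_toFinset_sum _ hfin, ← Finset.sum_filter]
  symm
  refine Finset.sum_bij (fun i _ => ev i) ?_ ?_ ?_ ?_
  · intro i hi
    rw [Finset.mem_filter] at hi
    rw [Set.Finite.mem_toFinset]
    exact ⟨⟨i, rfl⟩, hi.2.2⟩
  · intro i hi j hj hij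
    rw [Finset.mem_filter] at hi hj
    rcases lt_trichotomy (enc i) (enc j) with h | h | h
    · exact absurd hij (hj.2.1 i h)
    · exact henc h
    · exact absurd hij.symm (hi.2.1 j h)
  · intro a ha
    rw [Set.Finite.mem_toFinset] at ha
    obtain ⟨⟨i, hi⟩, hp⟩ := ha
    have hne : (Finset.univ.filter fun i => ev i = a).Nonempty :=
      ⟨i, Finset.mem_filter.mpr ⟨Finset.mem_univ _, hi⟩⟩
    obtain ⟨k, hk, hmin⟩ := Finset.exists_min_image _ enc hne
    rw [Finset.mem_filter] at hk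
    refine ⟨k, ?_, hk.2⟩
    rw [Finset.mem_filter]
    refine ⟨Finset.mem_univ _, fun i' hi' he => ?_, by rw [hk.2]; exact hp⟩
    have := hmin i' (Finset.mem_filter.mpr ⟨Finset.mem_univ _, he.trans hk.2⟩)
    omega
  · intro i _
    rfl

theorem exists_enc (I : Type) [Finite I] : ∃ enc : I → ℕ, Function.Injective enc :=
  ⟨_, (Countable.exists_injective_nat I).choose_spec⟩

/-- **Finite sums** over the tuples of points which satisfy a predicate. -/
theorem ms_sum [FPT α] {E : Type*} [AddCommMonoid E] [MeasurableSpace E] [MeasurableAdd₂ E]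
    (R : Rep X) {Ψ : Ω → α → Prop} {f : Ω → α → E}
    (hΨ : ∀ e : Ω → α, IsT R e → MeasurableSet {ω | Ψ ω (e ω)})
    (hf : ∀ e : Ω → α, IsT R e → Measurable fun ω => f ω (e ω)) :
    Measurable fun ω => ∑ᶠ a ∈ {a | PT.Mem (X ω) a ∧ Ψ ω a}, f ω a := by
  classical
  have : Fintype (PT.Idx α R.J) := Fintype.ofFinite _
  obtain ⟨enc, henc⟩ := exists_enc (PT.Idx α R.J)
  have key : ∀ ω, ∑ᶠ a ∈ {a | PT.Mem (X ω) a ∧ Ψ ω a}, f ω a =
      ∑ i : PT.Idx α R.J, if (∀ i', enc i' < enc i →
        PT.ev (fun k => R.g k ω) i' ≠ (PT.ev (fun k => R.g k ω) i : α)) ∧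
        Ψ ω (PT.ev (fun k => R.g k ω) i) then f ω (PT.ev (fun k => R.g k ω) i) else 0 := by
    intro ω
    rw [← sum_first henc (fun i => (PT.ev (fun k => R.g k ω) i : α)) (Ψ ω) (f ω)]
    have : {a | PT.Mem (X ω) a ∧ Ψ ω a} =
        {a | (∃ i, (PT.ev (fun k => R.g k ω) i : α) = a) ∧ Ψ ω a} := by
      ext a
      simp only [mem_ofPred_eq]
      rw [R.eq, PT.mem_iff]
    rw [this]
  simp_rw [key]
  refine Finset.measurable_sum _ fun i _ => Measurable.ite ?_ ?_ measurable_const
  · refine ms_and ?_ (hΨ _ ⟨i, fun _ => rfl⟩)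
    exact ms_allc fun i' => ms_imp (ms_const _) (ms_not (PT.meq R.g R.meas _ _))
  · exact hf _ ⟨i, fun _ => rfl⟩

theorem Rep.finite_mem [FPT α] (R : Rep X) (ω : Ω) (p : α → Prop) :
    {a : α | PT.Mem (X ω) a ∧ p a}.Finite := by
  have : {a : α | PT.Mem (X ω) a ∧ p a} ⊆ range fun j : PT.Idx α R.J =>
      (PT.ev (fun i => R.g i ω) j : α) := by
    rintro a ⟨ha, -⟩
    rw [R.eq, PT.mem_iff] at ha
    exact ha
  exact (finite_range _).subset this

/-- **Counting.** -/
theorem ms_ncard [FPT α] (R : Rep X) {Ψ : Ω → α → Prop}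
    (hΨ : ∀ e : Ω → α, IsT R e → MeasurableSet {ω | Ψ ω (e ω)}) :
    Measurable fun ω => {a | PT.Mem (X ω) a ∧ Ψ ω a}.ncard := by
  have h1 := ms_sum (E := ℕ) R hΨ (f := fun _ _ => 1) fun _ _ => measurable_const
  convert h1 using 2 with ω
  have hfin := R.finite_mem ω (Ψ ω)
  rw [finsum_mem_eq_finite_toFinset_sum _ hfin, Finset.sum_const, smul_eq_mul, mul_one,
    Set.ncard_eq_toFinset_card _ hfin]

/-- Sums in `ℝ≥0∞` over all tuples. -/
theorem ms_tsum [FPT α] (R : Rep X) {Ψ : Ω → α → Prop} {f : Ω → α → ENNReal}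
    (hΨ : ∀ e : Ω → α, IsT R e → MeasurableSet {ω | Ψ ω (e ω)})
    (hf : ∀ e : Ω → α, IsT R e → Measurable fun ω => f ω (e ω))
    {F : Ω → α → ENNReal} (hF : ∀ ω a, PT.Mem (X ω) a → Ψ ω a → F ω a = f ω a)
    (hF0 : ∀ ω a, ¬ (PT.Mem (X ω) a ∧ Ψ ω a) → F ω a = 0) :
    Measurable fun ω => ∑' a, F ω a := by
  have h1 := ms_sum R hΨ hf
  convert h1 using 2 with ω
  have hfin := R.finite_mem ω (Ψ ω)
  rw [finsum_mem_eq_finite_toFinset_sum _ hfin, tsum_eq_sum (s := hfin.toFinset)]
  · refine Finset.sum_congr rfl fun a ha => ?_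
    rw [Set.Finite.mem_toFinset] at ha
    exact hF ω a ha.1 ha.2
  · intro a ha
    rw [Set.Finite.mem_toFinset] at ha
    exact hF0 ω a ha

end

end H729
end P148
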