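import Vale.Agent.P148.R2.H729.Meas2
import Vale.Agent.P148.R2.H729.Meas3
import Vale.Agent.P148.R2.H995.Circ2
import Vale.Agent.P148.R2.H938.Hp

/-!
# P148, row MEAS, part 4: walks, crossings, circuits, quenched probabilities, local loops,
transfer to the Poisson process
-/

open MeasureTheory Set Metric Topology Filter
open scoped ENNReal NNReal

namespace P148
namespace H729

open Vale.Agent.P148.R2 Vale.Agent.P148.R2.H592 Vale.Agent.P148.R2.H184

/-! ### walks -/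

/-- Walks as reflexive transitive closures. -/
theorem walk_iff {rel : ℂ → ℂ → Prop} {W A B : ℂ → Prop} :
    (∃ (n : ℕ) (v : ℕ → ℂ), (∀ i < n, rel (v i) (v (i + 1))) ∧ (∀ i ≤ n, W (v i)) ∧
      A (v 0) ∧ B (v n)) ↔
    ∃ a, W a ∧ ∃ b, W b ∧ A a ∧ B b ∧
      Relation.ReflTransGen (fun x y => rel x y ∧ W x ∧ W y) a b := by
  constructor
  · rintro ⟨n, v, h1, h2, h3, h4⟩
    refine ⟨v 0, h2 0 (Nat.zero_le _), v n, h2 n le_rfl, h3, h4, ?_⟩
    have key : ∀ m ≤ n, Relation.ReflTransGen (fun x y => rel x y ∧ W x ∧ W y) (v 0) (v m) := by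
      intro m
      induction m with
      | zero => exact fun _ => Relation.ReflTransGen.refl
      | succ m ih =>
        intro hm
        exact (ih (by omega)).tail ⟨h1 m (by omega), h2 m (by omega), h2 (m + 1) hm⟩
    exact key n le_rfl
  · rintro ⟨a, ha, b, -, hA, hB, hr⟩
    have key : ∀ b, Relation.ReflTransGen (fun x y => rel x y ∧ W x ∧ W y) a b →
        ∃ (n : ℕ) (v : ℕ → ℂ), (∀ i < n, rel (v i) (v (i + 1))) ∧ (∀ i ≤ n, W (v i)) ∧
          v 0 = a ∧ v n = b := by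
      intro b hr
      induction hr with
      | refl => exact ⟨0, fun _ => a, fun i hi => absurd hi (by omega), fun _ _ => ha, rfl, rfl⟩
      | @tail b c _ hbc ih =>
        obtain ⟨n, v, h1, h2, h3, h4⟩ := ih
        refine ⟨n + 1, fun i => if i ≤ n then v i else c, ?_, ?_, ?_, ?_⟩
        · intro i hi
          by_cases h : i < n
          · simp only [if_pos (show i ≤ n by omega), if_pos (show i + 1 ≤ n by omega)]
            exact h1 i h
          · have : i = n := by omega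
            subst this
            simp only [le_refl, if_true, if_neg (show ¬ i + 1 ≤ i by omega)]
            rw [h4]
            exact hbc.1
        · intro i hi
          by_cases h : i ≤ n
          · simp only [if_pos h]
            exact h2 i h
          · simp only [if_neg h]
            exact hbc.2.2
        · simp only [if_pos (Nat.zero_le n)]
          exact h3
        · simp only [if_neg (show ¬ n + 1 ≤ n by omega)]
    obtain ⟨n, v, h1, h2, h3, h4⟩ := key b hr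
    exact ⟨n, v, h1, h2, h3 ▸ hA, h4 ▸ hB⟩

section
variable {Ω : Type} [MeasurableSpace Ω] {X : Ω → Set ℂ} {R : Rep X}

/-- Existence of a walk of `rel` with all points in `W ⊆ X`, from `A` to `B`. -/
theorem ms_walk (R : Rep X) {rel : Ω → ℂ → ℂ → Prop} {W A B : Ω → ℂ → Prop}
    (hr : ∀ e f : Ω → ℂ, IsT R e → IsT R f → MeasurableSet {ω | rel ω (e ω) (f ω)})
    (hW : ∀ e : Ω → ℂ, IsT R e → MeasurableSet {ω | W ω (e ω)})
    (hA : ∀ e : Ω → ℂ, IsT R e → MeasurableSet {ω | A ω (e ω)})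
    (hB : ∀ e : Ω → ℂ, IsT R e → MeasurableSet {ω | B ω (e ω)})
    (hWX : ∀ ω z, W ω z → z ∈ X ω) :
    MeasurableSet {ω | ∃ (n : ℕ) (v : ℕ → ℂ), (∀ i < n, rel ω (v i) (v (i + 1))) ∧
      (∀ i ≤ n, W ω (v i)) ∧ A ω (v 0) ∧ B ω (v n)} := by
  have h1 : MeasurableSet {ω | ∃ a ∈ X ω, ∃ b ∈ X ω, W ω a ∧ W ω b ∧ A ω a ∧ B ω b ∧
      Relation.ReflTransGen (fun x y => rel ω x y ∧ W ω x ∧ W ω y) a b} :=
    ms_ex_pt R fun a ha => ms_ex_pt R fun b hb => ms_and (hW a ha) (ms_and (hW b hb)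
      (ms_and (hA a ha) (ms_and (hB b hb) (ms_rtg R
        (Rl := fun ω x y => rel ω x y ∧ W ω x ∧ W ω y)
        (fun e f he hf => ms_and (hr e f he hf) (ms_and (hW e he) (hW f hf)))
        (fun ω _ b h => hWX ω b h.2.2) ha hb))))
  refine ms_congr h1 fun ω => ?_
  rw [walk_iff]
  constructor
  · rintro ⟨a, ha, b, hb, h⟩
    exact ⟨a, hWX _ _ ha, b, hWX _ _ hb, ha, hb, h⟩
  · rintro ⟨a, -, b, -, ha, hb, h⟩
    exact ⟨a, ha, b, hb, h⟩

/-- `H995.Chain`. -/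
theorem ms_Chain (R : Rep X) {rel : Ω → ℂ → ℂ → Prop} {W : Ω → Set ℂ}
    (hr : ∀ e f : Ω → ℂ, IsT R e → IsT R f → MeasurableSet {ω | rel ω (e ω) (f ω)})
    (hW : ∀ e : Ω → ℂ, IsT R e → MeasurableSet {ω | e ω ∈ W ω})
    (hWX : ∀ ω, W ω ⊆ X ω) {u w : Ω → ℂ} (hu : IsT R u) (hw : IsT R w) :
    MeasurableSet {ω | H995.Chain (rel ω) (W ω) (u ω) (w ω)} := by
  exact ms_walk R (W := fun ω z => z ∈ W ω) (A := fun ω z => z = u ω) (B := fun ω z => z = w ω)
    hr hW (fun e he => ms_eq he hu) (fun e he => ms_eq he hw) fun ω z h => hWX ω h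

/-- Long crossings of a turned rectangle. -/
theorem ms_TCr (R : Rep X) {W : Ω → Set ℂ}
    (hW : ∀ e : Ω → ℂ, IsT R e → MeasurableSet {ω | e ω ∈ W ω})
    (hWX : ∀ ω, W ω ⊆ X ω) (ι p : ℂ) (x0 x1 y0 y1 t : ℝ) :
    MeasurableSet {ω | H995.TCr (X ω) (W ω) ι p x0 x1 y0 y1 t} := by
  have hm : ∀ {e : Ω → ℂ}, IsT R e → Measurable fun ω => ι * (e ω - p) := fun he =>
    (he.measurable.sub_const p).const_mul ι
  refine ms_walk R (rel := fun ω => nbr (X ω))
    (W := fun ω z => z ∈ W ω ∧ ι * (z - p) ∈ H995.Rc (x0 - t) (x1 + t) y0 y1)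
    (A := fun _ z => (ι * (z - p)).re ≤ x0) (B := fun _ z => x1 ≤ (ι * (z - p)).re)
    (fun e f he hf => ms_nbr he hf)
    (fun e he => ms_and (hW e he) (hm he (H995.isClosed_Rc _ _ _ _).measurableSet))
    (fun e he => measurableSet_le (Complex.measurable_re.comp (hm he)) measurable_const)
    (fun e he => measurableSet_le measurable_const (Complex.measurable_re.comp (hm he)))
    fun ω z h => hWX ω h.1

theorem measurable_nsup : Measurable H995.nsup := by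
  unfold H995.nsup
  have h1 : Measurable fun z : ℂ => |z.re| := Complex.measurable_re.abs
  have h2 : Measurable fun z : ℂ => |z.im| := Complex.measurable_im.abs
  exact h1.max h2

/-- Circuits in square annuli (`r < ρ`). -/
theorem ms_Circ (R : Rep X) {W : Ω → Set ℂ}
    (hW : ∀ e : Ω → ℂ, IsT R e → MeasurableSet {ω | e ω ∈ W ω})
    (hWX : ∀ ω, W ω ⊆ X ω) (p : ℂ) {r ρ : ℝ} (hr : r < ρ) :
    MeasurableSet {ω | H995.Circ (X ω) (W ω) p r ρ} := by
  have hm : ∀ {e : Ω → ℂ}, IsT R e → Measurable fun ω => H995.nsup (e ω - p) := fun he =>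
    measurable_nsup.comp (he.measurable.sub_const p)
  have h1 : MeasurableSet {ω | ∃ K : Set ℂ, K ⊆ X ω ∧ (K ⊆ W ω ∧ K.Nonempty ∧
      (∀ z ∈ K, r ≤ H995.nsup (z - p) ∧ H995.nsup (z - p) ≤ ρ) ∧
      (∀ u ∈ K, ∀ w ∈ K, H995.Chain (nbr (X ω)) K u w) ∧
      ¬ ∃ a, a ∈ X ω ∧ ∃ b, b ∈ X ω ∧ H995.nsup (a - p) ≤ r ∧ ρ ≤ H995.nsup (b - p) ∧ a ∉ K ∧
        b ∉ K ∧
        Relation.ReflTransGen (fun x y => nbr (X ω) x y ∧ x ∉ K ∧ y ∉ K) a b)} := by
    refine ms_ex_set R fun K hK => ?_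
    have hKm : ∀ e : Ω → ℂ, IsT R e → MeasurableSet {ω | e ω ∈ (K ω : Set ℂ)} := fun e he =>
      ms_mem_finset he hK
    have hKX : ∀ ω, (K ω : Set ℂ) ⊆ X ω := fun ω => hK.mem ω
    refine ms_and ?_ (ms_and ?_ (ms_and ?_ (ms_and ?_ (ms_not ?_))))
    · refine ms_congr (p := fun ω => ∀ z ∈ X ω, z ∈ (K ω : Set ℂ) → z ∈ W ω)
        (ms_all_pt R fun z hz => ms_imp (hKm z hz) (hW z hz)) fun ω => ?_
      exact ⟨fun h z _ hz => h hz, fun h z hz => h z (hKX ω hz) hz⟩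
    · refine ms_congr (p := fun ω => ∃ z ∈ X ω, z ∈ (K ω : Set ℂ))
        (ms_ex_pt R fun z hz => hKm z hz) fun ω => ?_
      exact ⟨fun ⟨z, hz⟩ => ⟨z, hKX ω hz, hz⟩, fun ⟨z, _, hz⟩ => ⟨z, hz⟩⟩
    · refine ms_congr (p := fun ω => ∀ z ∈ X ω, z ∈ (K ω : Set ℂ) →
        r ≤ H995.nsup (z - p) ∧ H995.nsup (z - p) ≤ ρ)
        (ms_all_pt R fun z hz => ms_imp (hKm z hz) (ms_and
          (measurableSet_le measurable_const (hm hz))
          (measurableSet_le (hm hz) measurable_const))) fun ω => ?_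
      exact ⟨fun h z _ hz => h z hz, fun h z hz => h z (hKX ω hz) hz⟩
    · refine ms_congr (p := fun ω => ∀ u ∈ X ω, ∀ w ∈ X ω, u ∈ (K ω : Set ℂ) →
        w ∈ (K ω : Set ℂ) → H995.Chain (nbr (X ω)) (K ω) u w)
        (ms_all_pt R fun u hu => ms_all_pt R fun w hw => ms_imp (hKm u hu) (ms_imp (hKm w hw)
          (ms_Chain R (rel := fun ω => nbr (X ω)) (fun e f he hf => ms_nbr he hf) hKm hKX hu hw)))
        fun ω => ?_
      exact ⟨fun h u _ w _ hu hw => h u hu w hw,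
        fun h u hu w hw => h u (hKX ω hu) w (hKX ω hw) hu hw⟩
    · exact ms_ex_pt R fun a ha => ms_ex_pt R fun b hb => ms_and
        (measurableSet_le (hm ha) measurable_const) (ms_and
        (measurableSet_le measurable_const (hm hb)) (ms_and (ms_not (hKm a ha))
        (ms_and (ms_not (hKm b hb)) (ms_rtg R
          (Rl := fun ω x y => nbr (X ω) x y ∧ x ∉ (K ω : Set ℂ) ∧ y ∉ (K ω : Set ℂ))
          (fun e f he hf => ms_and (ms_nbr he hf) (ms_and (ms_not (hKm e he)) (ms_not (hKm f hf))))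
          (fun ω _ b h => h.1.2.1) ha hb))))
  refine ms_congr h1 fun ω => ?_
  unfold H995.Circ
  constructor
  · rintro ⟨K, h1, -, h3, h4, h5, h6⟩
    refine ⟨K, h1.trans (hWX ω), h1, h3, h4, h5, ?_⟩
    rintro ⟨a, -, b, -, ha, hb, hKa, hKb, hab⟩
    obtain ⟨n, v, g1, g2, g3, g4⟩ := (walk_iff (rel := nbr (X ω)) (W := fun z => z ∉ K)
      (A := fun z => z = a) (B := fun z => z = b)).mpr ⟨a, hKa, b, hKb, rfl, rfl, hab⟩
    obtain ⟨i, hi, hi'⟩ := h6 n v g1 (by rw [g3]; exact ha) (by rw [g4]; exact hb)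
    exact g2 i hi hi'
  · rintro ⟨K, h0, h1, h3, h4, h5, h6⟩
    refine ⟨K, h1, (R.finite ω).subset h0, h3, h4, h5, ?_⟩
    intro m w g1 g2 g3
    by_contra hcon
    push Not at hcon
    apply h6
    obtain ⟨a, ha, b, hb, e1, e2, hab⟩ := (walk_iff (rel := nbr (X ω)) (W := fun z => z ∉ K)
      (A := fun z => z = w 0) (B := fun z => z = w m)).mp ⟨m, w, g1, hcon, rfl, rfl⟩
    have hm0 : m ≠ 0 := by
      rintro rfl
      linarith
    refine ⟨a, ?_, b, ?_, by rw [e1]; exact g2, by rw [e2]; exact g3, ha, hb, hab⟩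
    · rw [e1]
      exact (g1 0 (by omega)).1
    · rw [e2]
      have := (g1 (m - 1) (by omega)).2.1
      rwa [Nat.sub_add_cancel (by omega)] at this

/-! ### quenched probabilities -/

/-- **Quenched probabilities** `H938.cp` of definable events of the black points. -/
theorem ms_cp (R : Rep X) {N : Ω → Set ℂ}
    (hN : ∀ e : Ω → ℂ, IsT R e → MeasurableSet {ω | e ω ∈ N ω}) (hNX : ∀ ω, N ω ⊆ X ω)
    {Q : Ω → Set ℂ → Prop}
    (hQ : ∀ s : Ω → Finset ℂ, IsT R s → MeasurableSet {ω | Q ω (s ω : Set ℂ)}) :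
    Measurable fun ω => H938.cp (N ω) (Q ω) := by
  have hsub : ∀ s : Ω → Finset ℂ, IsT R s → MeasurableSet {ω | (s ω : Set ℂ) ⊆ N ω} := by
    intro s hs
    refine ms_congr (p := fun ω => ∀ z ∈ X ω, z ∈ s ω → z ∈ N ω)
      (ms_all_pt R fun z hz => ms_imp (ms_mem_finset hz hs) (hN z hz)) fun ω => ?_
    exact ⟨fun h z _ hz => h hz, fun h z hz => h z (hs.mem ω z hz) hz⟩
  have h1 : Measurable fun ω => {s : Finset ℂ | PT.Mem (X ω) s ∧ ((s : Set ℂ) ⊆ N ω ∧
      Q ω (s : Set ℂ))}.ncard :=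
    ms_ncard R (Ψ := fun ω (s : Finset ℂ) => (s : Set ℂ) ⊆ N ω ∧ Q ω (s : Set ℂ))
      fun s hs => ms_and (hsub s hs) (hQ s hs)
  have h2 : Measurable fun ω => {z : ℂ | PT.Mem (X ω) z ∧ z ∈ N ω}.ncard :=
    ms_ncard R (Ψ := fun ω z => z ∈ N ω) hN
  have e1 : ∀ ω, {W | W ⊆ N ω ∧ Q ω W}.ncard = {s : Finset ℂ | PT.Mem (X ω) s ∧
      ((s : Set ℂ) ⊆ N ω ∧ Q ω (s : Set ℂ))}.ncard := by
    intro ω
    have : {W | W ⊆ N ω ∧ Q ω W} = (fun s : Finset ℂ => (s : Set ℂ)) '' {s : Finset ℂ |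
        PT.Mem (X ω) s ∧ ((s : Set ℂ) ⊆ N ω ∧ Q ω (s : Set ℂ))} := by
      ext W
      constructor
      · rintro ⟨h3, h4⟩
        have hf := (R.finite ω).subset (h3.trans (hNX ω))
        refine ⟨hf.toFinset, ⟨fun z hz => hNX ω (h3 (by simpa using hz)), ?_, ?_⟩, ?_⟩
        · rw [Set.Finite.coe_toFinset]; exact h3
        · rw [Set.Finite.coe_toFinset]; exact h4
        · exact Set.Finite.coe_toFinset _
      · rintro ⟨s, ⟨-, h3, h4⟩, rfl⟩
        exact ⟨h3, h4⟩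
    rw [this, Set.ncard_image_of_injective _ Finset.coe_injective]
  have e2 : ∀ ω, (N ω).ncard = {z : ℂ | PT.Mem (X ω) z ∧ z ∈ N ω}.ncard := by
    intro ω
    congr 1
    ext z
    exact ⟨fun h => ⟨hNX ω h, h⟩, fun h => h.2⟩
  unfold H938.cp
  simp_rw [e1, e2]
  have m1 : Measurable fun ω => ({s : Finset ℂ | PT.Mem (X ω) s ∧ ((s : Set ℂ) ⊆ N ω ∧
      Q ω (s : Set ℂ))}.ncard : ℝ) := (measurable_from_nat (f := fun n : ℕ => (n : ℝ))).comp h1
  have m2 : Measurable fun ω => (2 : ℝ) ^ {z : ℂ | PT.Mem (X ω) z ∧ z ∈ N ω}.ncard :=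
    (measurable_from_nat (f := fun n : ℕ => (2 : ℝ) ^ n)).comp h2
  exact m1.div m2

end

end H729
end P148
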