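import Vale.Agent.P148.R2.H729.Meas2
import Vale.Agent.P148.R2.H729.Meas3
import Vale.Agent.P148.R2.H565.Loc9

/-!
# P148, row MEAS, part 5: values of strand pieces
-/

open MeasureTheory Set Metric Topology Filter
open scoped ENNReal NNReal

namespace P148
namespace H729

open Vale.Agent.P148.R2 Vale.Agent.P148.R2.H592 Vale.Agent.P148.R2.H184 Vale.Agent.P148.R2.H565

section
variable {Ω : Type} [MeasurableSpace Ω] {X : Ω → Set ℂ} {R : Rep X}

theorem ms_Three (R : Rep X) : MeasurableSet {ω | Three (X ω)} := by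
  have h1 : MeasurableSet {ω | ∀ a ∈ X ω, ∀ b ∈ X ω, ∀ c ∈ X ω, ∀ d ∈ X ω,
      (∃ z, ∀ i : Fin 4, z ∈ vcell (X ω) (![a, b, c, d] i)) → a ≠ b → b ≠ c → c ≠ a →
      (d = a ∨ d = b ∨ d = c)} := by
    refine ms_all_pt R fun a ha => ms_all_pt R fun b hb => ms_all_pt R fun c hc =>
      ms_all_pt R fun d hd => ms_imp ?_ (ms_imp (ms_ne ha hb) (ms_imp (ms_ne hb hc)
        (ms_imp (ms_ne hc ha) (ms_or (ms_eq hd ha) (ms_or (ms_eq hd hb) (ms_eq hd hc))))))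
    refine ms_congr (ms_proj_univ R (v := ![a, b, c, d]) fun i => ?_) fun ω => ?_
    · fin_cases i
      · exact ha
      · exact hb
      · exact hc
      · exact hd
    · refine exists_congr fun z => ?_
      constructor
      · intro h i
        have := h i
        fin_cases i <;> exact this
      · intro h i
        have := h i
        fin_cases i <;> exact this
  refine ms_congr h1 fun ω => ?_
  unfold Three
  constructor
  · intro h a ha b hb c hc d hd hz h1 h2 h3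
    obtain ⟨z, hz⟩ := hz
    exact h z a b c d ha hb hc hd (hz 0) (hz 1) (hz 2) (hz 3) h1 h2 h3
  · intro h z a b c d ha hb hc hd h1 h2 h3 h4
    refine h a ha b hb c hc d hd ⟨z, fun i => ?_⟩
    fin_cases i
    · exact h1
    · exact h2
    · exact h3
    · exact h4

/-- Colourings given by definable sets of black points. -/
theorem MC_set {W : Ω → Set ℂ} (hW : ∀ e : Ω → ℂ, IsT R e → MeasurableSet {ω | e ω ∈ W ω})
    {c : Ω → ℂ → Bool} (hc : ∀ ω, ∀ z ∈ X ω, c ω z = true ↔ z ∈ W ω) : MC R c := by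
  intro j
  refine measurable_to_bool ?_
  refine ms_congr (p := fun ω => R.g j ω ∈ W ω) (hW _ ⟨j, fun _ => rfl⟩) fun ω => ?_
  show c ω (R.g j ω) = true ↔ _
  exact hc ω _ (by rw [R.eq]; exact mem_range_self j)

/-! ### pieces as finite sequences of darts -/

/-- Finite form of `H565.PP`: the first `n` darts. -/
structure PF (X Q : Set ℂ) (c : ℂ → Bool) (a b : ℂ × ℂ) (n : ℕ) (g : Fin n → Dt) : Prop where
  pos : 0 < n
  lf : ∀ i, LF X Q (g i)
  nx : ∀ i j : Fin n, (i : ℕ) + 1 = j → Nx c (g i) (g j)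
  nxl : ∀ i : Fin n, (i : ℕ) + 1 = n → Nx c (g i) (b.1, b.2, b.1)
  fst : ∀ i : Fin n, (i : ℕ) = 0 → ed (g i) = a
  min : ∀ i : Fin n, 0 < (i : ℕ) → ed (g i) ≠ b

/-- The extension of a finite sequence by the edge `b`. -/
def extF (b : ℂ × ℂ) {n : ℕ} (g : Fin n → Dt) (i : ℕ) : Dt :=
  if h : i < n then g ⟨i, h⟩ else (b.1, b.2, b.1)

theorem extF_lt (b : ℂ × ℂ) {n : ℕ} (g : Fin n → Dt) {i : ℕ} (h : i < n) :
    extF b g i = g ⟨i, h⟩ := dif_pos h

theorem extF_ge (b : ℂ × ℂ) {n : ℕ} (g : Fin n → Dt) {i : ℕ} (h : ¬ i < n) :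
    extF b g i = (b.1, b.2, b.1) := dif_neg h

theorem Nx_edge {c : ℂ → Bool} {d d' d'' : Dt} (h : ed d' = ed d'') : Nx c d d' ↔ Nx c d d'' := by
  have h1 : d'.1 = d''.1 := congrArg (fun p : ℂ × ℂ => p.1) h
  have h2 : d'.2.1 = d''.2.1 := congrArg (fun p : ℂ × ℂ => p.2) h
  unfold Nx
  rw [h1, h2]

theorem PF.pp {X Q : Set ℂ} {c : ℂ → Bool} {a b : ℂ × ℂ} {n : ℕ} {g : Fin n → Dt}
    (h : PF X Q c a b n g) : PP X Q c a b n (extF b g) where
  pos := h.pos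
  sg := by
    refine ⟨fun i hi => ?_, fun i hi => ?_⟩
    · rw [extF_lt b g hi]; exact h.lf _
    · rw [extF_lt b g hi]
      by_cases h1 : i + 1 < n
      · rw [extF_lt b g h1]; exact h.nx ⟨i, hi⟩ ⟨i + 1, h1⟩ rfl
      · rw [extF_ge b g h1]; exact h.nxl ⟨i, hi⟩ (by simp only; omega)
  fst := by rw [extF_lt b g h.pos]; exact h.fst _ rfl
  lst := by rw [extF_ge b g (lt_irrefl n)]; rfl
  min := fun i h0 hi => by rw [extF_lt b g hi]; exact h.min ⟨i, hi⟩ h0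

theorem PP.pf {X Q : Set ℂ} {c : ℂ → Bool} {a b : ℂ × ℂ} {n : ℕ} {f : ℕ → Dt}
    (h : PP X Q c a b n f) : PF X Q c a b n fun i => f i where
  pos := h.pos
  lf i := h.sg.lf i i.2
  nx i j hij := by
    have := h.sg.nx i i.2
    rwa [hij] at this
  nxl i hi := by
    have := h.sg.nx i i.2
    rw [hi] at this
    exact (Nx_edge (show ed (b.1, b.2, b.1) = ed (f n) from h.lst.symm)).2 this
  fst i hi := by
    show ed (f i) = a
    rw [hi]; exact h.fst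
  min i hi := h.min i hi i.2

/-- The value of a finite piece. -/
noncomputable def valF (c : ℂ → Bool) (b : ℂ × ℂ) {n : ℕ} (g : Fin n → Dt) (Θ : Dt → ℂ) : ℂ :=
  segQ c n (extF b g) Θ

theorem PF.pv_eq {X Q : Set ℂ} {c : ℂ → Bool} {a b : ℂ × ℂ} {n : ℕ} {g : Fin n → Dt}
    (h3 : Three X) (h : PF X Q c a b n g) (Θ : Dt → ℂ) : PV X Q c a b Θ = valF c b g Θ :=
  PV_eq h3 h.pp Θ

theorem pv_zero {X Q : Set ℂ} {c : ℂ → Bool} {a b : ℂ × ℂ}
    (h : ¬ ∃ (n : ℕ) (g : Fin n → Dt), PF X Q c a b n g) (Θ : Dt → ℂ) :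
    PV X Q c a b Θ = 0 := by
  unfold PV
  rw [dif_neg]
  rintro ⟨⟨n, f⟩, hf⟩
  exact h ⟨n, _, PP.pf hf⟩

theorem ms_ed {a : Ω → ℂ × ℂ} (ha : IsT R a) {d : Ω → Dt} (hd : IsT R d) :
    MeasurableSet {ω | ed (d ω) = a ω} := by
  have h1 : IsT R fun ω => ed (d ω) := hd.fst.prodMk hd.snd.fst
  exact ms_eq h1 ha

theorem ms_PF {Q : Set ℂ} (hQ : IsOpen Q) {c : Ω → ℂ → Bool} (hc : MC R c) {a b : Ω → ℂ × ℂ}
    (ha : IsT R a) (hb : IsT R b) {n : ℕ} {g : Ω → Fin n → Dt} (hg : IsT R g) :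
    MeasurableSet {ω | PF (X ω) Q (c ω) (a ω) (b ω) n (g ω)} := by
  have e : ∀ i, IsT R fun ω => g ω i := fun i => hg.app i
  refine ms_congr (p := fun ω => 0 < n ∧ (∀ i, LF (X ω) Q (g ω i)) ∧
    (∀ i j : Fin n, (i : ℕ) + 1 = j → Nx (c ω) (g ω i) (g ω j)) ∧
    (∀ i : Fin n, (i : ℕ) + 1 = n → Nx (c ω) (g ω i) ((b ω).1, (b ω).2, (b ω).1)) ∧
    (∀ i : Fin n, (i : ℕ) = 0 → ed (g ω i) = a ω) ∧
    (∀ i : Fin n, 0 < (i : ℕ) → ed (g ω i) ≠ b ω)) ?_ fun ω => ?_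
  · refine ms_and (ms_const _) (ms_and (ms_allc fun i => ms_LF hQ (e i)) (ms_and
      (ms_allc fun i => ms_allc fun j => ms_imp (ms_const _) (ms_Nx hc (e i) (e j))) (ms_and
      (ms_allc fun i => ms_imp (ms_const _) (ms_Nx hc (e i)
        (hb.fst.prodMk (hb.snd.prodMk hb.fst)))) (ms_and
      (ms_allc fun i => ms_imp (ms_const _) (ms_ed ha (e i)))
      (ms_allc fun i => ms_imp (ms_const _) (ms_not (ms_ed hb (e i))))))))
  · exact ⟨fun h => ⟨h.pos, h.lf, h.nx, h.nxl, h.fst, h.min⟩,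
      fun h => ⟨h.1, h.2.1, h.2.2.1, h.2.2.2.1, h.2.2.2.2.1, h.2.2.2.2.2⟩⟩

theorem IsT.extF {b : Ω → ℂ × ℂ} (hb : IsT R b) {n : ℕ} {g : Ω → Fin n → Dt} (hg : IsT R g)
    (i : ℕ) : IsT R fun ω => extF (b ω) (g ω) i := by
  by_cases h : i < n
  · have := hg.app ⟨i, h⟩
    simpa only [extF_lt _ _ h] using this
  · have := hb.fst.prodMk (hb.snd.prodMk hb.fst)
    simpa only [extF_ge _ _ h] using this

theorem ms_DisQ {f : Ω → ℕ → Dt} (hf : ∀ i, IsT R fun ω => f ω i) (n i : ℕ) :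
    MeasurableSet {ω | DisQ n (f ω) i} :=
  ms_allc fun _ => ms_allc fun _ => ms_imp (ms_const _) (ms_imp (ms_const _)
    (ms_imp (ms_const _) (ms_not (ms_eq (hf _).fst (hf _).fst))))

theorem ms_segQ {c : Ω → ℂ → Bool} (hc : MC R c) {f : Ω → ℕ → Dt}
    (hf : ∀ i, IsT R fun ω => f ω i) (n : ℕ) {Θ : Ω → Dt → ℂ}
    (hΘ : ∀ d : Ω → Dt, IsT R d → Measurable fun ω => Θ ω (d ω)) :
    Measurable fun ω => segQ (c ω) n (f ω) (Θ ω) := by
  classical
  unfold segQ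
  refine Finset.measurable_sum _ fun i _ => Measurable.ite ?_ (hΘ _ (hf i)) measurable_const
  exact ms_and (ms_Mn hc (hf i)) (ms_DisQ hf n i)

/-- **The value of a strand piece is measurable** (in generic position). -/
theorem ms_PV (R : Rep X) {Q : Set ℂ} (hQ : IsOpen Q) {c : Ω → ℂ → Bool} (hc : MC R c)
    {a b : Ω → ℂ × ℂ} (ha : IsT R a) (hb : IsT R b) {Θ : Ω → Dt → ℂ}
    (hΘ : ∀ d : Ω → Dt, IsT R d → Measurable fun ω => Θ ω (d ω)) :
    Measurable fun ω => open Classical in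
      if Three (X ω) then PV (X ω) Q (c ω) (a ω) (b ω) (Θ ω) else 0 := by
  classical
  -- the value for pieces of length `n`
  let G : ℕ → Ω → ℂ := fun n ω =>
    ∑ᶠ g ∈ {g : Fin n → Dt | PT.Mem (X ω) g ∧ PF (X ω) Q (c ω) (a ω) (b ω) n g},
      valF (c ω) (b ω) g (Θ ω)
  have hG : ∀ n, Measurable (G n) := fun n =>
    ms_sum R (Ψ := fun ω g => PF (X ω) Q (c ω) (a ω) (b ω) n g)
      (f := fun ω g => valF (c ω) (b ω) g (Θ ω)) (fun g hg => ms_PF hQ hc ha hb hg)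
      fun g hg => ms_segQ (f := fun ω => extF (b ω) (g ω)) hc (fun i => hb.extF hg i) n hΘ
  have hA : ∀ n, MeasurableSet {ω | ∃ g : Fin n → Dt, PT.Mem (X ω) g ∧
      PF (X ω) Q (c ω) (a ω) (b ω) n g} := fun n =>
    ms_ex R (Ψ := fun ω g => PF (X ω) Q (c ω) (a ω) (b ω) n g)
      fun g hg => ms_PF hQ hc ha hb hg
  have hmem : ∀ ω n (g : Fin n → Dt), PF (X ω) Q (c ω) (a ω) (b ω) n g → PT.Mem (X ω) g :=
    fun ω n g h i => (h.lf i).1
  have hval : ∀ ω, Three (X ω) → ∀ n (g : Fin n → Dt), PF (X ω) Q (c ω) (a ω) (b ω) n g →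
      PV (X ω) Q (c ω) (a ω) (b ω) (Θ ω) = G n ω := by
    intro ω h3 n g hg
    have huniq : ∀ g' : Fin n → Dt, PF (X ω) Q (c ω) (a ω) (b ω) n g' → g' = g := by
      intro g' hg'
      obtain ⟨-, h2, -⟩ := hg'.pp.det h3 hg.pp
      funext i
      have := h2 i i.2
      rwa [extF_lt _ _ i.2, extF_lt _ _ i.2] at this
    have hset : {g : Fin n → Dt | PT.Mem (X ω) g ∧ PF (X ω) Q (c ω) (a ω) (b ω) n g} = {g} := by
      ext g'
      simp only [mem_ofPred_eq, mem_singleton_iff]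
      exact ⟨fun h => huniq g' h.2, fun h => h ▸ ⟨hmem ω n g hg, hg⟩⟩
    show _ = ∑ᶠ g ∈ {g : Fin n → Dt | PT.Mem (X ω) g ∧ PF (X ω) Q (c ω) (a ω) (b ω) n g}, _
    rw [hset, finsum_mem_singleton]
    exact hg.pv_eq h3 (Θ ω)
  intro B hB
  have key : (fun ω => if Three (X ω) then PV (X ω) Q (c ω) (a ω) (b ω) (Θ ω) else 0) ⁻¹' B =
      {ω | (Three (X ω) ∧ ∃ n, (∃ g : Fin n → Dt, PT.Mem (X ω) g ∧
        PF (X ω) Q (c ω) (a ω) (b ω) n g) ∧ G n ω ∈ B) ∨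
        ((¬ (Three (X ω) ∧ ∃ n, ∃ g : Fin n → Dt, PT.Mem (X ω) g ∧
        PF (X ω) Q (c ω) (a ω) (b ω) n g)) ∧ (0 : ℂ) ∈ B)} := by
    ext ω
    simp only [mem_preimage, mem_ofPred_eq]
    by_cases h3 : Three (X ω)
    · rw [if_pos h3]
      by_cases hex : ∃ n, ∃ g : Fin n → Dt, PT.Mem (X ω) g ∧ PF (X ω) Q (c ω) (a ω) (b ω) n g
      · obtain ⟨n, g, hm, hg⟩ := hex
        constructor
        · intro h
          left
          exact ⟨h3, n, ⟨g, hm, hg⟩, by rwa [← hval ω h3 n g hg]⟩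
        · rintro (⟨-, n', ⟨g', -, hg'⟩, h⟩ | ⟨h, -⟩)
          · rwa [hval ω h3 n' g' hg']
          · exact absurd ⟨h3, n, g, hm, hg⟩ h
      · have h0 : PV (X ω) Q (c ω) (a ω) (b ω) (Θ ω) = 0 :=
          pv_zero (fun ⟨n, g, hg⟩ => hex ⟨n, g, hmem ω n g hg, hg⟩) _
        rw [h0]
        constructor
        · intro h
          exact Or.inr ⟨fun h' => hex h'.2, h⟩
        · rintro (⟨-, n', ⟨g', hm', hg'⟩, -⟩ | ⟨-, h⟩)
          · exact absurd ⟨n', g', hm', hg'⟩ hex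
          · exact h
    · rw [if_neg h3]
      constructor
      · intro h
        exact Or.inr ⟨fun h' => h3 h'.1, h⟩
      · rintro (⟨h', -⟩ | ⟨-, h⟩)
        · exact absurd h' h3
        · exact h
  rw [key]
  exact ms_or (ms_and (ms_Three R) (ms_exc fun n => ms_and (hA n) (hG n hB)))
    (ms_and (ms_not (ms_and (ms_Three R) (ms_exc fun n => hA n))) (ms_const _))

end

end H729
end P148
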