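import Vale.Agent.P148.R2.H729.Meas4
import Vale.Agent.P148.R2.H729.Meas5
import Vale.Agent.P148.R2.H678.CombDef

/-!
# P148, row MEAS, part 6: the comb gates of `H678.CombDef`
-/

open MeasureTheory Set Metric Topology Filter
open scoped ENNReal NNReal

namespace P148
namespace H729

open Vale.Agent.P148.R2 Vale.Agent.P148.R2.H592 Vale.Agent.P148.R2.H184

section
variable {Ω : Type} [MeasurableSpace Ω] {X : Ω → Set ℂ} {R : Rep X}

/-- Random sets with measurable membership. -/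
def MS (R : Rep X) (W : Ω → Set ℂ) : Prop :=
  ∀ e : Ω → ℂ, IsT R e → MeasurableSet {ω | e ω ∈ W ω}

theorem MS.borel {B : Set ℂ} (hB : MeasurableSet B) : MS R fun _ => B := fun _ he => ms_borel he hB

theorem MS.self : MS R X := fun _ he => ms_mem he

theorem MS.inter {W W' : Ω → Set ℂ} (h : MS R W) (h' : MS R W') : MS R fun ω => W ω ∩ W' ω :=
  fun e he => ms_and (h e he) (h' e he)

theorem MS.union {W W' : Ω → Set ℂ} (h : MS R W) (h' : MS R W') : MS R fun ω => W ω ∪ W' ω :=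
  fun e he => ms_or (h e he) (h' e he)

theorem MS.diff {W W' : Ω → Set ℂ} (h : MS R W) (h' : MS R W') : MS R fun ω => W ω \ W' ω :=
  fun e he => ms_and (h e he) (ms_not (h' e he))

theorem MS.compl {W : Ω → Set ℂ} (h : MS R W) : MS R fun ω => (W ω)ᶜ :=
  fun e he => ms_not (h e he)

theorem MS.finset {s : Ω → Finset ℂ} (hs : IsT R s) : MS R fun ω => (s ω : Set ℂ) :=
  fun _ he => ms_mem_finset he hs

theorem MS.iUnion {ι : Sort*} [Countable ι] {W : ι → Ω → Set ℂ} (h : ∀ i, MS R (W i)) :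
    MS R fun ω => ⋃ i, W i ω := fun e he => by
  refine ms_congr (ms_exc fun i => h i e he) fun ω => ?_
  exact mem_iUnion

theorem MS.of_set {p : Ω → ℂ → Prop} (h : ∀ e : Ω → ℂ, IsT R e → MeasurableSet {ω | p ω (e ω)}) :
    MS R fun ω => {z | p ω z} := h

/-- Inclusion. -/
theorem MS.subset {W W' : Ω → Set ℂ} (h : MS R W) (h' : MS R W') (hWX : ∀ ω, W ω ⊆ X ω) :
    MeasurableSet {ω | W ω ⊆ W' ω} := by
  refine ms_congr (p := fun ω => ∀ z ∈ X ω, z ∈ W ω → z ∈ W' ω)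
    (ms_all_pt R fun z hz => ms_imp (h z hz) (h' z hz)) fun ω => ?_
  exact ⟨fun g z _ hz => g hz, fun g z hz => g z (hWX ω hz) hz⟩

theorem MS.disjoint {W W' : Ω → Set ℂ} (h : MS R W) (h' : MS R W') (hWX : ∀ ω, W ω ⊆ X ω) :
    MeasurableSet {ω | Disjoint (W ω) (W' ω)} := by
  refine ms_congr (h.subset h'.compl hWX) fun ω => ?_
  exact Set.subset_compl_iff_disjoint_right.symm

/-- The colouring given by a random set of black points. -/
theorem MS.MC {W : Ω → Set ℂ} (h : MS R W) {c : Ω → ℂ → Bool}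
    (hc : ∀ ω, ∀ z ∈ X ω, c ω z = true ↔ z ∈ W ω) : MC R c := MC_set h hc

/-! ### cores, hubs, rims -/

theorem MS.core {S C : Ω → Set ℂ} (hS : MS R S) (hC : MS R C) (hSX : ∀ ω, S ω ⊆ X ω) :
    MS R fun ω => H678.core (nbr (X ω)) (S ω) (C ω) := fun e he => by
  have h1 : MeasurableSet {ω | ∃ s ∈ X ω, s ∈ S ω ∧
      Relation.ReflTransGen (fun a b => nbr (X ω) a b ∧ b ∈ C ω) s (e ω)} :=
    ms_ex_pt R fun s hs => ms_and (hS s hs) (ms_rtg R
      (Rl := fun ω a b => nbr (X ω) a b ∧ b ∈ C ω)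
      (fun a b ha hb => ms_and (ms_nbr ha hb) (hC b hb)) (fun _ _ _ h => h.1.2.1) hs he)
  refine ms_congr h1 fun ω => ?_
  constructor
  · rintro ⟨s, hs, h⟩
    exact ⟨s, hSX ω hs, hs, h⟩
  · rintro ⟨s, -, hs, h⟩
    exact ⟨s, hs, h⟩

theorem core_subset {Y S C : Set ℂ} (hS : S ⊆ Y) : H678.core (nbr Y) S C ⊆ Y := by
  rintro v ⟨s, hs, hr⟩
  induction hr with
  | refl => exact hS hs
  | tail _ h _ => exact h.1.2.1

theorem hub_subset {Y S C : Set ℂ} (hS : S ⊆ Y) : H678.hub (nbr Y) S C ⊆ Y := by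
  rintro v (hv | ⟨u, -, hv⟩)
  · exact core_subset hS hv
  · exact hv.2.1

theorem rim_subset {Y S C : Set ℂ} (hS : S ⊆ Y) : H678.rim (nbr Y) S C ⊆ Y :=
  fun _ hv => hub_subset hS hv.1

theorem MS.hub {S C : Ω → Set ℂ} (hS : MS R S) (hC : MS R C) (hSX : ∀ ω, S ω ⊆ X ω) :
    MS R fun ω => H678.hub (nbr (X ω)) (S ω) (C ω) := fun e he => by
  have hcore := MS.core hS hC hSX
  refine ms_congr (p := fun ω => e ω ∈ H678.core (nbr (X ω)) (S ω) (C ω) ∨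
    ∃ u ∈ X ω, u ∈ H678.core (nbr (X ω)) (S ω) (C ω) ∧ nbr (X ω) u (e ω))
    (ms_or (hcore e he) (ms_ex_pt R fun u hu => ms_and (hcore u hu) (ms_nbr hu he))) fun ω => ?_
  constructor
  · rintro (h | ⟨u, hu, h⟩)
    · exact Or.inl h
    · exact Or.inr ⟨u, core_subset (hSX ω) hu, hu, h⟩
  · rintro (h | ⟨u, -, hu, h⟩)
    · exact Or.inl h
    · exact Or.inr ⟨u, hu, h⟩

theorem MS.rim {S C : Ω → Set ℂ} (hS : MS R S) (hC : MS R C) (hSX : ∀ ω, S ω ⊆ X ω) :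
    MS R fun ω => H678.rim (nbr (X ω)) (S ω) (C ω) :=
  (MS.hub hS hC hSX).diff (MS.core hS hC hSX)

theorem MS.seed (z : ℂ) (r : ℝ) : MS R fun ω => X ω ∩ ball z r :=
  MS.self.inter (MS.borel measurableSet_ball)

theorem MS.inHub (M : ℕ) {W : Ω → Set ℂ} (hW : MS R W) (k : ℕ) :
    MS R fun ω => H678.inHub M (X ω) (W ω) k :=
  MS.hub (MS.seed _ _) hW fun _ => inter_subset_left

theorem MS.outHub (M : ℕ) {W : Ω → Set ℂ} (hW : MS R W) (k : ℕ) :
    MS R fun ω => H678.outHub M (X ω) (W ω) k :=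
  MS.hub (MS.seed _ _) hW fun _ => inter_subset_left

theorem MS.inRim (M : ℕ) {W : Ω → Set ℂ} (hW : MS R W) (k : ℕ) :
    MS R fun ω => H678.inRim M (X ω) (W ω) k :=
  MS.rim (MS.seed _ _) hW fun _ => inter_subset_left

theorem MS.outRim (M : ℕ) {W : Ω → Set ℂ} (hW : MS R W) (k : ℕ) :
    MS R fun ω => H678.outRim M (X ω) (W ω) k :=
  MS.rim (MS.seed _ _) hW fun _ => inter_subset_left

theorem MS.Ex (M : ℕ) {W W' : Ω → Set ℂ} (hW : MS R W) (hW' : MS R W') :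
    MS R fun ω => H678.Ex M (X ω) (W ω) (W' ω) :=
  MS.iUnion fun k => (MS.inHub M hW' k).union (MS.outHub M hW k)

theorem MS.mix {E W W' : Ω → Set ℂ} (hE : MS R E) (hW : MS R W) (hW' : MS R W') :
    MS R fun ω => H678.mix (E ω) (W ω) (W' ω) :=
  (hW.inter hE).union (hW'.diff hE)

theorem measurableSet_hbox (M : ℕ) (z : ℂ) : MeasurableSet (H678.hbox M z) := by
  have h1 : Measurable fun w : ℂ => H995.nsup (w - z) := measurable_nsup.comp (measurable_sub_const z)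
  exact h1 measurableSet_Iic

/-! ### events -/

theorem ms_CCr (R : Rep X) {W : Ω → Set ℂ} (hW : MS R W) (hWX : ∀ ω, W ω ⊆ X ω) (M : ℕ)
    (z z' : ℂ) : MeasurableSet {ω | H678.CCr M (X ω) (W ω) z z'} :=
  ms_TCr R hW hWX _ _ _ _ _ _ _

theorem ms_InGood (M : ℕ) {W : Ω → Set ℂ} (hW : MS R W) (k : ℕ) :
    MeasurableSet {ω | H678.InGood M (X ω) (W ω) k} :=
  (MS.inHub M hW k).subset (MS.borel (measurableSet_hbox _ _))
    fun _ => hub_subset inter_subset_left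

theorem ms_OutGood (M : ℕ) {W : Ω → Set ℂ} (hW : MS R W) (k : ℕ) :
    MeasurableSet {ω | H678.OutGood M (X ω) (W ω) k} :=
  (MS.outHub M hW k).subset (MS.borel (measurableSet_hbox _ _))
    fun _ => hub_subset inter_subset_left

theorem ms_Tooth (M : ℕ) {W : Ω → Set ℂ} (hW : MS R W) (hWX : ∀ ω, W ω ⊆ X ω) (k : ℕ) :
    MeasurableSet {ω | H678.Tooth M (X ω) (W ω) k} := ms_CCr R hW hWX _ _ _

theorem ms_Rails (M : ℕ) {W W' : Ω → Set ℂ} (hW : MS R W) (hWX : ∀ ω, W ω ⊆ X ω)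
    (hW' : MS R W') (hWX' : ∀ ω, W' ω ⊆ X ω) (k : ℕ) :
    MeasurableSet {ω | H678.Rails M (X ω) (W ω) (W' ω) k} :=
  ms_and (ms_CCr R hW hWX _ _ _) (ms_CCr R hW' hWX' _ _ _)

theorem ms_GateEv (M : ℕ) {B₁ W₁ W₂ : Ω → Set ℂ} (hB₁ : MS R B₁) (hW₁ : MS R W₁)
    (hW₂ : MS R W₂) (hWX : ∀ ω, W₂ ω ⊆ X ω) (k : ℕ) :
    MeasurableSet {ω | H678.GateEv M (X ω) (B₁ ω) (W₁ ω) (W₂ ω) k} :=
  ms_and (ms_InGood M hW₁ k) (ms_and (ms_OutGood M hB₁ k) (ms_Tooth M hW₂ hWX k))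

end

end H729
end P148
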