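import Vale.Agent.P148.R2.H729.Meas6
import Vale.Agent.P148.R2.H565.Vk

/-!
# P148, row MEAS, part 7: restriction of a random set to a window, feet, the value of a cell
-/

open MeasureTheory Set Metric Topology Filter
open scoped ENNReal NNReal

namespace P148
namespace H729

open Vale.Agent.P148.R2 Vale.Agent.P148.R2.H592 Vale.Agent.P148.R2.H184 Vale.Agent.P148.R2.H565
open Vale.Agent.P148.R2.N (ms nc gateC cellC gbox csq)

/-! ### restriction to a random subset -/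

section restrict

variable {Ω : Type} [MeasurableSpace Ω] {X : Ω → Set ℂ}

/-- The event that the enumerated points in `W` are those of the indices in `A`. -/
def acts (R : Rep X) (W : Ω → Set ℂ) (A : Set R.J) : Set Ω := {ω | ∀ j, R.g j ω ∈ W ω ↔ j ∈ A}

theorem measurableSet_acts (R : Rep X) {W : Ω → Set ℂ} (hW : MS R W) (A : Set R.J) :
    MeasurableSet (acts R W A) :=
  ms_allc fun j => ms_iff (hW _ ⟨j, fun _ => rfl⟩) (ms_const _)

/-- The enumeration of the part in `W` on such an event. -/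
def Rep.sub (R : Rep X) (W : Ω → Set ℂ) (A : Set R.J) :
    Rep fun ω : acts R W A => X ω ∩ W ω where
  J := A
  fin := inferInstance
  g j ω := R.g j ω
  meas j := (R.meas j).comp measurable_subtype_coe
  eq ω := by
    ext z
    rw [R.eq]
    constructor
    · rintro ⟨⟨j, rfl⟩, hz⟩
      exact ⟨⟨j, (ω.2 j).1 hz⟩, rfl⟩
    · rintro ⟨⟨j, hj⟩, rfl⟩
      exact ⟨⟨j, rfl⟩, (ω.2 j).2 hj⟩

theorem MS.sub {R : Rep X} {B : Ω → Set ℂ} (h : MS R B) (W : Ω → Set ℂ) (A : Set R.J) :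
    MS (R.sub W A) fun ω : acts R W A => B ω := by
  rintro e ⟨j, hj⟩
  have h1 : MeasurableSet {ω | R.g j.1 ω ∈ B ω} := h _ ⟨j.1, fun _ => rfl⟩
  have h2 : MeasurableSet ((Subtype.val : acts R W A → Ω) ⁻¹' {ω | R.g j.1 ω ∈ B ω}) :=
    measurable_subtype_coe h1
  refine ms_congr (p := fun ω : acts R W A => R.g j.1 ω.1 ∈ B ω.1) h2 fun ω => ?_
  rw [hj ω]
  rfl

/-- **Splitting** along the pattern of the points in `W`. -/
theorem measurable_split (R : Rep X) {W : Ω → Set ℂ} (hW : MS R W) {E : Type*}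
    [MeasurableSpace E] {f : Ω → E}
    (h : ∀ A : Set R.J, Measurable fun ω : acts R W A => f ω) : Measurable f := by
  intro s hs
  have key : f ⁻¹' s = ⋃ A : Set R.J, Subtype.val '' ((fun ω : acts R W A => f ω) ⁻¹' s) := by
    ext ω
    rw [mem_iUnion]
    constructor
    · intro hω
      exact ⟨{j | R.g j ω ∈ W ω}, ⟨ω, fun j => Iff.rfl⟩, hω, rfl⟩
    · rintro ⟨A, ω', hω', rfl⟩
      exact hω'
  rw [key]
  exact MeasurableSet.iUnion fun A => (measurableSet_acts R hW A).subtype_image (h A hs)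

end restrict

section
variable {Ω : Type} [MeasurableSpace Ω] {X : Ω → Set ℂ}

/-! ### feet -/

/-- Finite form of `H565.Foot`. -/
structure FootF (M : ℕ) (Y B : Set ℂ) (k : ℕ) (a : ℂ × ℂ) (n : ℕ) (v : Fin (n + 1) → ℂ) :
    Prop where
  pos : 0 < n
  nb : ∀ i j : Fin (n + 1), (i : ℕ) + 1 = j → nbr Y (v i) (v j)
  z0 : v 0 = a.1
  z1 : ∀ i : Fin (n + 1), (i : ℕ) = 1 → v i = a.2
  rim : v 0 ∈ H678.inRim M Y (Y \ B) k
  rim' : v (Fin.last n) ∈ H678.outRim M Y B k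
  inn : ∀ i : Fin (n + 1), 0 < (i : ℕ) → (i : ℕ) < n →
    v i ∉ B ∧ v i ∉ H678.inHub M Y (Y \ B) k ∧ v i ∉ H678.outHub M Y B k
  box : ∀ i, v i ∈ gbox M k

theorem foot_iff {M : ℕ} {Y B : Set ℂ} {k : ℕ} {a : ℂ × ℂ} :
    Foot M Y B k a ↔ ∃ (n : ℕ) (v : Fin (n + 1) → ℂ), (∀ i, v i ∈ Y) ∧ FootF M Y B k a n v := by
  constructor
  · rintro ⟨n, v, h0, h1, h2, h3, h4, h5, h6, h7⟩
    have hY : ∀ i ≤ n, v i ∈ Y := by
      intro i hi
      rcases Nat.lt_or_ge i n with h | h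
      · exact (h1 i h).1
      · have : i = n := le_antisymm hi h
        subst this
        have := (h1 (i - 1) (by omega)).2.1
        rwa [Nat.sub_add_cancel h0] at this
    refine ⟨n, fun i => v i, fun i => hY i (by omega), h0, ?_, h2, ?_, h4, ?_, ?_, ?_⟩
    · intro i j hij
      have := h1 i (by omega)
      rwa [hij] at this
    · intro i hi
      show v i = a.2
      rw [hi, h3]
    · show v (Fin.last n) ∈ _
      rw [Fin.val_last]
      exact h5
    · exact fun i a b => h6 i a b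
    · exact fun i => h7 i (by omega)
  · rintro ⟨n, v, hY, h⟩
    have hn := h.pos
    refine ⟨n, fun i => if hi : i < n + 1 then v ⟨i, hi⟩ else v 0, hn, ?_, ?_, ?_, ?_, ?_, ?_, ?_⟩
    · intro i hi
      dsimp only
      rw [dif_pos (show i < n + 1 by omega), dif_pos (show i + 1 < n + 1 by omega)]
      exact h.nb _ _ rfl
    · dsimp only
      rw [dif_pos (show 0 < n + 1 by omega)]
      exact h.z0
    · dsimp only
      rw [dif_pos (show 1 < n + 1 by omega)]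
      exact h.z1 _ rfl
    · dsimp only
      rw [dif_pos (show 0 < n + 1 by omega)]
      exact h.rim
    · dsimp only
      rw [dif_pos (show n < n + 1 by omega)]
      exact h.rim'
    · intro i h1 h2
      dsimp only
      rw [dif_pos (show i < n + 1 by omega)]
      exact h.inn _ h1 h2
    · intro i hi
      dsimp only
      rw [dif_pos (show i < n + 1 by omega)]
      exact h.box _

theorem measurableSet_gbox (M k : ℕ) : MeasurableSet (gbox M k) := by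
  have h1 : MeasurableSet {w : ℂ | |w.re - (gateC M k).re| < ms M / 8} :=
    measurableSet_lt (by fun_prop) measurable_const
  have h2 : MeasurableSet {w : ℂ | |w.im - (gateC M k).im| < ms M / 8} :=
    measurableSet_lt (by fun_prop) measurable_const
  exact h1.inter h2

theorem ms_Foot {R : Rep X} {B : Ω → Set ℂ} (hB : MS R B) (M k : ℕ) {a : Ω → ℂ × ℂ}
    (ha : IsT R a) : MeasurableSet {ω | Foot M (X ω) (B ω) k (a ω)} := by
  have hW : MS R fun ω => X ω \ B ω := MS.self.diff hB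
  refine ms_congr (p := fun ω => ∃ n, ∃ v : Fin (n + 1) → ℂ, (∀ i, v i ∈ X ω) ∧
    FootF M (X ω) (B ω) k (a ω) n v) (ms_exc fun n => ms_ex R
    (Ψ := fun ω v => FootF M (X ω) (B ω) k (a ω) n v) fun v hv => ?_) fun ω => foot_iff
  have e : ∀ i, IsT R fun ω => v ω i := fun i => hv.app i
  refine ms_congr (p := fun ω => 0 < n ∧
    (∀ i j : Fin (n + 1), (i : ℕ) + 1 = j → nbr (X ω) (v ω i) (v ω j)) ∧
    v ω 0 = (a ω).1 ∧ (∀ i : Fin (n + 1), (i : ℕ) = 1 → v ω i = (a ω).2) ∧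
    v ω 0 ∈ H678.inRim M (X ω) (X ω \ B ω) k ∧
    v ω (Fin.last n) ∈ H678.outRim M (X ω) (B ω) k ∧
    (∀ i : Fin (n + 1), 0 < (i : ℕ) → (i : ℕ) < n → v ω i ∉ B ω ∧
      v ω i ∉ H678.inHub M (X ω) (X ω \ B ω) k ∧ v ω i ∉ H678.outHub M (X ω) (B ω) k) ∧
    (∀ i, v ω i ∈ gbox M k)) ?_ fun ω => ?_
  · refine ms_and (ms_const _) (ms_and (ms_allc fun i => ms_allc fun j => ms_imp (ms_const _)
      (ms_nbr (e i) (e j))) (ms_and (ms_eq (e 0) ha.fst) (ms_and (ms_allc fun i =>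
      ms_imp (ms_const _) (ms_eq (e i) ha.snd)) (ms_and (MS.inRim M hW k _ (e 0))
      (ms_and (MS.outRim M hB k _ (e _)) (ms_and (ms_allc fun i => ms_imp (ms_const _)
      (ms_imp (ms_const _) (ms_and (ms_not (hB _ (e i))) (ms_and
      (ms_not (MS.inHub M hW k _ (e i))) (ms_not (MS.outHub M hB k _ (e i)))))))
      (ms_allc fun i => ms_borel (e i) (measurableSet_gbox M k))))))))
  · exact ⟨fun h => ⟨h.pos, h.nb, h.z0, h.z1, h.rim, h.rim', h.inn, h.box⟩,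
      fun h => ⟨h.1, h.2.1, h.2.2.1, h.2.2.2.1, h.2.2.2.2.1, h.2.2.2.2.2.1, h.2.2.2.2.2.2.1,
        h.2.2.2.2.2.2.2⟩⟩

theorem foot_mem {M : ℕ} {Y B : Set ℂ} {k : ℕ} {a : ℂ × ℂ} (h : Foot M Y B k a) :
    a.1 ∈ Y ∧ a.2 ∈ Y := by
  obtain ⟨n, v, h0, h1, h2, h3, -⟩ := h
  rw [← h2, ← h3]
  exact ⟨(h1 0 h0).1, (h1 0 h0).2.1⟩

/-! ### pieces -/

theorem exists_PP_iff {Y Q : Set ℂ} {c : ℂ → Bool} {a b : ℂ × ℂ} :
    (∃ n f, PP Y Q c a b n f) ↔ ∃ n, ∃ g : Fin n → Dt, PT.Mem Y g ∧ PF Y Q c a b n g := by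
  constructor
  · rintro ⟨n, f, h⟩
    exact ⟨n, fun i => f i, fun i => (h.sg.lf i i.2).1, PP.pf h⟩
  · rintro ⟨n, g, -, h⟩
    exact ⟨n, _, h.pp⟩

theorem ms_exists_PP {R : Rep X} {Q : Set ℂ} (hQ : IsOpen Q) {c : Ω → ℂ → Bool} (hc : MC R c)
    {a b : Ω → ℂ × ℂ} (ha : IsT R a) (hb : IsT R b) :
    MeasurableSet {ω | ∃ n f, PP (X ω) Q (c ω) (a ω) (b ω) n f} := by
  refine ms_congr (p := fun ω => ∃ n, ∃ g : Fin n → Dt, PT.Mem (X ω) g ∧
    PF (X ω) Q (c ω) (a ω) (b ω) n g) (ms_exc fun n => ms_ex R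
    (Ψ := fun ω g => PF (X ω) Q (c ω) (a ω) (b ω) n g) fun g hg => ms_PF hQ hc ha hb hg)
    fun ω => exists_PP_iff

theorem isOpen_csq (z : ℂ) (r : ℝ) : IsOpen (csq z r) := by
  have h1 : IsOpen {w : ℂ | |w.re - z.re| < r} := isOpen_lt (by fun_prop) continuous_const
  have h2 : IsOpen {w : ℂ | |w.im - z.im| < r} := isOpen_lt (by fun_prop) continuous_const
  exact h1.inter h2

theorem isOpen_Qw (M m : ℕ) : IsOpen (Qw M m) := isOpen_csq _ _

theorem MC_bc {R : Rep X} {B : Ω → Set ℂ} (hB : MS R B) : MC R fun ω => bc (B ω) := by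
  classical
  refine hB.MC fun ω z _ => ?_
  unfold bc
  rw [decide_eq_true_eq]

theorem ms_FP {R : Rep X} {B : Ω → Set ℂ} (hB : MS R B) (M m : ℕ)
    {p : Ω → (ℂ × ℂ) × (ℂ × ℂ)} (hp : IsT R p) :
    MeasurableSet {ω | p ω ∈ FP M (X ω) (B ω) m} :=
  ms_and (ms_or (ms_and (ms_Foot hB M m hp.fst) (ms_Foot hB M (m + 5) hp.snd))
    (ms_and (ms_Foot hB M (m + 5) hp.fst) (ms_Foot hB M m hp.snd)))
    (ms_exists_PP (isOpen_Qw M m) (MC_bc hB) hp.fst hp.snd)

theorem FP_mem {M : ℕ} {Y B : Set ℂ} {m : ℕ} {p : (ℂ × ℂ) × (ℂ × ℂ)} (h : p ∈ FP M Y B m) :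
    PT.Mem Y p := by
  obtain ⟨⟨h1, h2⟩ | ⟨h1, h2⟩, -⟩ := h
  · exact ⟨foot_mem h1, foot_mem h2⟩
  · exact ⟨foot_mem h1, foot_mem h2⟩

theorem FP_eq (M : ℕ) (Y B : Set ℂ) (m : ℕ) :
    FP M Y B m = {p | PT.Mem Y p ∧ p ∈ FP M Y B m} := by
  ext p
  exact ⟨fun h => ⟨FP_mem h, h⟩, fun h => h.2⟩

open Classical in
/-- The value between two gates is measurable (in generic position). -/
theorem ms_Fv (R : Rep X) {B : Ω → Set ℂ} (hB : MS R B) (M m : ℕ) {Θ : Dt → ℂ}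
    (hΘ : Measurable Θ) :
    Measurable fun ω => if Three (X ω) then Fv M (X ω) (B ω) Θ m else 0 := by
  have h1 : Measurable fun ω => ∑ᶠ p ∈ {p | PT.Mem (X ω) p ∧ p ∈ FP M (X ω) (B ω) m},
      (if Three (X ω) then PV (X ω) (Qw M m) (bc (B ω)) p.1 p.2 Θ else 0) :=
    ms_sum R (Ψ := fun ω p => p ∈ FP M (X ω) (B ω) m)
      (f := fun ω p => if Three (X ω) then PV (X ω) (Qw M m) (bc (B ω)) p.1 p.2 Θ else 0)
      (fun p hp => ms_FP hB M m hp)
      fun p hp => ms_PV R (isOpen_Qw M m) (MC_bc hB) hp.fst hp.snd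
        (Θ := fun _ => Θ) fun d hd => hΘ.comp hd.measurable
  have h2 : Measurable fun ω => {p | PT.Mem (X ω) p ∧ p ∈ FP M (X ω) (B ω) m}.ncard :=
    ms_ncard R (Ψ := fun ω p => p ∈ FP M (X ω) (B ω) m) fun p hp => ms_FP hB M m hp
  have h3 : Measurable fun ω => (({p | PT.Mem (X ω) p ∧ p ∈ FP M (X ω) (B ω) m}.ncard : ℕ) : ℂ) :=
    (measurable_from_top (f := fun n : ℕ => (n : ℂ))).comp h2
  have h4 := h1.div h3
  convert h4 using 1
  funext ω
  simp only [Pi.div_apply]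
  by_cases h : Three (X ω)
  · simp only [h, if_true]
    unfold Fv
    rw [← FP_eq]
  · simp only [h, if_false, finsum_zero, zero_div]

open Classical in
/-- **The value of a cell is measurable** (in generic position). -/
theorem ms_cellV (R : Rep X) {B : Ω → Set ℂ} (hB : MS R B) (M k : ℕ) {Θ : Dt → ℂ}
    (hΘ : Measurable Θ) :
    Measurable fun ω => if Three (X ω ∩ Qw M (gb M k)) then cellV M (X ω) (B ω) Θ k else 0 := by
  have hQ : MS R fun _ => Qw M (gb M k) := MS.borel (isOpen_Qw M _).measurableSet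
  refine measurable_split R hQ fun A => ?_
  exact ms_Fv (R.sub (fun _ => Qw M (gb M k)) A)
    (B := fun ω => B ω ∩ Qw M (gb M k)) ((hB.inter hQ).sub _ A) M (gb M k) hΘ

end

end H729
end P148
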