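import Vale.Agent.P148.R2.H729.Mk2
import Vale.Agent.P148.R2.H504.Bridge

/-!
# P148, row N5: the local means of `Mk` are the local quenched means of `H504.Bridge`
-/

open MeasureTheory Set Metric
open scoped Classical

namespace P148
namespace H729

open Vale.Agent.P148.R2
open Vale.Agent.P148.R2.H184 (Dt)
open Vale.Agent.P148.R2.H565 (cellV)
open Vale.Agent.P148.R2.H504 (tk mker evT valT ex2C ex2C_ite ex2_congr)
open Vale.Agent.P148.R2.H172 (combLaw ex2 pc_W)
open Vale.Agent.P148.R2.H938 (HubEv CorEv pc)

universe v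

variable {V : Type v} [Fintype V] {e : V → ℂ} {M : ℕ}

/-- **Bridge.** The local quenched mean of `H504.Bridge` is `mraw` of the set of sites. -/
theorem mker_eq_mraw (hM : 0 < M) (he : Function.Injective e) (Θ : Dt → ℂ) (k : ℕ) :
    mker M (tk M k) k e Θ = mraw M Θ k (range e) := by
  have hval : ∀ c₁ c₂, valT M (tk M k) k e Θ c₁ c₂ =
      cellV M (range e) (pc e true ((combLaw hM (range e) e).W (tk M k) c₁ c₂)) Θ k := by
    intro c₁ c₂
    rw [pc_W e hM (range e) he (tk M k) true c₁ c₂]
    rfl
  unfold mker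
  rw [ex2C_ite]
  apply Complex.ext
  · rw [mraw_re hM he]
    refine congrArg₂ (· / ·) (ex2_congr fun c₁ c₂ => ?_) rfl
    by_cases h : evT M (tk M k) (range e) e c₁ c₂
    · rw [if_pos h, hval]
      exact (if_pos h).symm
    · rw [if_neg h]
      exact (if_neg h).symm
  · rw [mraw_im hM he]
    refine congrArg₂ (· / ·) (ex2_congr fun c₁ c₂ => ?_) rfl
    by_cases h : evT M (tk M k) (range e) e c₁ c₂
    · rw [if_pos h, hval]
      exact (if_pos h).symm
    · rw [if_neg h]
      exact (if_neg h).symm

end H729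
end P148
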