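import Vale.Agent.P148.Inv

/-!
# P148, module Q, part 1: invariance of the law of the coloured Poisson process under
measure preserving maps; flips of colours in a Borel set; the law; independence
-/

open MeasureTheory Set Metric Topology Filter ProbabilityTheory
open scoped ENNReal NNReal

namespace P148
namespace H729

/-- Configurations with the sigma-algebra of void events. -/
def Conf : Type := Set Pt

instance : MeasurableSpace Conf := voidSigma

theorem measurableSet_voidEvent {A : Set Pt} (hA : MeasurableSet A) (hb : Bdd A) :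
    MeasurableSet[voidSigma] {S : Set Pt | S ∩ A = ∅} :=
  MeasurableSpace.measurableSet_generateFrom ⟨A, hA, hb, rfl⟩

/-- The void events. -/
def voids : Set (Set (Set Pt)) :=
  {E | ∃ A : Set Pt, MeasurableSet A ∧ Bdd A ∧ E = {S : Set Pt | S ∩ A = ∅}}

theorem isPiSystem_voids : IsPiSystem voids := by
  rintro _ ⟨A, hm, hA, rfl⟩ _ ⟨B, hm', hB, rfl⟩ -
  refine ⟨A ∪ B, hm.union hm', bdd_union hA hB, ?_⟩
  ext T
  simp only [mem_inter_iff, mem_ofPred_eq, Set.inter_union_distrib_left, Set.union_empty_iff]

theorem bdd_mono {A B : Set Pt} (h : A ⊆ B) (hB : Bdd B) : Bdd A := by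
  obtain ⟨r, hr⟩ := hB
  exact ⟨r, h.trans hr⟩

/-- A map is measurable for `voidSigma` when the preimages of void events are measurable. -/
theorem measurable_void {Ω : Type*} [MeasurableSpace Ω] {S : Ω → Set Pt}
    (h : ∀ A : Set Pt, MeasurableSet A → Bdd A → MeasurableSet {ω | S ω ∩ A = ∅}) :
    @Measurable _ _ _ voidSigma S := by
  refine measurable_generateFrom ?_
  rintro _ ⟨A, hm, hA, rfl⟩
  exact h A hm hA

theorem inten_lt_top (lam : ℝ≥0) {A : Set Pt} (hA : Bdd A) : inten lam A < ⊤ := by
  obtain ⟨r, hr⟩ := hA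
  refine (measure_mono hr).trans_lt ?_
  rw [inten, Measure.smul_apply, Measure.prod_prod]
  exact ENNReal.mul_lt_top (by simp) (ENNReal.mul_lt_top measure_ball_lt_top (measure_lt_top _ _))

section
variable {Ω : Type*} [MeasurableSpace Ω] {P : Measure Ω} {S : Ω → Set Pt} {lam : ℝ≥0}

/-- The void probability. -/
theorem void_prob' (h : IsColouredPoisson P S lam) {A : Set Pt} (hm : MeasurableSet A)
    (hA : Bdd A) : P {ω | S ω ∩ A = ∅} = ENNReal.ofReal (Real.exp (-(inten lam A).toReal)) := by
  rw [h.void_prob hm hA, poissonMeasure_singleton]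
  simp only [pow_zero, mul_one, Nat.factorial_zero, Nat.cast_one, div_one]
  rfl

/-- Two random configurations with the same void probabilities have the same law. -/
theorem map_eq_of_void {Ω' : Type*} [MeasurableSpace Ω'] {P' : Measure Ω'} [IsProbabilityMeasure P]
    [IsProbabilityMeasure P'] {S' : Ω' → Set Pt}
    (hS : @Measurable _ _ _ voidSigma S) (hS' : @Measurable _ _ _ voidSigma S')
    (h : ∀ A : Set Pt, MeasurableSet A → Bdd A → P' {ω | S' ω ∩ A = ∅} = P {ω | S ω ∩ A = ∅}) :
    @Measure.map _ _ _ voidSigma S' P' = @Measure.map _ _ _ voidSigma S P := by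
  refine @ext_of_generate_finite _ voidSigma _ _ voids rfl isPiSystem_voids ?_ ?_ ?_
  · exact @Measure.isFiniteMeasure_map _ _ voidSigma _ P' _ _
  · rintro _ ⟨A, hm, hA, rfl⟩
    have hE' := measurableSet_voidEvent hm hA
    rw [@Measure.map_apply _ _ _ voidSigma _ _ hS' _ hE',
      @Measure.map_apply _ _ _ voidSigma _ _ hS _ hE']
    exact h A hm hA
  · rw [@Measure.map_apply _ _ _ voidSigma _ _ hS' _ (@MeasurableSet.univ _ voidSigma),
      @Measure.map_apply _ _ _ voidSigma _ _ hS _ (@MeasurableSet.univ _ voidSigma)]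
    simp

/-- The image of the process under a map which preserves the intensity. -/
theorem measurable_image (h : IsColouredPoisson P S lam) {g : Pt → Pt} (hg : Measurable g)
    (hb : ∀ A, Bdd A → Bdd (g ⁻¹' A)) : @Measurable _ _ _ voidSigma fun ω => g '' S ω := by
  refine measurable_void fun A hm hA => ?_
  have h1 : {ω | g '' S ω ∩ A = ∅} = {ω | S ω ∩ (g ⁻¹' A) = ∅} := by
    ext ω
    exact image_inter_eq_empty _ _ _
  rw [h1]
  exact h.measurableSet_void (hg hm) (hb A hA)

theorem map_image [IsProbabilityMeasure P] (h : IsColouredPoisson P S lam) {g : Pt → Pt}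
    (hg : MeasurePreserving g (inten lam) (inten lam)) (hb : ∀ A, Bdd A → Bdd (g ⁻¹' A)) :
    @Measure.map _ _ _ voidSigma (fun ω => g '' S ω) P = @Measure.map _ _ _ voidSigma S P := by
  refine map_eq_of_void h.measurable_self (measurable_image h hg.measurable hb) ?_
  intro A hm hA
  have h1 : {ω | g '' S ω ∩ A = ∅} = {ω | S ω ∩ (g ⁻¹' A) = ∅} := by
    ext ω
    exact image_inter_eq_empty _ _ _
  rw [h1, void_prob' h hm hA, void_prob' h (hg.measurable hm) (hb A hA),
    hg.measure_preimage hm.nullMeasurableSet]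

end

/-- Equality of expectations from equality of laws, general form. -/
theorem integral_of_map_eq {X Ω Ω' : Type*} {mX : MeasurableSpace X} [MeasurableSpace Ω]
    [MeasurableSpace Ω'] {P : Measure Ω} {P' : Measure Ω'} {S : Ω → X} {S' : Ω' → X}
    {E : Type*} [NormedAddCommGroup E] [NormedSpace ℝ E] [MeasurableSpace E] [BorelSpace E]
    [SecondCountableTopology E] (hS : Measurable S) (hS' : Measurable S')
    (h : Measure.map S' P' = Measure.map S P) {F : X → E} (hF : Measurable F) :
    ∫ ω, F (S' ω) ∂P' = ∫ ω, F (S ω) ∂P := by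
  rw [← integral_map hS'.aemeasurable hF.aestronglyMeasurable,
    ← integral_map hS.aemeasurable hF.aestronglyMeasurable, h]

theorem lintegral_of_map_eq {X Ω Ω' : Type*} {mX : MeasurableSpace X} [MeasurableSpace Ω]
    [MeasurableSpace Ω'] {P : Measure Ω} {P' : Measure Ω'} {S : Ω → X} {S' : Ω' → X}
    (hS : Measurable S) (hS' : Measurable S')
    (h : Measure.map S' P' = Measure.map S P) {F : X → ℝ≥0∞} (hF : Measurable F) :
    ∫⁻ ω, F (S' ω) ∂P' = ∫⁻ ω, F (S ω) ∂P := by
  rw [← lintegral_map hF hS', ← lintegral_map hF hS, h]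

section
variable {Ω : Type*} [MeasurableSpace Ω] {P : Measure Ω} {S : Ω → Set Pt} {lam : ℝ≥0}

/-! ### flips -/

open Classical in
/-- Flip the colour of the points in `U`. -/
noncomputable def flipOn (U : Set ℂ) (q : Pt) : Pt := (q.1, if q.1 ∈ U then !q.2 else q.2)

theorem flipOn_invol (U : Set ℂ) (q : Pt) : flipOn U (flipOn U q) = q := by
  unfold flipOn
  by_cases h : q.1 ∈ U <;> simp [h]

theorem measurable_flipOn {U : Set ℂ} (hU : MeasurableSet U) : Measurable (flipOn U) := by
  classical
  refine measurable_fst.prodMk ?_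
  have h1 : Measurable fun q : Pt => (!q.2) :=
    (measurable_of_countable (fun b : Bool => !b)).comp measurable_snd
  exact Measurable.ite (measurable_fst hU) h1 measurable_snd

theorem fair_apply (s : Set Bool) : fair s = 2⁻¹ * s.encard := by
  rw [fair, Measure.smul_apply, Measure.count_apply MeasurableSet.of_discrete, smul_eq_mul]

instance : SFinite fair := by
  unfold fair
  infer_instance

theorem measurePreserving_flipOn (lam : ℝ≥0) {U : Set ℂ} (hU : MeasurableSet U) :
    MeasurePreserving (flipOn U) (inten lam) (inten lam) := by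
  classical
  refine ⟨measurable_flipOn hU, ?_⟩
  have key : Measure.map (flipOn U) ((volume : Measure ℂ).prod fair) =
      (volume : Measure ℂ).prod fair := by
    ext A hA
    rw [Measure.map_apply (measurable_flipOn hU) hA, Measure.prod_apply hA,
      Measure.prod_apply (measurable_flipOn hU hA)]
    refine lintegral_congr fun z => ?_
    by_cases hz : z ∈ U
    · have h1 : Prod.mk z ⁻¹' (flipOn U ⁻¹' A) = (fun b => !b) ⁻¹' (Prod.mk z ⁻¹' A) := by
        ext b
        simp [flipOn, hz]
      rw [h1]
      have h2 := (measurePreserving_perm Equiv.boolNot).measure_preimage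
        (s := Prod.mk z ⁻¹' A) MeasurableSet.of_discrete.nullMeasurableSet
      exact h2
    · have h1 : Prod.mk z ⁻¹' (flipOn U ⁻¹' A) = Prod.mk z ⁻¹' A := by
        ext b
        simp [flipOn, hz]
      rw [h1]
  unfold inten
  rw [Measure.map_smul, key]

theorem bdd_flipOn (U : Set ℂ) (A : Set Pt) (hA : Bdd A) : Bdd (flipOn U ⁻¹' A) := by
  obtain ⟨r, hr⟩ := hA
  exact ⟨r, fun q hq => ⟨(hr hq).1, mem_univ _⟩⟩

/-- **Q1.** Flipping the colours in a Borel set preserves the law. -/
theorem map_flipOn [IsProbabilityMeasure P] (h : IsColouredPoisson P S lam) {U : Set ℂ}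
    (hU : MeasurableSet U) :
    @Measure.map _ _ _ voidSigma (fun ω => flipOn U '' S ω) P =
      @Measure.map _ _ _ voidSigma S P :=
  map_image h (measurePreserving_flipOn lam hU) (bdd_flipOn U)

theorem measurable_flipOn_image (h : IsColouredPoisson P S lam) {U : Set ℂ}
    (hU : MeasurableSet U) : @Measurable _ _ _ voidSigma fun ω => flipOn U '' S ω :=
  measurable_image h (measurable_flipOn hU) (bdd_flipOn U)

theorem lintegral_flipOn [IsProbabilityMeasure P] (h : IsColouredPoisson P S lam) {U : Set ℂ}
    (hU : MeasurableSet U) {F : Set Pt → ℝ≥0∞} (hF : @Measurable _ _ voidSigma _ F) :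
    ∫⁻ ω, F (flipOn U '' S ω) ∂P = ∫⁻ ω, F (S ω) ∂P :=
  @lintegral_of_map_eq _ _ _ voidSigma _ _ _ _ _ _ h.measurable_self (measurable_flipOn_image h hU)
    (map_flipOn h hU) _ hF

theorem integral_flipOn [IsProbabilityMeasure P] (h : IsColouredPoisson P S lam) {U : Set ℂ}
    (hU : MeasurableSet U) {E : Type*} [NormedAddCommGroup E] [NormedSpace ℝ E]
    [MeasurableSpace E] [BorelSpace E] [SecondCountableTopology E] {F : Set Pt → E}
    (hF : @Measurable _ _ voidSigma _ F) :
    ∫ ω, F (flipOn U '' S ω) ∂P = ∫ ω, F (S ω) ∂P :=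
  @integral_of_map_eq _ _ _ voidSigma _ _ _ _ _ _ _ _ _ _ _ _ h.measurable_self
    (measurable_flipOn_image h hU) (map_flipOn h hU) _ hF

end

end H729
end P148
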