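import Vale.Agent.P148.R2.H729.Q3
import Vale.Agent.P148.R2.H729.Q5

/-!
# P148, module Q, part 10: product representation over a finite partition of the plane

For disjoint Borel sets `J i` (`i` in a finite type) the parts `resC S (J i)` of the configuration
have the product law; for a partition the configuration is their union. Congruent sets carry
congruent laws.
-/

open MeasureTheory Set Metric Topology Filter ProbabilityTheory
open scoped ENNReal NNReal

set_option linter.unusedSectionVars false

namespace P148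
namespace H729

section
variable {Ω : Type*} [MeasurableSpace Ω] {P : Measure Ω} {S : Ω → Set Pt} {lam : ℝ≥0}

theorem iIndepFun_resC [IsProbabilityMeasure P] (h : IsColouredPoisson P S lam) {ι : Type*}
    {J : ι → Set ℂ} (hJ : ∀ i, MeasurableSet (J i))
    (hd : Pairwise fun i j => Disjoint (J i) (J j)) : iIndepFun (fun i => resC S (J i)) P := by
  rw [iIndepFun_iff_iIndep]
  exact iIndep_sig h hJ hd

/-- The law of the configuration over `U`. -/
noncomputable def lawR (P : Measure Ω) (S : Ω → Set Pt) (U : Set ℂ) : Measure Conf :=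
  P.map (resC S U)

theorem isProbabilityMeasure_lawR [IsProbabilityMeasure P] (h : IsColouredPoisson P S lam)
    {U : Set ℂ} (hU : MeasurableSet U) : IsProbabilityMeasure (lawR P S U) :=
  Measure.isProbabilityMeasure_map (measurable_resC h hU).aemeasurable

/-- **Product law.** -/
theorem map_resC_pi [IsProbabilityMeasure P] (h : IsColouredPoisson P S lam) {ι : Type*}
    [Fintype ι] {J : ι → Set ℂ} (hJ : ∀ i, MeasurableSet (J i))
    (hd : Pairwise fun i j => Disjoint (J i) (J j)) :
    P.map (fun ω i => resC S (J i) ω) = Measure.pi fun i => lawR P S (J i) :=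
  (iIndepFun_iff_map_fun_eq_pi_map fun i => (measurable_resC h (hJ i)).aemeasurable).mp
    (iIndepFun_resC h hJ hd)

/-- The union of finitely many configurations. -/
def bigcup {ι : Type*} (x : ι → Conf) : Conf := (⋃ i, (show Set Pt from x i) : Set Pt)

theorem measurable_bigcup {ι : Type*} [Countable ι] : Measurable (bigcup (ι := ι)) := by
  refine @measurable_void _ _ _ fun A hm hA => ?_
  have h0 : @MeasurableSet Conf _ {T : Set Pt | T ∩ A = ∅} := measurableSet_voidEvent hm hA
  have h1 : MeasurableSet (⋂ i : ι, (fun x : ι → Conf => x i) ⁻¹'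
      (show Set Conf from {T : Set Pt | T ∩ A = ∅})) :=
    MeasurableSet.iInter fun i => (measurable_pi_apply i) h0
  convert h1 using 1
  ext x
  have key : ∀ y : ι → Set Pt, (⋃ i, y i) ∩ A = ∅ ↔ ∀ i, y i ∩ A = ∅ := by
    intro y
    rw [Set.iUnion_inter, Set.iUnion_eq_empty]
  rw [mem_iInter]
  exact key x

theorem bigcup_resC {ι : Type*} {J : ι → Set ℂ} (hU : ⋃ i, J i = univ) (T : Set Pt) :
    bigcup (fun i => (res (J i) T : Set Pt)) = (T : Set Pt) := by
  have : (⋃ i, res (J i) T) = T := by
    ext q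
    simp only [res, mem_iUnion, mem_inter_iff, mem_prod, mem_univ, and_true]
    constructor
    · rintro ⟨i, h1, -⟩
      exact h1
    · intro hq
      have : q.1 ∈ ⋃ i, J i := by rw [hU]; exact mem_univ _
      obtain ⟨i, hi⟩ := mem_iUnion.mp this
      exact ⟨i, hq, hi⟩
  exact this

/-- **Product representation** of the configuration over a finite Borel partition. -/
theorem lintegral_eq_pi [IsProbabilityMeasure P] (h : IsColouredPoisson P S lam) {ι : Type*}
    [Fintype ι] {J : ι → Set ℂ} (hJ : ∀ i, MeasurableSet (J i))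
    (hd : Pairwise fun i j => Disjoint (J i) (J j)) (hU : ⋃ i, J i = univ)
    {F : Set Pt → ℝ≥0∞} (hF : @Measurable _ _ voidSigma _ F) :
    ∫⁻ ω, F (S ω) ∂P = ∫⁻ x, F (bigcup x) ∂(Measure.pi fun i => lawR P S (J i)) := by
  have hF' : @Measurable Conf ℝ≥0∞ _ _ F := hF
  have hc : Measurable (fun x : ι → Conf => @id (Conf → ℝ≥0∞) F (bigcup x)) :=
    hF'.comp measurable_bigcup
  have hm : Measurable (fun ω i => resC S (J i) ω) :=
    measurable_pi_iff.mpr fun i => measurable_resC h (hJ i)
  have e1 := lintegral_map (μ := P) hc hm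
  rw [map_resC_pi h hJ hd] at e1
  refine Eq.trans ?_ e1.symm
  refine lintegral_congr fun ω => ?_
  exact (congrArg F (bigcup_resC hU (S ω))).symm

/-- The configuration as a `Conf`-valued map. -/
def SCf (S : Ω → Set Pt) : Ω → Conf := fun ω => (S ω : Set Pt)

/-- The same, on the level of laws. -/
theorem lawC_eq_pi [IsProbabilityMeasure P] (h : IsColouredPoisson P S lam) {ι : Type*}
    [Fintype ι] {J : ι → Set ℂ} (hJ : ∀ i, MeasurableSet (J i))
    (hd : Pairwise fun i j => Disjoint (J i) (J j)) (hU : ⋃ i, J i = univ) :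
    P.map (SCf S) = (Measure.pi fun i => lawR P S (J i)).map bigcup := by
  have hm : Measurable (fun ω i => resC S (J i) ω) :=
    measurable_pi_iff.mpr fun i => measurable_resC h (hJ i)
  rw [← map_resC_pi h hJ hd, Measure.map_map measurable_bigcup hm]
  congr 1
  funext ω
  exact (bigcup_resC hU (S ω)).symm

/-- Image of a configuration under an isometry and a permutation of the colours. -/
noncomputable def isoC (σ : ℂ ≃ᵢ ℂ) (τ : Equiv.Perm Bool) (T : Conf) : Conf :=
  (isoP σ τ '' (show Set Pt from T) : Set Pt)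

theorem measurable_isoP (σ : ℂ ≃ᵢ ℂ) (τ : Equiv.Perm Bool) : Measurable (isoP σ τ) :=
  ((σ.continuous.measurable).comp measurable_fst).prodMk
    ((measurable_of_countable τ).comp measurable_snd)

theorem measurable_isoC (σ : ℂ ≃ᵢ ℂ) (τ : Equiv.Perm Bool) : Measurable (isoC σ τ) := by
  refine @measurable_void _ _ _ fun A hm hA => ?_
  have h0 : @MeasurableSet Conf _ {T : Set Pt | T ∩ (isoP σ τ ⁻¹' A) = ∅} :=
    measurableSet_voidEvent (measurable_isoP σ τ hm) (bdd_preimage σ τ hA)
  convert h0 using 1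
  ext T
  have key : ∀ T : Set Pt, isoP σ τ '' T ∩ A = ∅ ↔ T ∩ (isoP σ τ ⁻¹' A) = ∅ :=
    fun T => image_inter_eq_empty _ _ _
  exact key T

theorem res_isoP (σ : ℂ ≃ᵢ ℂ) (τ : Equiv.Perm Bool) (U : Set ℂ) (T : Set Pt) :
    res (σ '' U) (isoP σ τ '' T) = isoP σ τ '' (res U T) := by
  ext q
  simp only [res, mem_inter_iff, mem_prod, mem_univ, and_true]
  constructor
  · rintro ⟨⟨p, hp, rfl⟩, hU⟩
    refine ⟨p, ⟨hp, ?_⟩, rfl⟩
    obtain ⟨z, hz, hzp⟩ := hU
    have : z = p.1 := σ.injective hzp
    exact ⟨this ▸ hz, mem_univ _⟩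
  · rintro ⟨p, ⟨hp, hU⟩, rfl⟩
    exact ⟨⟨p, hp, rfl⟩, ⟨p.1, hU.1, rfl⟩⟩

/-- **Congruence**: the law over `σ '' U` is the image of the law over `U` under `σ` (combined with
any permutation `τ` of the colours). -/
theorem lawR_iso [IsProbabilityMeasure P] (h : IsColouredPoisson P S lam) (σ : ℂ ≃ᵢ ℂ)
    (τ : Equiv.Perm Bool) {U : Set ℂ} (hU : MeasurableSet U) (hU' : MeasurableSet (σ '' U)) :
    lawR P S (σ '' U) = (lawR P S U).map (isoC σ τ) := by
  have h' := iso_poisson h σ τ
  refine Measure.ext fun E hE => ?_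
  unfold lawR
  rw [Measure.map_apply (measurable_resC h hU') hE,
    Measure.map_apply (measurable_isoC σ τ) hE,
    Measure.map_apply (measurable_resC h hU) (measurable_isoC σ τ hE)]
  have hE2 : @MeasurableSet _ voidSigma (@preimage (Set Pt) Conf (res (σ '' U)) E) :=
    (measurable_res hU') hE
  have h1 := prob_law_eq h h' hE2
  have e1 : resC S (σ '' U) ⁻¹' E = {ω | S ω ∈ @preimage (Set Pt) Conf (res (σ '' U)) E} := rfl
  have e2 : resC S U ⁻¹' (isoC σ τ ⁻¹' E) =
      {ω | isoP σ τ '' S ω ∈ @preimage (Set Pt) Conf (res (σ '' U)) E} := by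
    ext ω
    show @Membership.mem Conf (Set Conf) _ E (isoP σ τ '' (res U (S ω)) : Set Pt) ↔
      @Membership.mem Conf (Set Conf) _ E (res (σ '' U) (isoP σ τ '' S ω) : Set Pt)
    rw [res_isoP]
  rw [e1, e2]
  exact h1.symm

end

end H729
end P148
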