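import Vale.Agent.P148.R2.H729.Q10

/-!
# P148, module Q, part 11: i.i.d. blocks

The restrictions of the coloured Poisson process to disjoint Borel regions, moved by isometries (and
colour permutations) to reference regions, have the product law. If all the images coincide the
blocks are independent and identically distributed.
-/

open MeasureTheory Set Metric Topology Filter ProbabilityTheory
open scoped ENNReal NNReal

set_option linter.unusedSectionVars false

namespace P148
namespace H729

section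
variable {Ω : Type*} [MeasurableSpace Ω] {P : Measure Ω} {S : Ω → Set Pt} {lam : ℝ≥0}

/-- `isoC` is invertible. -/
theorem isoC_symm (σ : ℂ ≃ᵢ ℂ) (τ : Equiv.Perm Bool) (T : Conf) :
    isoC σ.symm τ.symm (isoC σ τ T) = T := by
  show isoP σ.symm τ.symm '' (isoP σ τ '' (show Set Pt from T)) = (show Set Pt from T)
  rw [← image_comp]
  convert image_id _ using 2
  funext q
  simp [isoP, Function.comp]

theorem isoC_symm' (σ : ℂ ≃ᵢ ℂ) (τ : Equiv.Perm Bool) (T : Conf) :
    isoC σ τ (isoC σ.symm τ.symm T) = T := by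
  show isoP σ τ '' (isoP σ.symm τ.symm '' (show Set Pt from T)) = (show Set Pt from T)
  rw [← image_comp]
  convert image_id _ using 2
  funext q
  simp [isoP, Function.comp]

/-- The block of `S` over `U`, moved by `σ`, `τ`. -/
noncomputable def blk (S : Ω → Set Pt) (U : Set ℂ) (σ : ℂ ≃ᵢ ℂ) (τ : Equiv.Perm Bool) : Ω → Conf :=
  fun ω => isoC σ τ (resC S U ω)

theorem measurable_blk (h : IsColouredPoisson P S lam) {U : Set ℂ} (hU : MeasurableSet U)
    (σ : ℂ ≃ᵢ ℂ) (τ : Equiv.Perm Bool) : Measurable (blk S U σ τ) :=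
  (measurable_isoC σ τ).comp (measurable_resC h hU)

/-- The block moved back. -/
theorem isoC_blk (S : Ω → Set Pt) (U : Set ℂ) (σ : ℂ ≃ᵢ ℂ) (τ : Equiv.Perm Bool) (ω : Ω) :
    isoC σ.symm τ.symm (blk S U σ τ ω) = resC S U ω := isoC_symm _ _ _

/-- The block is a restriction of the moved configuration. -/
theorem blk_eq (S : Ω → Set Pt) (U : Set ℂ) (σ : ℂ ≃ᵢ ℂ) (τ : Equiv.Perm Bool) (ω : Ω) :
    blk S U σ τ ω = (res (σ '' U) (isoP σ τ '' S ω) : Set Pt) := (res_isoP σ τ U (S ω)).symm

theorem map_blk [IsProbabilityMeasure P] (h : IsColouredPoisson P S lam) {U : Set ℂ}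
    (hU : MeasurableSet U) (σ : ℂ ≃ᵢ ℂ) (τ : Equiv.Perm Bool) (hU' : MeasurableSet (σ '' U)) :
    P.map (blk S U σ τ) = lawR P S (σ '' U) := by
  rw [lawR_iso h σ τ hU hU', lawR, Measure.map_map (measurable_isoC σ τ) (measurable_resC h hU)]
  rfl

/-- **Product law of the blocks.** -/
theorem map_blk_pi [IsProbabilityMeasure P] (h : IsColouredPoisson P S lam) {ι : Type*}
    [Fintype ι] {J : ι → Set ℂ} (hJ : ∀ i, MeasurableSet (J i))
    (hd : Pairwise fun i j => Disjoint (J i) (J j)) (σ : ι → ℂ ≃ᵢ ℂ) (τ : ι → Equiv.Perm Bool)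
    (hσ : ∀ i, MeasurableSet (σ i '' J i)) :
    P.map (fun ω i => blk S (J i) (σ i) (τ i) ω) = Measure.pi fun i => lawR P S (σ i '' J i) := by
  have hi : iIndepFun (fun i => blk S (J i) (σ i) (τ i)) P :=
    (iIndepFun_resC h hJ hd).comp (fun i => isoC (σ i) (τ i)) fun i => measurable_isoC _ _
  rw [(iIndepFun_iff_map_fun_eq_pi_map fun i => (measurable_blk h (hJ i) _ _).aemeasurable).mp hi]
  congr 1
  funext i
  exact map_blk h (hJ i) _ _ (hσ i)

/-- Probability of an event of the blocks. -/
theorem prob_blk_pi [IsProbabilityMeasure P] (h : IsColouredPoisson P S lam) {ι : Type*}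
    [Fintype ι] {J : ι → Set ℂ} (hJ : ∀ i, MeasurableSet (J i))
    (hd : Pairwise fun i j => Disjoint (J i) (J j)) (σ : ι → ℂ ≃ᵢ ℂ) (τ : ι → Equiv.Perm Bool)
    (hσ : ∀ i, MeasurableSet (σ i '' J i)) {E : Set (ι → Conf)} (hE : MeasurableSet E) :
    P {ω | (fun i => blk S (J i) (σ i) (τ i) ω) ∈ E} =
      Measure.pi (fun i => lawR P S (σ i '' J i)) E := by
  rw [← map_blk_pi h hJ hd σ τ hσ, Measure.map_apply _ hE]
  · rfl
  · exact measurable_pi_iff.mpr fun i => measurable_blk h (hJ i) _ _

/-- **Gates and sections**: two families of disjoint regions, moved to one reference gate `G` and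
one reference section `K`: the joint law is the product of `Measure.pi` of the gate law and
`Measure.pi` of the section law. -/
theorem map_gates_sections [IsProbabilityMeasure P] (h : IsColouredPoisson P S lam)
    {ι κ : Type*} [Fintype ι] [Fintype κ] {J : ι → Set ℂ} {L : κ → Set ℂ}
    (hJ : ∀ i, MeasurableSet (J i)) (hL : ∀ k, MeasurableSet (L k))
    (hdJ : Pairwise fun i j => Disjoint (J i) (J j)) (hdL : Pairwise fun i j => Disjoint (L i) (L j))
    (hJL : ∀ i k, Disjoint (J i) (L k))
    (σ : ι → ℂ ≃ᵢ ℂ) (τ : ι → Equiv.Perm Bool) (σ' : κ → ℂ ≃ᵢ ℂ) (τ' : κ → Equiv.Perm Bool)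
    {G K : Set ℂ} (hG : ∀ i, σ i '' J i = G) (hK : ∀ k, σ' k '' L k = K)
    (mG : MeasurableSet G) (mK : MeasurableSet K) :
    P.map (fun ω => (fun i => blk S (J i) (σ i) (τ i) ω, fun k => blk S (L k) (σ' k) (τ' k) ω)) =
      (Measure.pi fun _ : ι => lawR P S G).prod (Measure.pi fun _ : κ => lawR P S K) := by
  classical
  have mJ : Measurable (fun ω i => blk S (J i) (σ i) (τ i) ω) :=
    measurable_pi_iff.mpr fun i => measurable_blk h (hJ i) _ _
  have mL : Measurable (fun ω k => blk S (L k) (σ' k) (τ' k) ω) :=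
    measurable_pi_iff.mpr fun k => measurable_blk h (hL k) _ _
  have e1 : P.map (fun ω i => blk S (J i) (σ i) (τ i) ω) = Measure.pi fun _ : ι => lawR P S G := by
    rw [map_blk_pi h hJ hdJ σ τ fun i => by rw [hG i]; exact mG]
    congr 1
    funext i
    rw [hG i]
  have e2 : P.map (fun ω k => blk S (L k) (σ' k) (τ' k) ω) =
      Measure.pi fun _ : κ => lawR P S K := by
    rw [map_blk_pi h hL hdL σ' τ' fun i => by rw [hK i]; exact mK]
    congr 1
    funext i
    rw [hK i]
  rw [← e1, ← e2]
  refine (indepFun_iff_map_prod_eq_prod_map_map mJ.aemeasurable mL.aemeasurable).mp ?_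
  -- independence of the two families
  let M : ι ⊕ κ → Set ℂ := Sum.elim J L
  have hM : ∀ s, MeasurableSet (M s) := by
    rintro (i | k)
    · exact hJ i
    · exact hL k
  have hdM : Pairwise fun s t => Disjoint (M s) (M t) := by
    rintro (i | k) (j | l) hne
    · exact hdJ fun e => hne (by rw [e])
    · exact hJL i l
    · exact (hJL j k).symm
    · exact hdL fun e => hne (by rw [e])
  have hi := iIndepFun_resC h hM hdM
  have h2 := hi.indepFun_finset (Finset.univ.image Sum.inl) (Finset.univ.image Sum.inr) (by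
    rw [Finset.disjoint_left]
    intro a ha hb
    simp only [Finset.mem_image, Finset.mem_univ, true_and] at ha hb
    obtain ⟨i, rfl⟩ := ha
    obtain ⟨k, hk⟩ := hb
    cases hk) (fun s => measurable_resC h (hM s))
  exact h2.comp
    (φ := fun (z : ↥(Finset.univ.image Sum.inl : Finset (ι ⊕ κ)) → Conf) (i : ι) =>
      isoC (σ i) (τ i) (z ⟨Sum.inl i, by simp⟩))
    (ψ := fun (z : ↥(Finset.univ.image Sum.inr : Finset (ι ⊕ κ)) → Conf) (k : κ) =>
      isoC (σ' k) (τ' k) (z ⟨Sum.inr k, by simp⟩))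
    (measurable_pi_iff.mpr fun i => (measurable_isoC _ _).comp (measurable_pi_apply _))
    (measurable_pi_iff.mpr fun k => (measurable_isoC _ _).comp (measurable_pi_apply _))

end

end H729
end P148
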