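import Vale.Agent.P148.R2.H729.Q4

/-!
# P148, module Q, part 6: the Mecke formula (one point, k points), null sets of k-tuples
-/

open MeasureTheory Set Metric Topology Filter ProbabilityTheory
open scoped ENNReal NNReal

set_option linter.unusedSectionVars false

namespace P148
namespace H729

theorem mean_poisson (r : ℝ≥0) : ∫⁻ n, (n : ℝ≥0∞) ∂poissonMeasure r = r := by
  rw [lintegral_countable', tsum_eq_zero_add' ENNReal.summable]
  have h1 : ∀ n : ℕ, ((n + 1 : ℕ) : ℝ≥0∞) * poissonMeasure r {n + 1} =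
      r * poissonMeasure r {n} := by
    intro n
    rw [poissonMeasure_singleton, poissonMeasure_singleton]
    have e1 : ((n + 1 : ℕ) : ℝ≥0∞) = ENNReal.ofReal ((n : ℝ) + 1) := by
      rw [← ENNReal.ofReal_natCast]
      push_cast
      rfl
    have e2 : (r : ℝ≥0∞) = ENNReal.ofReal (r : ℝ) := by simp
    rw [e1, e2, ← ENNReal.ofReal_mul (by positivity), ← ENNReal.ofReal_mul (by positivity)]
    congr 1
    rw [Nat.factorial_succ, pow_succ]
    push_cast
    have h3 : ((n : ℝ) + 1) ≠ 0 := by positivity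
    have h4 : ((n.factorial : ℕ) : ℝ) ≠ 0 := by positivity
    field_simp
  simp_rw [h1]
  rw [ENNReal.tsum_mul_left]
  have h2 : ∑' n : ℕ, poissonMeasure r {n} = 1 := by
    have := lintegral_countable' (μ := poissonMeasure r) (fun _ : ℕ => (1 : ℝ≥0∞))
    simp only [one_mul, lintegral_const, measure_univ] at this
    exact this.symm
  rw [h2]
  simp

section
variable {Ω : Type*} [MeasurableSpace Ω] {P : Measure Ω} {S : Ω → Set Pt} {lam : ℝ≥0}

theorem num_eq_ncard (h : IsColouredPoisson P S lam) {A : Set Pt} (hA : Bdd A) (ω : Ω) :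
    num A (S ω) = ((S ω ∩ A).ncard : ℝ≥0∞) := by
  unfold num
  rw [← (finite_inter h hA ω).cast_ncard_eq]
  simp

/-- The mean number of points. -/
theorem lintegral_num (h : IsColouredPoisson P S lam) {A : Set Pt} (hm : MeasurableSet A)
    (hA : Bdd A) : ∫⁻ ω, num A (S ω) ∂P = inten lam A := by
  simp_rw [num_eq_ncard h hA]
  have h1 : ∫⁻ ω, ((S ω ∩ A).ncard : ℝ≥0∞) ∂P =
      ∫⁻ n : ℕ, (n : ℝ≥0∞) ∂(P.map fun ω => (S ω ∩ A).ncard) :=
    (lintegral_map (f := fun n : ℕ => (n : ℝ≥0∞)) (measurable_of_countable _)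
      (h.meas A hm hA)).symm
  rw [h1, h.law A hm hA, mean_poisson, ENNReal.coe_toNNReal (inten_lt_top lam hA).ne]

/-- The mean number of points times a void indicator. -/
theorem lintegral_num_void [IsProbabilityMeasure P] (h : IsColouredPoisson P S lam)
    {A B : Set Pt} (hm : MeasurableSet A) (hA : Bdd A) (hmB : MeasurableSet B) (hB : Bdd B) :
    ∫⁻ ω, {ω | S ω ∩ B = ∅}.indicator (fun ω => num A (S ω)) ω ∂P =
      inten lam (A \ B) * P {ω | S ω ∩ B = ∅} := by
  have hA' : Bdd (A \ B) := bdd_mono sdiff_subset hA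
  have hmA' : MeasurableSet (A \ B) := hm.diff hmB
  have hind : IndepFun (fun ω => (S ω ∩ (A \ B)).ncard) (fun ω => (S ω ∩ B).ncard) P := by
    have h1 := h.indep 2 ![A \ B, B] (by
      intro i; fin_cases i
      · exact hmA'
      · exact hmB) (by
      intro i; fin_cases i
      · exact hA'
      · exact hB) (by
      intro i j hij
      fin_cases i <;> fin_cases j
      · exact absurd rfl hij
      · exact disjoint_sdiff_left
      · exact disjoint_sdiff_right
      · exact absurd rfl hij)
    exact h1.indepFun (i := 0) (j := 1) (by decide)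
  have hpt : ∀ ω, {ω | S ω ∩ B = ∅}.indicator (fun ω => num A (S ω)) ω =
      ((S ω ∩ (A \ B)).ncard : ℝ≥0∞) * (if (S ω ∩ B).ncard = 0 then 1 else 0) := by
    intro ω
    by_cases h0 : S ω ∩ B = ∅
    · rw [indicator_of_mem (show ω ∈ {ω | S ω ∩ B = ∅} from h0), if_pos (by rw [h0]; simp),
        mul_one, ← num_eq_ncard h hA']
      unfold num
      congr 2
      ext q
      simp only [mem_inter_iff, Set.mem_sdiff]
      refine ⟨fun hq => ⟨hq.1, hq.2, fun hqB => ?_⟩, fun hq => ⟨hq.1, hq.2.1⟩⟩
      exact (Set.eq_empty_iff_forall_notMem.mp h0) q ⟨hq.1, hqB⟩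
    · rw [indicator_of_notMem (show ω ∉ {ω | S ω ∩ B = ∅} from h0), if_neg, mul_zero]
      rwa [Set.ncard_eq_zero (finite_inter h hB ω)]
  simp_rw [hpt]
  have hmul := lintegral_mul_eq_lintegral_mul_lintegral_of_indepFun
    (μ := P) (f := fun ω => ((S ω ∩ (A \ B)).ncard : ℝ≥0∞))
    (g := fun ω => if (S ω ∩ B).ncard = 0 then (1 : ℝ≥0∞) else 0)
    ((measurable_of_countable (fun n : ℕ => (n : ℝ≥0∞))).comp (h.meas _ hmA' hA'))
    ((measurable_of_countable (fun n : ℕ => if n = 0 then (1 : ℝ≥0∞) else 0)).comp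
      (h.meas _ hmB hB))
    (hind.comp (φ := fun n : ℕ => (n : ℝ≥0∞)) (ψ := fun n : ℕ => if n = 0 then (1 : ℝ≥0∞) else 0)
      (measurable_of_countable _) (measurable_of_countable _))
  refine hmul.trans ?_
  congr 1
  · rw [← lintegral_num h hmA' hA']
    exact lintegral_congr fun ω => (num_eq_ncard h hA' ω).symm
  · have h2 : ∀ ω, (if (S ω ∩ B).ncard = 0 then (1 : ℝ≥0∞) else 0) =
        {ω | S ω ∩ B = ∅}.indicator (fun _ => (1 : ℝ≥0∞)) ω := by
      intro ω
      by_cases h0 : S ω ∩ B = ∅
      · rw [indicator_of_mem (show ω ∈ {ω | S ω ∩ B = ∅} from h0), if_pos (by rw [h0]; simp)]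
      · rw [indicator_of_notMem (show ω ∉ {ω | S ω ∩ B = ∅} from h0), if_neg]
        rwa [Set.ncard_eq_zero (finite_inter h hB ω)]
    simp_rw [h2]
    have hme : MeasurableSet {ω | S ω ∩ B = ∅} := by
      have := h.meas B hmB hB (measurableSet_singleton 0)
      convert this using 1
      ext ω
      simp only [mem_ofPred_eq, mem_preimage, mem_singleton_iff]
      rw [Set.ncard_eq_zero (finite_inter h hB ω)]
    rw [lintegral_indicator hme]
    simp

/-- The kernel of points: `ptK A T` is the counting measure on `T ∩ A`. -/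
noncomputable def ptK (A : Set Pt) (hm : MeasurableSet A) (hA : Bdd A) : Kernel Conf Pt :=
  (tupK A hm hA 1).map fun x => x 0

instance (A : Set Pt) (hm : MeasurableSet A) (hA : Bdd A) : IsSFiniteKernel (ptK A hm hA) := by
  unfold ptK
  infer_instance

/-- The void event, as a set of configurations. -/
def voidE (B : Set Pt) : Set Conf := {T : Set Pt | T ∩ B = ∅}

theorem measurableSet_voidE {B : Set Pt} (hm : MeasurableSet B) (hB : Bdd B) :
    MeasurableSet (voidE B) := measurableSet_voidEvent hm hB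

/-- Insertion of a point. -/
def ins (q : Pt) (T : Set Pt) : Set Pt := insert q T

theorem ins_inter {q : Pt} {T B : Set Pt} : ins q T ∩ B = ∅ ↔ q ∉ B ∧ T ∩ B = ∅ := by
  unfold ins
  constructor
  · intro h
    refine ⟨fun hq => ?_, ?_⟩
    · exact (Set.eq_empty_iff_forall_notMem.mp h) q ⟨mem_insert _ _, hq⟩
    · rw [Set.eq_empty_iff_forall_notMem] at h ⊢
      exact fun p hp => h p ⟨mem_insert_of_mem _ hp.1, hp.2⟩
  · rintro ⟨hq, h⟩
    rw [Set.eq_empty_iff_forall_notMem] at h ⊢
    rintro p ⟨hp | hp, hpB⟩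
    · exact hq (hp ▸ hpB)
    · exact h p ⟨hp, hpB⟩

theorem ptK_apply_aux {A : Set Pt} (hm : MeasurableSet A) (hA : Bdd A) (T : Conf) {W : Set Pt}
    (hW : MeasurableSet W) :
    ptK A hm hA T W = tupM A 1 T ((fun x : Fin 1 → Pt => x 0) ⁻¹' W) := by
  unfold ptK
  rw [Kernel.map_apply' _ (measurable_pi_apply 0) _ hW]
  rfl

theorem ptK_apply {A : Set Pt} (hm : MeasurableSet A) (hA : Bdd A) {T : Set Pt}
    (hT : (T ∩ A).Finite) {W : Set Pt} (hW : MeasurableSet W) :
    ptK A hm hA T W = num (A ∩ W) T := by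
  refine (ptK_apply_aux hm hA T hW).trans ?_
  have := tupM_pi (n := 1) hT (C := fun _ => W) fun _ => hW
  rw [Fin.prod_univ_one] at this
  rw [← this]
  congr 1
  ext x
  simp only [Set.mem_pi, mem_univ, mem_preimage, true_implies]
  constructor
  · intro hx i
    rw [Subsingleton.elim i 0]
    exact hx
  · intro hx
    exact hx 0

theorem ptK_eq {A : Set Pt} (hm : MeasurableSet A) (hA : Bdd A) {T : Set Pt}
    (hT : (T ∩ A).Finite) : ptK A hm hA T = Measure.count.restrict (T ∩ A) := by
  refine Measure.ext fun W hW => ?_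
  rw [Measure.restrict_apply hW, Measure.count_apply (hT.subset inter_subset_right).measurableSet]
  refine (ptK_apply hm hA hT hW).trans ?_
  unfold num
  congr 2
  ext q
  simp only [mem_inter_iff]
  tauto

/-- Insertion of a point is measurable. -/
theorem measurable_ins : @Measurable (Pt × Conf) Conf _ _ fun p => ins p.1 p.2 := by
  refine @measurable_void _ _ _ fun B hm hB => ?_
  have h1 := (measurable_fst (α := Pt) (β := Conf) hm.compl).inter
    (measurable_snd (α := Pt) (β := Conf) (measurableSet_voidE hm hB))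
  convert h1 using 1
  ext ⟨q, T⟩
  exact ins_inter

/-- The configuration as a random element of `Conf`. -/
def SC (S : Ω → Set Pt) : Ω → Conf := S

/-- The law of the configuration. -/
noncomputable def lawC (P : Measure Ω) (S : Ω → Set Pt) : Measure Conf := P.map (SC S)

theorem measurable_SC (h : IsColouredPoisson P S lam) : Measurable (SC S) :=
  h.measurable_self

theorem sFinite_inten (lam : ℝ≥0) : SFinite (inten lam) := by
  have : SFinite fair := by
    unfold fair
    infer_instance
  unfold inten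
  infer_instance

/-- The configuration with an added point. -/
def insMap (S : Ω → Set Pt) : Pt × Ω → Conf × Pt := fun p => (ins p.1 (S p.2), p.1)

theorem measurable_insMap (h : IsColouredPoisson P S lam) : Measurable (insMap S) := by
  have h1 : @Measurable (Pt × Ω) Conf _ _ fun p => ins p.1 (S p.2) :=
    measurable_ins.comp (measurable_fst.prodMk ((measurable_SC h).comp measurable_snd))
  exact h1.prodMk measurable_fst

/-- **Mecke formula** in a bounded window, on the level of measures. -/
theorem mecke_measure [IsProbabilityMeasure P] (h : IsColouredPoisson P S lam)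
    {A : Set Pt} (hm : MeasurableSet A) (hA : Bdd A) :
    (lawC P S) ⊗ₘ (ptK A hm hA) = (((inten lam).restrict A).prod P).map (insMap S) := by
  have := sFinite_inten lam
  have hS := measurable_SC h
  have : IsProbabilityMeasure (lawC P S) := Measure.isProbabilityMeasure_map hS.aemeasurable
  have hmap := measurable_insMap h
  -- values on rectangles
  have hL : ∀ (B W : Set Pt), MeasurableSet B → Bdd B → MeasurableSet W →
      ((lawC P S) ⊗ₘ (ptK A hm hA)) (voidE B ×ˢ W) =
        inten lam ((A ∩ W) \ B) * P {ω | S ω ∩ B = ∅} := by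
    intro B W hmB hB hW
    have hE := measurableSet_voidE hmB hB
    rw [Measure.compProd_apply_prod hE hW, ← lintegral_indicator hE]
    have hK : Measurable fun T : Conf => ptK A hm hA T W := Kernel.measurable_coe _ hW
    unfold lawC
    rw [lintegral_map (hK.indicator hE) hS, ← lintegral_num_void h (hm.inter hW)
      (bdd_mono inter_subset_left hA) hmB hB]
    refine lintegral_congr fun ω => ?_
    by_cases h0 : S ω ∩ B = ∅
    · rw [indicator_of_mem (show ω ∈ {ω | S ω ∩ B = ∅} from h0),
        indicator_of_mem (show SC S ω ∈ voidE B from h0)]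
      exact ptK_apply hm hA (finite_inter h hA ω) hW
    · rw [indicator_of_notMem (show ω ∉ {ω | S ω ∩ B = ∅} from h0),
        indicator_of_notMem (show SC S ω ∉ voidE B from h0)]
  have hR : ∀ (B W : Set Pt), MeasurableSet B → Bdd B → MeasurableSet W →
      ((((inten lam).restrict A).prod P).map (insMap S)) (voidE B ×ˢ W) =
        inten lam ((A ∩ W) \ B) * P {ω | S ω ∩ B = ∅} := by
    intro B W hmB hB hW
    have hE := measurableSet_voidE hmB hB
    rw [Measure.map_apply hmap (hE.prod hW)]
    have hpre : insMap S ⁻¹' (voidE B ×ˢ W) = (W \ B) ×ˢ {ω | S ω ∩ B = ∅} := by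
      ext ⟨q, ω⟩
      show (ins q (S ω) ∩ B = ∅ ∧ q ∈ W) ↔ ((q ∈ W ∧ q ∉ B) ∧ S ω ∩ B = ∅)
      rw [ins_inter]
      tauto
    rw [hpre, Measure.prod_prod, Measure.restrict_apply (hW.diff hmB)]
    congr 2
    ext q
    simp only [mem_inter_iff, Set.mem_sdiff]
    tauto
  have hv : voidE ∅ = univ := by
    ext T
    refine ⟨fun _ => mem_univ _, fun _ => ?_⟩
    exact Set.inter_empty (show Set Pt from T)
  have huniv : (univ : Set (Conf × Pt)) = voidE ∅ ×ˢ (univ : Set Pt) := by
    rw [hv, Set.univ_prod_univ]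
  have hbe : Bdd (∅ : Set Pt) := ⟨0, empty_subset _⟩
  have : IsFiniteMeasure ((lawC P S) ⊗ₘ (ptK A hm hA)) := by
    refine ⟨?_⟩
    rw [huniv, hL ∅ univ MeasurableSet.empty hbe MeasurableSet.univ]
    refine ENNReal.mul_lt_top ?_ (measure_lt_top _ _)
    exact inten_lt_top lam (bdd_mono (sdiff_subset.trans inter_subset_left) hA)
  have hcs1 : IsCountablySpanning (show Set (Set Conf) from voids) := by
    refine ⟨fun _ => voidE ∅, fun _ => ⟨∅, MeasurableSet.empty, hbe, rfl⟩, ?_⟩
    rw [iUnion_const, hv]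
  refine ext_of_generate_finite
    (image2 (· ×ˢ ·) (show Set (Set Conf) from voids) {W : Set Pt | MeasurableSet W})
    (generateFrom_eq_prod rfl MeasurableSpace.generateFrom_measurableSet hcs1
      isCountablySpanning_measurableSet).symm
    (isPiSystem_voids.prod MeasurableSpace.isPiSystem_measurableSet) ?_ ?_
  · rintro _ ⟨_, ⟨B, hmB, hB, rfl⟩, W, hW, rfl⟩
    exact (hL B W hmB hB hW).trans (hR B W hmB hB hW).symm
  · rw [huniv, hL ∅ univ MeasurableSet.empty hbe MeasurableSet.univ,
      hR ∅ univ MeasurableSet.empty hbe MeasurableSet.univ]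

/-- **Mecke formula** in a bounded window. -/
theorem mecke_window [IsProbabilityMeasure P] (h : IsColouredPoisson P S lam)
    {A : Set Pt} (hm : MeasurableSet A) (hA : Bdd A) {f : Conf × Pt → ℝ≥0∞} (hf : Measurable f) :
    ∫⁻ ω, ∫⁻ q in S ω ∩ A, f (S ω, q) ∂Measure.count ∂P =
      ∫⁻ q in A, ∫⁻ ω, f (ins q (S ω), q) ∂P ∂inten lam := by
  have := sFinite_inten lam
  have hS := measurable_SC h
  have : IsProbabilityMeasure (lawC P S) := Measure.isProbabilityMeasure_map hS.aemeasurable
  have h1 : ∫⁻ p, f p ∂((lawC P S) ⊗ₘ (ptK A hm hA)) =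
      ∫⁻ ω, ∫⁻ q in S ω ∩ A, f (S ω, q) ∂Measure.count ∂P := by
    rw [Measure.lintegral_compProd hf]
    unfold lawC
    rw [lintegral_map hf.lintegral_kernel_prod_right' hS]
    refine lintegral_congr fun ω => ?_
    have := ptK_eq hm hA (finite_inter h hA ω)
    show ∫⁻ q, f (SC S ω, q) ∂(ptK A hm hA (S ω)) = _
    rw [this]
    rfl
  rw [← h1, mecke_measure h hm hA, lintegral_map hf (measurable_insMap h), lintegral_prod]
  · rfl
  · exact (hf.comp (measurable_insMap h)).aemeasurable

end

end H729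
end P148
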