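import Vale.Agent.P148.R2.H729.Q6

/-!
# P148, module Q, part 7: the Mecke formula for `k` points, null sets of `k`-tuples
-/

open MeasureTheory Set Metric Topology Filter ProbabilityTheory
open scoped ENNReal NNReal

set_option linter.unusedSectionVars false

namespace P148
namespace H729

instance : IsFiniteMeasure fair := by
  unfold fair
  refine ⟨?_⟩
  rw [Measure.smul_apply]
  exact ENNReal.mul_lt_top (by simp) (by simp)

instance (lam : ℝ≥0) : SigmaFinite (inten lam) := by
  unfold inten
  infer_instance

instance (lam : ℝ≥0) : NullSingletonClass (inten lam) := by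
  refine ⟨fun q => ?_⟩
  have h1 : ({q} : Set Pt) = {q.1} ×ˢ {q.2} := by
    ext p
    simp only [mem_singleton_iff, mem_prod, Prod.ext_iff]
  unfold inten
  rw [Measure.smul_apply, h1, Measure.prod_prod, measure_singleton]
  simp

instance (lam : ℝ≥0) (A : Set Pt) : NullSingletonClass ((inten lam).restrict A) := by
  refine ⟨fun q => ?_⟩
  exact le_antisymm ((Measure.restrict_apply_le A {q}).trans (measure_singleton q).le) bot_le

theorem tupM_eq_pi {A T : Set Pt} (n : ℕ) (h : (T ∩ A).Finite) :
    tupM A n T = Measure.pi fun _ : Fin n => Measure.count.restrict (T ∩ A) := by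
  have hfin : IsFiniteMeasure (Measure.count.restrict (T ∩ A)) := by
    refine ⟨?_⟩
    rw [Measure.restrict_apply_univ, Measure.count_apply h.measurableSet]
    exact_mod_cast ENat.toENNReal_lt.mpr h.encard_lt_top
  refine (Measure.pi_eq fun C hC => ?_).symm
  rw [tupM_pi h hC]
  refine Finset.prod_congr rfl fun i _ => ?_
  rw [Measure.restrict_apply (hC i), Measure.count_apply (h.subset inter_subset_right).measurableSet]
  unfold num
  congr 2
  ext q
  simp only [mem_inter_iff]
  tauto

theorem lintegral_pi_succ {X : Type} [MeasurableSpace X] (μ : Measure X) [SigmaFinite μ] (n : ℕ)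
    {f : (Fin (n + 1) → X) → ℝ≥0∞} (hf : Measurable f) :
    ∫⁻ x, f x ∂(Measure.pi fun _ : Fin (n + 1) => μ) =
      ∫⁻ q, ∫⁻ x, f (Fin.cons q x) ∂(Measure.pi fun _ : Fin n => μ) ∂μ := by
  have h1 := (measurePreserving_piFinSuccAbove (fun _ : Fin (n + 1) => μ) 0).symm
  rw [← h1.lintegral_comp hf, lintegral_prod]
  · refine lintegral_congr fun q => lintegral_congr fun x => ?_
    have e : (MeasurableEquiv.piFinSuccAbove (fun _ : Fin (n + 1) => X) 0).symm (q, x) =
        Fin.cons q x := by
      show (Fin.insertNth (α := fun _ => X) 0 q x : Fin (n + 1) → X) = _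
      exact Fin.insertNth_zero' (β := X) q x
    rw [e]
  · exact (hf.comp h1.measurable).aemeasurable

theorem lintegral_tupM_succ {A T : Set Pt} (n : ℕ) (h : (T ∩ A).Finite)
    {f : (Fin (n + 1) → Pt) → ℝ≥0∞} (hf : Measurable f) :
    ∫⁻ x, f x ∂tupM A (n + 1) T =
      ∫⁻ q in T ∩ A, ∫⁻ x, f (Fin.cons q x) ∂tupM A n T ∂Measure.count := by
  have hfin : IsFiniteMeasure (Measure.count.restrict (T ∩ A)) := by
    refine ⟨?_⟩
    rw [Measure.restrict_apply_univ, Measure.count_apply h.measurableSet]
    exact_mod_cast ENat.toENNReal_lt.mpr h.encard_lt_top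
  rw [tupM_eq_pi _ h, tupM_eq_pi _ h]
  exact lintegral_pi_succ _ n hf

/-- Adding the points of a tuple to a configuration. -/
def addT {n : ℕ} (x : Fin n → Pt) (T : Set Pt) : Set Pt := T ∪ range x

theorem measurable_addT (n : ℕ) :
    @Measurable ((Fin n → Pt) × Conf) Conf _ _ fun p => addT p.1 p.2 := by
  refine @measurable_void _ _ _ fun B hm hB => ?_
  have h0 : MeasurableSet (Set.pi univ fun _ : Fin n => Bᶜ) :=
    MeasurableSet.univ_pi fun _ => hm.compl
  have h1 := (measurable_fst (α := Fin n → Pt) (β := Conf) h0).inter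
    (measurable_snd (α := Fin n → Pt) (β := Conf) (measurableSet_voidE hm hB))
  convert h1 using 1
  ext ⟨x, T⟩
  have key : ∀ T : Set Pt, (T ∪ range x) ∩ B = ∅ ↔
      (x ∈ Set.pi univ fun _ : Fin n => Bᶜ) ∧ T ∩ B = ∅ := by
    intro T
    rw [Set.union_inter_distrib_right, Set.union_empty_iff, and_comm]
    refine and_congr_left fun _ => ?_
    simp only [Set.mem_pi, mem_univ, mem_compl_iff, true_implies]
    rw [Set.eq_empty_iff_forall_notMem]
    constructor
    · intro h i hi
      exact h (x i) ⟨mem_range_self i, hi⟩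
    · rintro h _ ⟨⟨i, rfl⟩, hq⟩
      exact h i hq
  exact key T

theorem addT_zero (x : Fin 0 → Pt) (T : Set Pt) : addT x T = T := by
  unfold addT
  rw [Set.range_eq_empty, Set.union_empty]

theorem addT_cons {n : ℕ} (q : Pt) (x : Fin n → Pt) (T : Set Pt) :
    addT (Fin.cons q x : Fin (n + 1) → Pt) T = ins q (addT x T) := by
  unfold addT ins
  have : range (Fin.cons q x : Fin (n + 1) → Pt) = insert q (range x) := Fin.range_cons q x
  rw [this, Set.union_insert]

/-- The tuples which avoid `q`. -/
def avoid (n : ℕ) (q : Pt) : Set (Fin n → Pt) := {x | ∀ i, x i ≠ q}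

theorem measurableSet_avoid (n : ℕ) : MeasurableSet {p : Pt × (Fin n → Pt) | p.2 ∈ avoid n p.1} := by
  have : {p : Pt × (Fin n → Pt) | p.2 ∈ avoid n p.1} = ⋂ i : Fin n, {p | p.2 i = p.1}ᶜ := by
    ext p
    simp only [avoid, mem_ofPred_eq, mem_iInter, mem_compl_iff]
  rw [this]
  refine MeasurableSet.iInter fun i => ?_
  exact (measurableSet_eq_fun (f := fun p : Pt × (Fin n → Pt) => p.2 i) (g := fun p => p.1)
    ((measurable_pi_apply i).comp measurable_snd) measurable_fst).compl

theorem injective_cons_iff {n : ℕ} (q : Pt) (x : Fin n → Pt) :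
    Function.Injective (Fin.cons q x : Fin (n + 1) → Pt) ↔ Function.Injective x ∧ x ∈ avoid n q := by
  rw [Fin.cons_injective_iff, and_comm]
  refine and_congr_right fun _ => ?_
  unfold avoid
  simp only [mem_range, not_exists, mem_ofPred_eq]

theorem tupM_ins {A T : Set Pt} (n : ℕ) (q : Pt) (hT : (T ∩ A).Finite) {g : (Fin n → Pt) → ℝ≥0∞}
    (hg : ∀ x, x ∉ avoid n q → g x = 0) :
    ∫⁻ x, g x ∂tupM A n (ins q T) = ∫⁻ x, g x ∂tupM A n T := by
  have hT' : (ins q T ∩ A).Finite := by
    unfold ins
    refine (hT.insert q).subset ?_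
    rintro p ⟨hp | hp, hpA⟩
    · exact Or.inl hp
    · exact Or.inr ⟨hp, hpA⟩
  have hav : MeasurableSet (avoid n q) := by
    have := measurable_prodMk_left (x := q) (measurableSet_avoid n)
    exact this
  have key : ∀ U : Set Pt, (U ∩ A).Finite → ∫⁻ x, g x ∂tupM A n U =
      ∫⁻ x in avoid n q ∩ Set.pi univ (fun _ => U ∩ A), g x ∂Measure.count := by
    intro U hU
    rw [tupM_of_finite n hU, ← Measure.restrict_restrict hav, ← lintegral_indicator hav]
    refine lintegral_congr fun x => ?_
    by_cases hx : x ∈ avoid n q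
    · rw [indicator_of_mem hx]
    · rw [indicator_of_notMem hx, hg x hx]
  rw [key _ hT', key _ hT]
  have : avoid n q ∩ Set.pi univ (fun _ => ins q T ∩ A) =
      avoid n q ∩ Set.pi univ (fun _ => T ∩ A) := by
    ext x
    simp only [mem_inter_iff, Set.mem_pi, mem_univ, true_implies]
    refine and_congr_right fun hx => forall_congr' fun i => ?_
    unfold ins
    rw [mem_insert_iff]
    have : x i ≠ q := hx i
    tauto
  rw [this]

section
variable {Ω : Type*} [MeasurableSpace Ω] {P : Measure Ω} {S : Ω → Set Pt} {lam : ℝ≥0}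

/-- **Mecke formula for `n` points** in a bounded window: the sum over `n`-tuples of distinct
points of `S ∩ A`. -/
theorem mecke_tuple [IsProbabilityMeasure P] (h : IsColouredPoisson P S lam)
    {A : Set Pt} (hm : MeasurableSet A) (hA : Bdd A) (n : ℕ) :
    ∀ {f : Conf × (Fin n → Pt) → ℝ≥0∞}, Measurable f →
    ∫⁻ ω, ∫⁻ x, {x | Function.Injective x}.indicator (fun x => f (S ω, x)) x ∂tupM A n (S ω) ∂P =
      ∫⁻ x, ∫⁻ ω, f (addT x (S ω), x) ∂P ∂(Measure.pi fun _ : Fin n => (inten lam).restrict A) := by
  classical
  have hS := measurable_SC h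
  induction n with
  | zero =>
    intro f hf
    have h1 : ∀ ω, tupM A 0 (S ω) = Measure.dirac (fun i => i.elim0) := by
      intro ω
      rw [tupM_eq_pi _ (finite_inter h hA ω)]
      exact Measure.pi_of_empty _ _
    have h2 : (Measure.pi fun _ : Fin 0 => (inten lam).restrict A) =
        Measure.dirac (fun i => i.elim0) := Measure.pi_of_empty _ _
    rw [h2]
    simp_rw [h1]
    rw [lintegral_dirac]
    refine lintegral_congr fun ω => ?_
    rw [lintegral_dirac, indicator_of_mem (show _ ∈ {x : Fin 0 → Pt | Function.Injective x} from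
      fun i => i.elim0), addT_zero]
  | succ n ih =>
    intro f hf
    -- the function after splitting off the first point
    set F : (Pt × Conf) × (Fin n → Pt) → ℝ≥0∞ := fun p =>
      if Function.Injective p.2 ∧ p.2 ∈ avoid n p.1.1 then
        f (p.1.2, (Fin.cons p.1.1 p.2 : Fin (n + 1) → Pt)) else 0 with hF
    have hcons : Measurable fun p : (Pt × Conf) × (Fin n → Pt) =>
        (Fin.cons p.1.1 p.2 : Fin (n + 1) → Pt) := by
      refine measurable_pi_iff.mpr fun i => ?_
      refine Fin.cases ?_ (fun j => ?_) i
      · exact measurable_fst.comp measurable_fst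
      · exact (measurable_pi_apply j).comp measurable_snd
    have hset : MeasurableSet {p : (Pt × Conf) × (Fin n → Pt) |
        Function.Injective p.2 ∧ p.2 ∈ avoid n p.1.1} := by
      have h1 : MeasurableSet ((fun p : (Pt × Conf) × (Fin n → Pt) => p.2) ⁻¹'
        {x : Fin n → Pt | Function.Injective x}) := measurable_snd (measurableSet_injective n)
      have h2 : MeasurableSet ((fun p : (Pt × Conf) × (Fin n → Pt) => (p.1.1, p.2)) ⁻¹'
        {p : Pt × (Fin n → Pt) | p.2 ∈ avoid n p.1}) :=
        ((measurable_fst.comp measurable_fst).prodMk measurable_snd) (measurableSet_avoid n)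
      exact h1.inter h2
    have hFm : Measurable F :=
      Measurable.ite hset (hf.comp ((measurable_snd.comp measurable_fst).prodMk hcons))
        measurable_const
    have hG : Measurable fun p : Conf × Pt => ∫⁻ x, F ((p.2, p.1), x) ∂tupM A n p.1 :=
      (measurable_lintegral_tupM (Y := Pt) hm hA n hFm).comp measurable_swap
    have hfS : ∀ T : Conf, Measurable fun x : Fin (n + 1) → Pt => f (T, x) := fun T =>
      hf.comp measurable_prodMk_left
    have e1 : ∀ ω, ∫⁻ x, {x | Function.Injective x}.indicator (fun x => f (S ω, x)) x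
        ∂tupM A (n + 1) (S ω) =
        ∫⁻ q in S ω ∩ A, (fun p : Conf × Pt => ∫⁻ x, F ((p.2, p.1), x) ∂tupM A n p.1) (S ω, q)
          ∂Measure.count := by
      intro ω
      rw [lintegral_tupM_succ n (finite_inter h hA ω)
        ((hfS (S ω)).indicator (measurableSet_injective (n + 1)))]
      refine lintegral_congr fun q => lintegral_congr fun x => ?_
      by_cases hx : Function.Injective x ∧ x ∈ avoid n q
      · rw [indicator_of_mem (show _ ∈ {x : Fin (n + 1) → Pt | Function.Injective x} from
          (injective_cons_iff q x).mpr hx)]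
        exact (if_pos hx).symm
      · rw [indicator_of_notMem (show _ ∉ {x : Fin (n + 1) → Pt | Function.Injective x} from
          fun h' => hx ((injective_cons_iff q x).mp h'))]
        exact (if_neg hx).symm
    simp_rw [e1]
    rw [mecke_window h hm hA hG]
    -- the right hand side
    have hRm : Measurable fun x : Fin (n + 1) → Pt => ∫⁻ ω, f (addT x (S ω), x) ∂P := by
      have h1 : @Measurable ((Fin (n + 1) → Pt) × Ω) Conf _ _ fun p => addT p.1 (S p.2) :=
        (measurable_addT (n + 1)).comp (measurable_fst.prodMk (hS.comp measurable_snd))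
      exact (hf.comp (h1.prodMk measurable_fst)).lintegral_prod_right'
    rw [lintegral_pi_succ _ n hRm]
    refine lintegral_congr fun q => ?_
    -- apply the induction hypothesis
    have hins : @Measurable Conf Conf _ _ fun T => ins q T :=
      measurable_ins.comp (measurable_const.prodMk measurable_id)
    have hcons' : Measurable fun x : Fin n → Pt => (Fin.cons q x : Fin (n + 1) → Pt) := by
      refine measurable_pi_iff.mpr fun i => ?_
      refine Fin.cases ?_ (fun j => ?_) i
      · exact measurable_const
      · exact measurable_pi_apply j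
    have hav : MeasurableSet (avoid n q) := measurable_prodMk_left (x := q) (measurableSet_avoid n)
    set fq : Conf × (Fin n → Pt) → ℝ≥0∞ := fun p =>
      if p.2 ∈ avoid n q then f (ins q p.1, (Fin.cons q p.2 : Fin (n + 1) → Pt)) else 0 with hfq
    have hfqm : Measurable fq := by
      refine Measurable.ite (measurable_snd hav) ?_ measurable_const
      exact hf.comp ((hins.comp measurable_fst).prodMk (hcons'.comp measurable_snd))
    have e2 : ∀ ω, ∫⁻ x, F ((q, (ins q (S ω) : Set Pt)), x) ∂tupM A n (ins q (S ω)) =
        ∫⁻ x, {x | Function.Injective x}.indicator (fun x => fq (S ω, x)) x ∂tupM A n (S ω) := by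
      intro ω
      rw [tupM_ins n q (finite_inter h hA ω)]
      · refine lintegral_congr fun x => ?_
        by_cases hx : Function.Injective x
        · rw [indicator_of_mem (show x ∈ {x : Fin n → Pt | Function.Injective x} from hx)]
          by_cases hx' : x ∈ avoid n q
          · exact (if_pos ⟨hx, hx'⟩).trans (if_pos hx').symm
          · exact (if_neg fun h' => hx' h'.2).trans (if_neg hx').symm
        · rw [indicator_of_notMem (show x ∉ {x : Fin n → Pt | Function.Injective x} from hx)]
          exact if_neg fun h' => hx h'.1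
      · intro x hx
        exact if_neg fun h' => hx h'.2
    calc ∫⁻ ω, ∫⁻ x, F ((q, (ins q (S ω) : Set Pt)), x) ∂tupM A n (ins q (S ω)) ∂P
        = ∫⁻ ω, ∫⁻ x, {x | Function.Injective x}.indicator (fun x => fq (S ω, x)) x
            ∂tupM A n (S ω) ∂P := lintegral_congr e2
      _ = ∫⁻ x, ∫⁻ ω, fq (addT x (S ω), x) ∂P
            ∂(Measure.pi fun _ : Fin n => (inten lam).restrict A) := ih hfqm
      _ = _ := by
        refine lintegral_congr_ae ?_
        have hae : ∀ᵐ x ∂(Measure.pi fun _ : Fin n => (inten lam).restrict A), x ∈ avoid n q :=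
          ae_all_iff.mpr fun i => Measure.ae_eval_ne (α := fun _ : Fin n => Pt) _ i q
        filter_upwards [hae] with x hx
        refine lintegral_congr fun ω => ?_
        rw [addT_cons]
        exact if_pos hx

end

end H729
end P148
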