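import Vale.Agent.P148.R2.H729.Q7

/-!
# P148, module Q, part 8: general position of the Poisson points
-/

open MeasureTheory Set Metric Topology Filter ProbabilityTheory
open scoped ENNReal NNReal

set_option linter.unusedSectionVars false

namespace P148
namespace H729

/-- The window over the ball of radius `r`. -/
def wball (r : ℝ) : Set Pt := ball (0 : ℂ) r ×ˢ univ

theorem measurableSet_wball (r : ℝ) : MeasurableSet (wball r) :=
  measurableSet_ball.prod MeasurableSet.univ

theorem bdd_wball (r : ℝ) : Bdd (wball r) := ⟨r, subset_rfl⟩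

section
variable {Ω : Type*} [MeasurableSpace Ω] {P : Measure Ω} {S : Ω → Set Pt} {lam : ℝ≥0}

/-- **Null sets of `n`-tuples**: almost surely no `n`-tuple of distinct points of the process lies
in a given null set. -/
theorem ae_no_tuple [IsProbabilityMeasure P] (h : IsColouredPoisson P S lam) (n : ℕ)
    {F : Set (Fin n → Pt)} (hF : MeasurableSet F)
    (h0 : (Measure.pi fun _ : Fin n => inten lam) F = 0) :
    ∀ᵐ ω ∂P, ∀ x : Fin n → Pt, Function.Injective x → (∀ i, x i ∈ S ω) → x ∉ F := by
  classical
  have hS := measurable_SC h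
  have key : ∀ r : ℕ, ∀ᵐ ω ∂P, ∀ x : Fin n → Pt, Function.Injective x →
      (∀ i, x i ∈ S ω ∩ wball r) → x ∉ F := by
    intro r
    have hm := measurableSet_wball r
    have hA := bdd_wball r
    set f : Conf × (Fin n → Pt) → ℝ≥0∞ := fun p => F.indicator (fun _ => 1) p.2 with hf
    have hfm : Measurable f := (measurable_const.indicator hF).comp measurable_snd
    have h1 := mecke_tuple h hm hA n hfm
    have h2 : ∫⁻ x, ∫⁻ ω, f (addT x (S ω), x) ∂P
        ∂(Measure.pi fun _ : Fin n => (inten lam).restrict (wball r)) = 0 := by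
      simp only [hf, lintegral_const, measure_univ, mul_one]
      rw [lintegral_indicator hF, ← Measure.restrict_pi_pi]
      simp only [lintegral_const, MeasurableSet.univ, Measure.restrict_apply, univ_inter, one_mul]
      exact le_antisymm ((Measure.restrict_apply_le _ _).trans h0.le) bot_le
    rw [h2] at h1
    set g : Ω → ℝ≥0∞ := fun ω => ∫⁻ x, {x | Function.Injective x}.indicator
      (fun x => f (S ω, x)) x ∂tupM (wball r) n (S ω) with hg
    have hgm : Measurable g := by
      have hFm : Measurable fun p : (Unit × Conf) × (Fin n → Pt) =>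
          {x : Fin n → Pt | Function.Injective x}.indicator (fun x => f (p.1.2, x)) p.2 := by
        have : (fun p : (Unit × Conf) × (Fin n → Pt) =>
          {x : Fin n → Pt | Function.Injective x}.indicator (fun x => f (p.1.2, x)) p.2) =
          fun p => ({x : Fin n → Pt | Function.Injective x}.indicator
            (F.indicator fun _ => (1 : ℝ≥0∞))) p.2 := rfl
        rw [this]
        exact ((measurable_const.indicator hF).indicator (measurableSet_injective n)).comp
          measurable_snd
      have h3 := measurable_lintegral_tupM (Y := Unit) hm hA n hFm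
      exact h3.comp ((measurable_const (a := ())).prodMk hS)
    have h4 : g =ᵐ[P] 0 := (lintegral_eq_zero_iff hgm).mp h1
    filter_upwards [h4] with ω hω x hx hxS hxF
    have hω' : ∫⁻ x, {x | Function.Injective x}.indicator
      (fun x => f (S ω, x)) x ∂tupM (wball r) n (S ω) = 0 := hω
    have hfin := finite_inter h hA ω
    have h5 : (fun x : Fin n → Pt => {x | Function.Injective x}.indicator
        (fun x => f (S ω, x)) x) = ({x | Function.Injective x} ∩ F).indicator fun _ => 1 := by
      funext y
      simp only [hf]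
      rw [← Set.indicator_indicator]
    rw [h5, lintegral_indicator ((measurableSet_injective n).inter hF)] at hω'
    simp only [lintegral_const, MeasurableSet.univ, Measure.restrict_apply, univ_inter,
      one_mul] at hω'
    rw [tupM_apply hfin ((measurableSet_injective n).inter hF)] at hω'
    have h6 : (({x : Fin n → Pt | Function.Injective x} ∩ F ∩
        Set.pi univ fun _ => S ω ∩ wball r)).encard = 0 := by
      exact_mod_cast hω'
    rw [Set.encard_eq_zero] at h6
    exact (Set.eq_empty_iff_forall_notMem.mp h6) x ⟨⟨hx, hxF⟩, fun i _ => hxS i⟩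
  rw [← ae_all_iff] at key
  filter_upwards [key] with ω hω x hx hxS
  obtain ⟨r, hr⟩ : ∃ r : ℕ, ∀ i, ‖(x i).1‖ < r := by
    have : ∀ i, ∃ r : ℕ, ‖(x i).1‖ < r := fun i => exists_nat_gt _
    choose ρ hρ using this
    refine ⟨∑ i, ρ i, fun i => (hρ i).trans_le ?_⟩
    exact_mod_cast Finset.single_le_sum (fun j _ => Nat.zero_le (ρ j)) (Finset.mem_univ i)
  refine hω r x hx fun i => ⟨hxS i, ?_, mem_univ _⟩
  rw [mem_ball_zero_iff]
  exact hr i

theorem fair_univ : fair univ = 1 := by
  rw [fair_apply, Set.encard_univ, ENat.card_eq_coe_fintype_card]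
  simp only [Fintype.card_bool]
  push_cast
  exact ENNReal.inv_mul_cancel two_ne_zero ENNReal.ofNat_ne_top

theorem measurePreserving_fst_inten (lam : ℝ≥0) :
    MeasurePreserving (Prod.fst : Pt → ℂ) (inten lam) (lam • (volume : Measure ℂ)) := by
  refine ⟨measurable_fst, ?_⟩
  refine Measure.ext fun A hA => ?_
  rw [Measure.map_apply measurable_fst hA]
  have : (Prod.fst : Pt → ℂ) ⁻¹' A = A ×ˢ univ := by
    ext p; simp
  rw [this]
  unfold inten
  rw [Measure.smul_apply, Measure.smul_apply, Measure.prod_prod, fair_univ, mul_one]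

theorem pi_smul_volume (lam : ℝ≥0) (n : ℕ) :
    (Measure.pi fun _ : Fin n => lam • (volume : Measure ℂ)) =
      (lam ^ n) • (volume : Measure (Fin n → ℂ)) := by
  refine Measure.pi_eq fun C hC => ?_
  rw [Measure.smul_apply, volume_pi_pi]
  simp only [Measure.smul_apply]
  simp only [ENNReal.smul_def, smul_eq_mul]
  rw [Finset.prod_mul_distrib, Finset.prod_const, Finset.card_univ, Fintype.card_fin]
  push_cast
  rfl

/-- Almost surely no `n`-tuple of distinct positions lies in a given Lebesgue null set. -/
theorem ae_no_pts [IsProbabilityMeasure P] (h : IsColouredPoisson P S lam) (n : ℕ)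
    {F : Set (Fin n → ℂ)} (hF : MeasurableSet F) (h0 : volume F = 0) :
    ∀ᵐ ω ∂P, ∀ z : Fin n → ℂ, Function.Injective z → (∀ i, z i ∈ pts (S ω)) → z ∉ F := by
  have hmp : MeasurePreserving (fun (x : Fin n → Pt) i => (x i).1)
      (Measure.pi fun _ : Fin n => inten lam)
      (Measure.pi fun _ : Fin n => lam • (volume : Measure ℂ)) :=
    measurePreserving_pi _ _ fun _ => measurePreserving_fst_inten lam
  have h1 : (Measure.pi fun _ : Fin n => inten lam)
      ((fun (x : Fin n → Pt) i => (x i).1) ⁻¹' F) = 0 := by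
    rw [hmp.measure_preimage hF.nullMeasurableSet, pi_smul_volume, Measure.smul_apply, h0]
    simp
  filter_upwards [ae_no_tuple h n (hmp.measurable hF) h1] with ω hω z hz hzS hzF
  choose q hq hqz using hzS
  refine hω q (fun i j hij => hz ?_) hq ?_
  · rw [← hqz i, ← hqz j, hij]
  · show (fun i => (q i).1) ∈ F
    have : (fun i => (q i).1) = z := funext hqz
    rw [this]
    exact hzF

/-- Almost surely no further point lies in a null set attached to `n` distinct points. -/
theorem ae_no_special [IsProbabilityMeasure P] (h : IsColouredPoisson P S lam) (n : ℕ)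
    {G : Set ((Fin n → ℂ) × ℂ)} (hG : MeasurableSet G)
    (h0 : ∀ x, volume {z : ℂ | (x, z) ∈ G} = 0) :
    ∀ᵐ ω ∂P, ∀ x : Fin n → ℂ, Function.Injective x → (∀ i, x i ∈ pts (S ω)) →
      ∀ z ∈ pts (S ω), z ∉ range x → (x, z) ∉ G := by
  have e := volume_preserving_piFinSuccAbove (fun _ : Fin (n + 1) => ℂ) 0
  set F : Set (Fin (n + 1) → ℂ) :=
    (MeasurableEquiv.piFinSuccAbove (fun _ : Fin (n + 1) => ℂ) 0) ⁻¹' (Prod.swap ⁻¹' G) with hF
  have hFm : MeasurableSet F := e.measurable (measurable_swap hG)
  have hF0 : volume F = 0 := by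
    rw [hF, e.measure_preimage (measurable_swap hG).nullMeasurableSet]
    have h2 : (volume : Measure (ℂ × (Fin n → ℂ))) (Prod.swap ⁻¹' G) =
        (volume : Measure ((Fin n → ℂ) × ℂ)) G :=
      (Measure.measurePreserving_swap (μ := (volume : Measure ℂ))
        (ν := (volume : Measure (Fin n → ℂ)))).measure_preimage hG.nullMeasurableSet
    have h3 : (volume : Measure ((Fin n → ℂ) × ℂ)) G = 0 := by
      refine (Measure.measure_prod_null hG).mpr ?_
      exact Eventually.of_forall fun x => h0 x
    exact h2.trans h3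
  filter_upwards [ae_no_pts h (n + 1) hFm hF0] with ω hω x hx hxS z hz hzx hG'
  refine hω (Fin.cons z x) ?_ ?_ ?_
  · rw [Fin.cons_injective_iff]
    exact ⟨hzx, hx⟩
  · refine Fin.cases ?_ fun i => ?_
    · exact hz
    · exact hxS i
  · show (MeasurableEquiv.piFinSuccAbove (fun _ : Fin (n + 1) => ℂ) 0) (Fin.cons z x) ∈
      Prod.swap ⁻¹' G
    have e2 : (MeasurableEquiv.piFinSuccAbove (fun _ : Fin (n + 1) => ℂ) 0)
        (Fin.cons z x : Fin (n + 1) → ℂ) = (z, x) := by
      have e3 : (MeasurableEquiv.piFinSuccAbove (fun _ : Fin (n + 1) => ℂ) 0).symm (z, x) =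
          Fin.cons z x := by
        show (Fin.insertNth (α := fun _ => ℂ) 0 z x : Fin (n + 1) → ℂ) = _
        exact Fin.insertNth_zero' (β := ℂ) z x
      rw [← e3]
      exact MeasurableEquiv.apply_symm_apply _ _
    rw [e2]
    exact hG'

end

/-! ### circles -/

/-- The centre of the circle through three points (junk value when they are collinear). -/
noncomputable def cen (a b c : ℂ) : ℂ :=
  a + Complex.I * (Complex.normSq (c - a) * (b - a) - Complex.normSq (b - a) * (c - a)) /
    (2 * (((b - a).re * (c - a).im - (b - a).im * (c - a).re : ℝ) : ℂ))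

theorem measurable_cen : Measurable fun p : ℂ × ℂ × ℂ => cen p.1 p.2.1 p.2.2 := by
  unfold cen
  have h1 : Measurable Complex.normSq := Complex.continuous_normSq.measurable
  have ha : Measurable fun p : ℂ × ℂ × ℂ => p.1 := measurable_fst
  have hb : Measurable fun p : ℂ × ℂ × ℂ => p.2.1 := measurable_fst.comp measurable_snd
  have hc : Measurable fun p : ℂ × ℂ × ℂ => p.2.2 := measurable_snd.comp measurable_snd
  have hba : Measurable fun p : ℂ × ℂ × ℂ => p.2.1 - p.1 := hb.sub ha
  have hca : Measurable fun p : ℂ × ℂ × ℂ => p.2.2 - p.1 := hc.sub ha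
  refine ha.add (Measurable.div (measurable_const.mul (Measurable.sub ?_ ?_)) ?_)
  · exact (Complex.measurable_ofReal.comp (h1.comp hca)).mul hba
  · exact (Complex.measurable_ofReal.comp (h1.comp hba)).mul hca
  · refine measurable_const.mul (Complex.measurable_ofReal.comp (Measurable.sub ?_ ?_))
    · exact (Complex.measurable_re.comp hba).mul (Complex.measurable_im.comp hca)
    · exact (Complex.measurable_im.comp hba).mul (Complex.measurable_re.comp hca)

/-- Three distinct points on a circle determine its centre. -/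
theorem cen_eq {a b c m : ℂ} (hab : a ≠ b) (hbc : b ≠ c) (hca : c ≠ a)
    (h1 : dist b m = dist a m) (h2 : dist c m = dist a m) : cen a b c = m := by
  obtain ⟨u, rfl⟩ : ∃ u, b = a + u := ⟨b - a, by ring⟩
  obtain ⟨v, rfl⟩ : ∃ v, c = a + v := ⟨c - a, by ring⟩
  obtain ⟨w, rfl⟩ : ∃ w, m = a + w := ⟨m - a, by ring⟩
  have hu : u ≠ 0 := fun h => hab (by rw [h, add_zero])
  have hv : v ≠ 0 := fun h => hca (by rw [h, add_zero])
  have huv : u ≠ v := fun h => hbc (by rw [h])
  have e1 : Complex.normSq (u - w) = Complex.normSq w := by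
    have := congrArg (fun t => t ^ 2) h1
    simp only [dist_eq_norm, ← Complex.normSq_eq_norm_sq] at this
    have e : a + u - (a + w) = u - w := by ring
    have e' : a - (a + w) = - w := by ring
    rwa [e, e', Complex.normSq_neg] at this
  have e2 : Complex.normSq (v - w) = Complex.normSq w := by
    have := congrArg (fun t => t ^ 2) h2
    simp only [dist_eq_norm, ← Complex.normSq_eq_norm_sq] at this
    have e : a + v - (a + w) = v - w := by ring
    have e' : a - (a + w) = - w := by ring
    rwa [e, e', Complex.normSq_neg] at this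
  have f1 : u.re ^ 2 + u.im ^ 2 = 2 * (u.re * w.re + u.im * w.im) := by
    simp only [Complex.normSq_apply, Complex.sub_re, Complex.sub_im] at e1
    nlinarith
  have f2 : v.re ^ 2 + v.im ^ 2 = 2 * (v.re * w.re + v.im * w.im) := by
    simp only [Complex.normSq_apply, Complex.sub_re, Complex.sub_im] at e2
    nlinarith
  have hJ : u.re * v.im - u.im * v.re ≠ 0 := by
    intro hJ
    -- `v = t u`
    have hu2 : 0 < u.re ^ 2 + u.im ^ 2 := by
      have := Complex.normSq_pos.mpr hu
      rw [Complex.normSq_apply] at this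
      nlinarith
    set t : ℝ := (u.re * v.re + u.im * v.im) / (u.re ^ 2 + u.im ^ 2) with ht
    have ht' : t * (u.re ^ 2 + u.im ^ 2) = u.re * v.re + u.im * v.im := by
      rw [ht]; field_simp
    have hvr : v.re = t * u.re := by
      have : (v.re - t * u.re) * (u.re ^ 2 + u.im ^ 2) = 0 := by
        linear_combination (-u.im) * hJ - u.re * ht'
      rcases mul_eq_zero.mp this with h | h
      · linarith
      · exact absurd h hu2.ne'
    have hvi : v.im = t * u.im := by
      have : (v.im - t * u.im) * (u.re ^ 2 + u.im ^ 2) = 0 := by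
        linear_combination (u.re) * hJ - u.im * ht'
      rcases mul_eq_zero.mp this with h | h
      · linarith
      · exact absurd h hu2.ne'
    have h3 : t * (t - 1) * (u.re ^ 2 + u.im ^ 2) = 0 := by
      rw [hvr, hvi] at f2
      linear_combination f2 - t * f1
    rcases mul_eq_zero.mp h3 with h | h
    · rcases mul_eq_zero.mp h with h | h
      · apply hv
        apply Complex.ext
        · rw [hvr, h]; simp
        · rw [hvi, h]; simp
      · apply huv
        have ht1 : t = 1 := by linarith
        apply Complex.ext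
        · rw [hvr, ht1]; simp
        · rw [hvi, ht1]; simp
    · exact absurd h hu2.ne'
  unfold cen
  have g1 : a + u - a = u := by ring
  have g2 : a + v - a = v := by ring
  rw [g1, g2]
  congr 1
  rw [div_eq_iff]
  · apply Complex.ext
    · simp only [Complex.mul_re, Complex.mul_im, Complex.I_re, Complex.I_im, Complex.sub_re,
        Complex.sub_im, Complex.ofReal_re, Complex.ofReal_im, Complex.normSq_apply]
      norm_num
      linear_combination (-u.im) * f2 + v.im * f1
    · simp only [Complex.mul_re, Complex.mul_im, Complex.I_re, Complex.I_im, Complex.sub_re,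
        Complex.sub_im, Complex.ofReal_re, Complex.ofReal_im, Complex.normSq_apply]
      norm_num
      linear_combination (u.re) * f2 - v.re * f1
  · have : (((u.re * v.im - u.im * v.re : ℝ)) : ℂ) ≠ 0 := by exact_mod_cast hJ
    exact mul_ne_zero two_ne_zero this

section
variable {Ω : Type*} [MeasurableSpace Ω] {P : Measure Ω} {S : Ω → Set Pt} {lam : ℝ≥0}

theorem injective_two {x y : ℂ} (h : x ≠ y) : Function.Injective ![x, y] := by
  intro i j hij
  fin_cases i <;> fin_cases j
  · rfl
  · exact absurd hij h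
  · exact absurd hij h.symm
  · rfl

theorem injective_three {x y z : ℂ} (hxy : x ≠ y) (hyz : y ≠ z) (hzx : z ≠ x) :
    Function.Injective ![x, y, z] := by
  intro i j hij
  fin_cases i <;> fin_cases j
  · rfl
  · exact absurd hij hxy
  · exact absurd hij hzx.symm
  · exact absurd hij hxy.symm
  · rfl
  · exact absurd hij hyz
  · exact absurd hij hzx
  · exact absurd hij hyz.symm
  · rfl

theorem ae_circle [IsProbabilityMeasure P] (h : IsColouredPoisson P S lam) (n : ℕ)
    {T : (Fin n → ℂ) → ℂ × ℂ × ℂ} (hT : Measurable T) :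
    ∀ᵐ ω ∂P, ∀ x : Fin n → ℂ, Function.Injective x → (∀ i, x i ∈ pts (S ω)) →
      ∀ z ∈ pts (S ω), z ∉ range x →
        dist z (cen (T x).1 (T x).2.1 (T x).2.2) ≠
          dist (T x).1 (cen (T x).1 (T x).2.1 (T x).2.2) := by
  have hc : Measurable fun x : Fin n → ℂ => cen (T x).1 (T x).2.1 (T x).2.2 :=
    measurable_cen.comp hT
  have hG : MeasurableSet {p : (Fin n → ℂ) × ℂ |
      dist p.2 (cen (T p.1).1 (T p.1).2.1 (T p.1).2.2) =
        dist (T p.1).1 (cen (T p.1).1 (T p.1).2.1 (T p.1).2.2)} := by
    refine measurableSet_eq_fun ?_ ?_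
    · exact measurable_snd.dist (hc.comp measurable_fst)
    · exact ((measurable_fst.comp hT).comp measurable_fst).dist (hc.comp measurable_fst)
  refine ae_no_special h n hG fun x => ?_
  exact Measure.addHaar_sphere (volume : Measure ℂ) (cen (T x).1 (T x).2.1 (T x).2.2)
    (dist (T x).1 (cen (T x).1 (T x).2.1 (T x).2.2))

/-- **General position**: almost surely no four distinct points of `pts S ∪ B`, at least one of
them in `pts S`, lie on a circle (`B` a fixed countable set). -/
theorem ae_general [IsProbabilityMeasure P] (h : IsColouredPoisson P S lam) {B : Set ℂ}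
    (hB : B.Countable) :
    ∀ᵐ ω ∂P, ∀ a b c d m : ℂ, a ∈ pts (S ω) → b ∈ pts (S ω) ∪ B → c ∈ pts (S ω) ∪ B →
      d ∈ pts (S ω) ∪ B → a ≠ b → a ≠ c → a ≠ d → b ≠ c → c ≠ d → d ≠ b →
      dist b m = dist a m → dist c m = dist a m → dist d m = dist a m → False := by
  have h3 := ae_circle h 3 (T := fun x => (x 0, x 1, x 2)) (by fun_prop)
  have h2 : ∀ᵐ ω ∂P, ∀ b ∈ B, ∀ x : Fin 2 → ℂ, Function.Injective x →
      (∀ i, x i ∈ pts (S ω)) → ∀ z ∈ pts (S ω), z ∉ range x →
        dist z (cen (x 0) (x 1) b) ≠ dist (x 0) (cen (x 0) (x 1) b) :=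
    (ae_ball_iff hB).mpr fun b _ => ae_circle h 2 (T := fun x => (x 0, x 1, b)) (by fun_prop)
  have h1 : ∀ᵐ ω ∂P, ∀ b ∈ B, ∀ c ∈ B, ∀ x : Fin 1 → ℂ, Function.Injective x →
      (∀ i, x i ∈ pts (S ω)) → ∀ z ∈ pts (S ω), z ∉ range x →
        dist z (cen (x 0) b c) ≠ dist (x 0) (cen (x 0) b c) :=
    (ae_ball_iff hB).mpr fun b _ => (ae_ball_iff hB).mpr fun c _ =>
      ae_circle h 1 (T := fun x => (x 0, b, c)) (by fun_prop)
  have h0 : ∀ᵐ ω ∂P, ∀ b ∈ B, ∀ c ∈ B, ∀ d ∈ B, ∀ x : Fin 0 → ℂ, Function.Injective x →
      (∀ i, x i ∈ pts (S ω)) → ∀ z ∈ pts (S ω), z ∉ range x →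
        dist z (cen b c d) ≠ dist b (cen b c d) :=
    (ae_ball_iff hB).mpr fun b _ => (ae_ball_iff hB).mpr fun c _ => (ae_ball_iff hB).mpr fun d _ =>
      ae_circle h 0 (T := fun x => (b, c, d)) (by fun_prop)
  filter_upwards [h0, h1, h2, h3] with ω k0 k1 k2 k3
  -- the four base cases
  have K3 : ∀ a x y z m : ℂ, a ∈ pts (S ω) → x ∈ pts (S ω) → y ∈ pts (S ω) → z ∈ pts (S ω) →
      a ≠ x → a ≠ y → a ≠ z → x ≠ y → y ≠ z → z ≠ x → dist x m = dist a m → dist y m = dist a m →
      dist z m = dist a m → False := by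
    intro a x y z m ha hx hy hz hax hay haz hxy hyz hzx e1 e2 e3
    have hcen : cen x y z = m := cen_eq hxy hyz hzx (e2.trans e1.symm) (e3.trans e1.symm)
    have := k3 ![x, y, z] (injective_three hxy hyz hzx) (by
      intro i; fin_cases i
      · exact hx
      · exact hy
      · exact hz) a ha (by
      rintro ⟨i, hi⟩
      fin_cases i
      · exact hax hi.symm
      · exact hay hi.symm
      · exact haz hi.symm)
    exact this (by
      show dist a (cen x y z) = dist x (cen x y z)
      rw [hcen]; exact e1.symm)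
  have K2 : ∀ a x y z m : ℂ, a ∈ pts (S ω) → x ∈ pts (S ω) → y ∈ pts (S ω) → z ∈ B →
      a ≠ x → a ≠ y → a ≠ z → x ≠ y → y ≠ z → z ≠ x → dist x m = dist a m → dist y m = dist a m →
      dist z m = dist a m → False := by
    intro a x y z m ha hx hy hz hax hay haz hxy hyz hzx e1 e2 e3
    have hcen : cen x y z = m := cen_eq hxy hyz hzx (e2.trans e1.symm) (e3.trans e1.symm)
    have := k2 z hz ![x, y] (injective_two hxy) (by
      intro i; fin_cases i
      · exact hx
      · exact hy) a ha (by
      rintro ⟨i, hi⟩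
      fin_cases i
      · exact hax hi.symm
      · exact hay hi.symm)
    exact this (by
      show dist a (cen x y z) = dist x (cen x y z)
      rw [hcen]; exact e1.symm)
  have K1 : ∀ a x y z m : ℂ, a ∈ pts (S ω) → x ∈ pts (S ω) → y ∈ B → z ∈ B →
      a ≠ x → a ≠ y → a ≠ z → x ≠ y → y ≠ z → z ≠ x → dist x m = dist a m → dist y m = dist a m →
      dist z m = dist a m → False := by
    intro a x y z m ha hx hy hz hax hay haz hxy hyz hzx e1 e2 e3
    have hcen : cen x y z = m := cen_eq hxy hyz hzx (e2.trans e1.symm) (e3.trans e1.symm)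
    have := k1 y hy z hz ![x] (by
      intro i j hij
      exact Subsingleton.elim i j) (by
      intro i; fin_cases i
      exact hx) a ha (by
      rintro ⟨i, hi⟩
      fin_cases i
      exact hax hi.symm)
    exact this (by
      show dist a (cen x y z) = dist x (cen x y z)
      rw [hcen]; exact e1.symm)
  have K0 : ∀ a x y z m : ℂ, a ∈ pts (S ω) → x ∈ B → y ∈ B → z ∈ B →
      a ≠ x → a ≠ y → a ≠ z → x ≠ y → y ≠ z → z ≠ x → dist x m = dist a m → dist y m = dist a m →
      dist z m = dist a m → False := by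
    intro a x y z m ha hx hy hz hax hay haz hxy hyz hzx e1 e2 e3
    have hcen : cen x y z = m := cen_eq hxy hyz hzx (e2.trans e1.symm) (e3.trans e1.symm)
    have := k0 x hx y hy z hz (fun i => i.elim0) (fun i => i.elim0) (fun i => i.elim0) a ha (by
      rintro ⟨i, _⟩
      exact i.elim0)
    rw [hcen] at this
    exact this e1.symm
  intro a b c d m ha hb hc hd hab hac had hbc hcd hdb e1 e2 e3
  rcases hb with hb | hb <;> rcases hc with hc | hc <;> rcases hd with hd | hd
  · exact K3 a b c d m ha hb hc hd hab hac had hbc hcd hdb e1 e2 e3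
  · exact K2 a b c d m ha hb hc hd hab hac had hbc hcd hdb e1 e2 e3
  · exact K2 a d b c m ha hd hb hc had hab hac hdb hbc hcd e3 e1 e2
  · exact K1 a b c d m ha hb hc hd hab hac had hbc hcd hdb e1 e2 e3
  · exact K2 a c d b m ha hc hd hb hac had hab hcd hdb hbc e2 e3 e1
  · exact K1 a c d b m ha hc hd hb hac had hab hcd hdb hbc e2 e3 e1
  · exact K1 a d b c m ha hd hb hc had hab hac hdb hbc hcd e3 e1 e2
  · exact K0 a b c d m ha hb hc hd hab hac had hbc hcd hdb e1 e2 e3

/-- Almost surely no point of the process lies in a given null set. -/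
theorem ae_pts_notMem [IsProbabilityMeasure P] (h : IsColouredPoisson P S lam) {N : Set ℂ}
    (hN : volume N = 0) : ∀ᵐ ω ∂P, ∀ z ∈ pts (S ω), z ∉ N := by
  have hm : MeasurableSet {p : (Fin 0 → ℂ) × ℂ | p.2 ∈ toMeasurable volume N} :=
    measurable_snd (measurableSet_toMeasurable volume N)
  filter_upwards [ae_no_special h 0 hm fun x => by
    have : {z : ℂ | (x, z) ∈ {p : (Fin 0 → ℂ) × ℂ | p.2 ∈ toMeasurable volume N}} =
      toMeasurable volume N := rfl
    rw [this, measure_toMeasurable, hN]] with ω hω z hz hzN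
  exact hω (fun i => i.elim0) (fun i => i.elim0) (fun i => i.elim0) z hz (by
    rintro ⟨i, _⟩
    exact i.elim0) (subset_toMeasurable _ _ hzN)

/-- Almost surely the distances of the points to a fixed point `b` are pairwise different. -/
theorem ae_dist_ne [IsProbabilityMeasure P] (h : IsColouredPoisson P S lam) (b : ℂ) :
    ∀ᵐ ω ∂P, ∀ x ∈ pts (S ω), ∀ z ∈ pts (S ω), z ≠ x → dist z b ≠ dist x b := by
  have hm : MeasurableSet {p : (Fin 1 → ℂ) × ℂ | dist p.2 b = dist (p.1 0) b} :=
    measurableSet_eq_fun (measurable_snd.dist measurable_const)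
      (((measurable_pi_apply 0).comp measurable_fst).dist measurable_const)
  filter_upwards [ae_no_special h 1 hm fun x =>
    Measure.addHaar_sphere (volume : Measure ℂ) b (dist (x 0) b)] with ω hω x hx z hz hne
  exact hω (fun _ => x) (fun i j _ => Subsingleton.elim i j) (fun _ => hx) z hz (by
    rintro ⟨i, hi⟩
    exact hne hi.symm)

end

end H729
end P148
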