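import Vale.Agent.P148.R2.H172.Sc2
import Vale.Agent.P148.R2.H291.EvW
import Vale.Agent.P148.R2.H291.Site
import Vale.Agent.P148.R2.H488.Cw
import Vale.Agent.P148.R2.H659.Close5

/-!
# P148, rows (win), (val): the weights of the cells

For the sites `site T R` on the quenched good event, `th k := cw (hc M k) Θ` :

* `lf_hc` : a face with circumcentre in the half-open cell `k` is a local face of the disc
  `closedBall (cellC M k) (2 * ms M)`
* `sum_cw_le` : the sum over all darts of `‖cw (hc M k) Θ (dt q)‖ ^ 2` is at most `CT κ (2 * ms M)`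
* `near_of_reg`, `Frame.supp` : a face which meets `reg M j` has weight zero in the cells which are not
  equal or adjacent to `j`
* `Frame.hsum` : on the faces of the ring the weights of the cells add up to `Θ`
-/

set_option linter.unusedSectionVars false

open MeasureTheory Set Metric Filter Topology Complex
open scoped ENNReal

namespace P148
namespace H729

open Vale.Agent.P148.R2
open Vale.Agent.P148.R2.H184
open Vale.Agent.P148.R2.H592 (HullTri Fc Fib tail head vc cr th_Tl)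
open Vale.Agent.P148.R2.H566 (W0)
open Vale.Agent.P148.R2.H291 (SiteOK site bR CT GEnv norm_bR)
open Vale.Agent.P148.R2.H488 (cw cw_ne norm_cw_le hc hc_cover hc_unique hc_mod hc_add_nc sum_cw)
open Vale.Agent.P148.R2.N (ms nc gateC cellC csq ms_pos ms_le_one M_mul_ms mod_mul_le mem_csq)
open Vale.Agent.P148.R2.H959 (reg)
open Vale.Agent.P148.R2.H659 (Nr)

universe u

/-! ### geometry of the half-open cells -/

section geo

variable {M k : ℕ}

theorem hc_norm (hM : 0 < M) {z : ℂ} (h : z ∈ hc M k) : 1 < ‖z‖ ∧ ‖z‖ < 3 := by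
  obtain ⟨w, rfl, ⟨a1, a2⟩, a3, a4⟩ := h
  have h0 := ms_pos hM
  have h1 := ms_le_one (M := M)
  have h2 := mod_mul_le hM k
  have h3 : (0 : ℝ) ≤ ((k % (2 * M + 1) : ℕ) : ℝ) * ms M := by positivity
  rw [norm_mul, norm_pow, Complex.norm_I, one_pow, one_mul]
  have h4 : ‖w‖ ^ 2 = w.re * w.re + w.im * w.im := by
    rw [← Complex.normSq_eq_norm_sq, Complex.normSq_apply]
  have h5 : w.im ^ 2 ≤ 4 := by nlinarith
  have h6 := norm_nonneg w
  constructor
  · by_contra h7
    push Not at h7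
    nlinarith
  · by_contra h7
    push Not at h7
    nlinarith

theorem hc_dist (hM : 0 < M) {z : ℂ} (h : z ∈ hc M k) : dist z (cellC M k) ≤ ms M := by
  obtain ⟨w, rfl, ⟨a1, a2⟩, a3, a4⟩ := h
  have h0 := ms_pos hM
  unfold cellC
  rw [Complex.dist_eq, ← mul_sub, norm_mul, norm_pow, Complex.norm_I, one_pow, one_mul]
  refine (Complex.norm_le_abs_re_add_abs_im _).trans ?_
  have e1 : |(w - ⟨1 + ms M / 2, -1 + ms M / 2 + (k % (2 * M + 1) : ℕ) * ms M⟩ : ℂ).re| ≤
      ms M / 2 := by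
    rw [Complex.sub_re, abs_le]
    constructor <;> simp only <;> linarith
  have e2 : |(w - ⟨1 + ms M / 2, -1 + ms M / 2 + (k % (2 * M + 1) : ℕ) * ms M⟩ : ℂ).im| ≤
      ms M / 2 := by
    rw [Complex.sub_im, abs_le]
    constructor <;> simp only <;> linarith
  linarith

theorem norm_cellC_le (hM : 0 < M) (k : ℕ) : ‖cellC M k‖ ≤ 3 := by
  have h0 := ms_pos hM
  have h1 := ms_le_one (M := M)
  have h2 := mod_mul_le hM k
  have h3 : (0 : ℝ) ≤ ((k % (2 * M + 1) : ℕ) : ℝ) * ms M := by positivity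
  unfold cellC
  rw [norm_mul, norm_pow, Complex.norm_I, one_pow, one_mul]
  set w : ℂ := ⟨1 + ms M / 2, -1 + ms M / 2 + (k % (2 * M + 1) : ℕ) * ms M⟩ with hw
  have h4 : ‖w‖ ^ 2 = w.re * w.re + w.im * w.im := by
    rw [← Complex.normSq_eq_norm_sq, Complex.normSq_apply]
  have e1 : w.re = 1 + ms M / 2 := rfl
  have e2 : w.im = -1 + ms M / 2 + (k % (2 * M + 1) : ℕ) * ms M := rfl
  have h5 : w.re * w.re ≤ 9 / 4 := by rw [e1]; nlinarith
  have h6 : w.im * w.im ≤ 9 / 4 := by
    have a1 : -1 ≤ w.im := by rw [e2]; linarith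
    have a2 : w.im ≤ 3 / 2 := by rw [e2]; linarith
    nlinarith
  have h7 := norm_nonneg w
  nlinarith

/-- A point near the region `j` lies only in the half-open cells equal or adjacent to `j`. -/
theorem near_of_reg (hM : 0 < M) {j : ℕ} (hj : j < nc M) (hk : k < nc M) {z v : ℂ}
    (hv : v ∈ reg M j) (hz : z ∈ csq v (ms M / 16)) (hzk : z ∈ hc M k) : Nr (nc M) j k := by
  have hn : 0 < nc M := by unfold nc; omega
  unfold Nr
  rcases hc_cover hM hv hz with h | h | h
  · by_cases h0 : j = 0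
    · have h1 := hc_unique hM (by omega) hk (show z ∈ hc M (nc M - 1) by
        rw [h0, zero_add] at h; exact h) hzk
      omega
    · have h2 : j + (nc M - 1) = j - 1 + nc M := by omega
      rw [h2, hc_add_nc] at h
      have := hc_unique hM (by omega) hk h hzk
      omega
  · have := hc_unique hM hj hk h hzk
    omega
  · by_cases h0 : j + 1 < nc M
    · have := hc_unique hM h0 hk h hzk
      omega
    · have h1 : j + 1 = 0 + nc M := by omega
      rw [h1, hc_add_nc] at h
      have := hc_unique hM hn hk h hzk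
      omega

/-- Near the regions of the tubes the half-open cells form a partition. -/
theorem exists_unique_hc (hM : 0 < M) {j : ℕ} {z v : ℂ} (hv : v ∈ reg M j)
    (hz : z ∈ csq v (ms M / 16)) :
    ∃ k ∈ Finset.range (nc M), z ∈ hc M k ∧ ∀ l ∈ Finset.range (nc M), z ∈ hc M l → l = k := by
  have hn : 0 < nc M := by unfold nc; omega
  obtain ⟨k, hk⟩ : ∃ k, z ∈ hc M k := by
    rcases hc_cover hM hv hz with h | h | h <;> exact ⟨_, h⟩
  rw [← hc_mod] at hk
  refine ⟨k % nc M, Finset.mem_range.2 (Nat.mod_lt _ hn), hk, fun l hl hzl => ?_⟩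
  exact hc_unique hM (Finset.mem_range.1 hl) (Nat.mod_lt _ hn) hzl hk

end geo

/-! ### the faces of the sites -/

section faces

variable {T : Set Pt} {R s : ℝ} (hS : SiteOK T R s) {M k : ℕ}
include hS

theorem cc_bR {j : ZMod 3} (h0 : cr (bR R (j + 1)) (bR R j) (bR R (j + 2)) ≠ 0) :
    cc (bR R (j + 1), bR R j, bR R (j + 2)) = 0 := by
  have hR : 0 ≤ R := hS.R0.le
  refine (cc_unique (d := (bR R (j + 1), bR R j, bR R (j + 2))) h0 (z := 0) ?_ ?_).symm
  · rw [dist_zero_left, dist_zero_left, norm_bR hR, norm_bR hR]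
  · rw [dist_zero_left, dist_zero_left, norm_bR hR, norm_bR hR]

/-- **A face with circumcentre in the half-open cell `k` is local.** -/
theorem lf_hc (hR : 6 ≤ R) (hM : 0 < M) (hs : s ≤ ms M)
    {q : Fc (site T R) (bR R) × ZMod 3} (h0 : cr (dt q).1 (dt q).2.1 (dt q).2.2 ≠ 0)
    (hc' : cc (dt q) ∈ hc M k) : LF (site T R) (closedBall (cellC M k) (2 * ms M)) (dt q) := by
  have hms := ms_pos hM
  have h1 : LF (site T R) univ (dt q) := by
    rw [LF_univ]
    rcases th_Tl q with h1 | ⟨j, e1, e2, e3⟩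
    · exact h1
    · exfalso
      have e : dt q = (bR R (j + 1), bR R j, bR R (j + 2)) := by
        unfold dt
        rw [e1, e2, e3]
      rw [e] at h0 hc'
      rw [cc_bR hS h0] at hc'
      have := (hc_norm hM hc').1
      rw [norm_zero] at this
      linarith
  obtain ⟨h2, h3⟩ := hc_norm hM hc'
  have hz : cc (dt q) ∈ closedBall (0 : ℂ) (R - 1) := by
    rw [mem_closedBall_zero_iff]
    linarith
  obtain ⟨v, hv, hd⟩ := hS.net (ρ := ms M) (by linarith [hS.hs]) _ hz
  refine ⟨h1.1, h1.2.1, ?_, h1.2.2.2⟩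
  refine closedBall_subset_closedBall' ?_
  have h4 := h1.2.2.2 v hv
  have h5 := hc_dist hM hc'
  linarith

theorem cell_ball (hR : 6 ≤ R) (hM : 0 < M) (k : ℕ) :
    closedBall (cellC M k) (2 * ms M) ⊆ ball 0 R := by
  intro z hz
  rw [mem_closedBall] at hz
  rw [mem_ball]
  have h1 := dist_triangle z (cellC M k) 0
  rw [dist_zero_right (cellC M k)] at h1
  have h2 := norm_cellC_le hM k
  have h3 := ms_le_one (M := M)
  linarith

variable [Fintype (Fc (site T R) (bR R) × ZMod 3)]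

/-- The energy of the weight of the cell `k`, in terms of the configuration. -/
theorem sum_cw_EQ (hR : 6 ≤ R) (hM : 0 < M) (hs : s ≤ ms M) (Θ : Dt → ℂ) :
    ∑ q : Fc (site T R) (bR R) × ZMod 3, ENNReal.ofReal (‖cw (hc M k) Θ (dt q)‖ ^ 2) ≤
      EQ (pts T) (closedBall (cellC M k) (2 * ms M)) Θ := by
  classical
  rw [← EQ_congr (hS.agree (cell_ball hS hR hM k)) Θ]
  unfold EQ
  rw [tsum_dt (Q := closedBall (cellC M k) (2 * ms M)) hS.hull (F := fun d =>
    if LF (site T R) (closedBall (cellC M k) (2 * ms M)) d then ENNReal.ofReal (‖Θ d‖ ^ 2) else 0)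
    (fun d hd => by
      by_contra hcon
      exact hd (if_neg hcon))]
  refine Finset.sum_le_sum fun q _ => ?_
  by_cases h : cw (hc M k) Θ (dt q) = 0
  · rw [h, norm_zero]
    simp
  · obtain ⟨h1, h2, -⟩ := cw_ne h
    rw [if_pos (lf_hc hS hR hM hs h1 h2)]
    exact ENNReal.ofReal_le_ofReal (pow_le_pow_left₀ (norm_nonneg _) (norm_cw_le _) 2)

/-- **The energy of the weight of the cell `k`.** -/
theorem sum_cw_le (hR : 6 ≤ R) (hM : 0 < M) (hs : s ≤ ms M) {κ : ℝ} {Θ : Dt → ℂ}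
    (hE : EQ (pts T) (closedBall (cellC M k) (2 * ms M)) Θ ≤ ENNReal.ofReal (CT κ (2 * ms M)))
    (hCT : 0 ≤ CT κ (2 * ms M)) :
    ∑ q : Fc (site T R) (bR R) × ZMod 3, ‖cw (hc M k) Θ (dt q)‖ ^ 2 ≤ CT κ (2 * ms M) := by
  have h1 := (sum_cw_EQ hS hR hM hs Θ (k := k)).trans hE
  rw [← ENNReal.ofReal_sum_of_nonneg fun _ _ => by positivity] at h1
  exact (ENNReal.ofReal_le_ofReal_iff hCT).1 h1

omit [Fintype (Fc (site T R) (bR R) × ZMod 3)] in
/-- A face with its first corner in a region has its circumcentre near this corner. -/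
theorem cc_near (hR : 6 ≤ R) (hM : 0 < M) (hs : 4 * s < ms M)
    {q : Fc (site T R) (bR R) × ZMod 3} {l : ℕ} (hv : tail q ∈ reg M l) :
    cr (dt q).1 (dt q).2.1 (dt q).2.2 ≠ 0 ∧ cc (dt q) ∈ csq (tail q) (ms M / 16) := by
  have hms := ms_pos hM
  have h1 := ms_le_one (M := M)
  have h2 := (Vale.Agent.P148.R2.H959.reg_nsup hM hv).2
  have h3 := Vale.Agent.P148.R2.H291.norm_le_nsup (tail q)
  have h4 := hS.lf (q := q) (by rw [mem_closedBall_zero_iff]; linarith)
  refine ⟨h4.2.1.ne', ?_⟩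
  have h5 : cc (dt q) ∈ closedBall (tail q) (s / 4) := h4.2.2.1 (mem_closedBall_self dist_nonneg)
  rw [mem_closedBall, Complex.dist_eq] at h5
  have h6 := Complex.abs_re_le_norm (cc (dt q) - tail q)
  have h7 := Complex.abs_im_le_norm (cc (dt q) - tail q)
  rw [Complex.sub_re] at h6
  rw [Complex.sub_im] at h7
  rw [mem_csq]
  constructor <;> linarith

end faces

/-! ### the shifted indices -/

section shift

variable {M : ℕ}

theorem near_shift (hM : 0 < M) {a j k : ℕ} (hj : j < nc M) (hk : k < nc M) {z v : ℂ}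
    (hv : v ∈ reg M (a + j)) (hz : z ∈ csq v (ms M / 16)) (hzk : z ∈ hc M (a + k)) :
    Nr (nc M) j k := by
  have hn : 0 < nc M := by unfold nc; omega
  have key : ∀ x, z ∈ hc M (a + x) → x % nc M = k := by
    intro x hx
    have h1 : (a + x) ≡ (a + k) [MOD nc M] := Vale.Agent.P148.R2.H488.hc_unique' hM hx hzk
    have h2 : x % nc M = k % nc M := Nat.ModEq.add_left_cancel' a h1
    rw [h2, Nat.mod_eq_of_lt hk]
  unfold Nr
  rcases hc_cover hM hv hz with h | h | h
  · have h1 := key (j + (nc M - 1)) (by rw [← add_assoc]; exact h)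
    by_cases h0 : j = 0
    · rw [h0, zero_add, Nat.mod_eq_of_lt (by omega)] at h1
      omega
    · rw [show j + (nc M - 1) = j - 1 + nc M by omega, Nat.add_mod_right,
        Nat.mod_eq_of_lt (by omega)] at h1
      omega
  · have h1 := key j h
    rw [Nat.mod_eq_of_lt hj] at h1
    omega
  · have h1 := key (j + 1) (by rw [← add_assoc]; exact h)
    by_cases h0 : j + 1 < nc M
    · rw [Nat.mod_eq_of_lt h0] at h1
      omega
    · rw [show j + 1 = nc M by omega, Nat.mod_self] at h1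
      omega

theorem exists_unique_shift (hM : 0 < M) (a : ℕ) {l : ℕ} {z v : ℂ} (hv : v ∈ reg M l)
    (hz : z ∈ csq v (ms M / 16)) : ∃ k ∈ Finset.range (nc M), z ∈ hc M (a + k) ∧
      ∀ l ∈ Finset.range (nc M), z ∈ hc M (a + l) → l = k := by
  have hn : 0 < nc M := by unfold nc; omega
  obtain ⟨k, hk, hzk, -⟩ := exists_unique_hc hM hv hz
  refine ⟨(k + (nc M - a % nc M)) % nc M, Finset.mem_range.2 (Nat.mod_lt _ hn), ?_, ?_⟩
  · have ha : a % nc M < nc M := Nat.mod_lt _ hn
    have e1 : (a + (k + (nc M - a % nc M)) % nc M) % nc M = k % nc M := by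
      rw [Nat.add_mod, Nat.mod_mod, ← Nat.add_mod, Nat.add_mod]
      rw [show (a % nc M + (k + (nc M - a % nc M)) % nc M) % nc M =
        (a % nc M + (k + (nc M - a % nc M))) % nc M by rw [Nat.add_mod, Nat.mod_mod,
          Nat.mod_mod, ← Nat.add_mod, Nat.mod_add_mod]]
      rw [show a % nc M + (k + (nc M - a % nc M)) = k + nc M by omega, Nat.add_mod_right]
    rw [← hc_mod, e1, hc_mod]
    exact hzk
  · intro l hl hzl
    have ha : a % nc M < nc M := Nat.mod_lt _ hn
    have h1 : (a + l) ≡ k [MOD nc M] := Vale.Agent.P148.R2.H488.hc_unique' hM hzl hzk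
    have h2 : l % nc M = (k + (nc M - a % nc M)) % nc M := by
      have h3 : a % nc M + l ≡ k [MOD nc M] := (Nat.ModEq.add_right l (Nat.mod_modEq a _)).trans h1
      have h4 : l + nc M ≡ k + (nc M - a % nc M) [MOD nc M] := by
        have := Nat.ModEq.add_right (nc M - a % nc M) h3
        rwa [show a % nc M + l + (nc M - a % nc M) = l + nc M by omega] at this
      have h5 : (l + nc M) % nc M = (k + (nc M - a % nc M)) % nc M := h4
      rwa [Nat.add_mod_right] at h5
    rw [← h2, Nat.mod_eq_of_lt (Finset.mem_range.1 hl)]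

end shift

/-! ### worlds over the sites -/

section world

theorem CT_nonneg (κ R : ℝ) : 0 ≤ CT κ R :=
  mul_nonneg (mul_nonneg (by positivity) (Vale.Agent.P148.R2.H291.CD_nonneg 2 3)) (by positivity)

open Classical in
/-- The discs of the cells, for `H291.GEnv`. -/
noncomputable def cellI (M : ℕ) : Finset (ℂ × ℝ) :=
  (Finset.range (nc M)).image fun k => (cellC M k, 2 * ms M)

theorem cellI_pos {M : ℕ} (hM : 0 < M) : ∀ k ∈ cellI M, 0 < k.2 := by
  intro k hk
  have h0 := ms_pos hM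
  obtain ⟨j, -, rfl⟩ := Finset.mem_image.1 hk
  show 0 < 2 * ms M
  linarith

theorem cellC_add_nc (M k : ℕ) : cellC M (k + nc M) = cellC M k := by
  unfold cellC
  rw [N.div_add_nc, N.mod_add_nc, N.I_pow_add_four]

theorem cellC_mod (M k : ℕ) : cellC M (k % nc M) = cellC M k := by
  have key : ∀ n r, cellC M (r + nc M * n) = cellC M r := by
    intro n
    induction n with
    | zero => intro r; simp
    | succ n ih =>
      intro r
      rw [show r + nc M * (n + 1) = (r + nc M * n) + nc M by ring, cellC_add_nc, ih]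
  conv_rhs => rw [← Nat.mod_add_div k (nc M)]
  exact (key _ _).symm

theorem mem_cellI {M : ℕ} (hM : 0 < M) (k : ℕ) : (cellC M k, 2 * ms M) ∈ cellI M := by
  have hn : 0 < nc M := by unfold nc; omega
  refine Finset.mem_image.2 ⟨k % nc M, Finset.mem_range.2 (Nat.mod_lt _ hn), ?_⟩
  rw [cellC_mod]

variable {w : W0} {T : Set Pt} {R s : ℝ} (hS : SiteOK T R s) (hX : w.X = site T R)
  (hb : w.b = bR R) {M : ℕ} (hR : 6 ≤ R) (hM : 0 < M)
include hS hX hb hR hM

/-- **The energy of the weight of the cell `k`**: all darts of the world. -/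
theorem world_sum_cw_le (hs : s ≤ ms M) {κ R' s' : ℝ} {Θ : Dt → ℂ} {I : Finset (ℂ × ℝ)}
    (hG : GEnv κ Θ R' s' I T) (hI : cellI M ⊆ I) (k : ℕ) :
    ∑ q : w.D, ‖cw (hc M k) Θ (dt q)‖ ^ 2 ≤ CT κ (2 * ms M) := by
  obtain ⟨X, b, hull, B, conn, ne⟩ := w
  dsimp only at hX hb
  subst hX hb
  let _ : Fintype (Fc (site T R) (bR R) × ZMod 3) :=
    W0.instFintypeD ⟨site T R, bR R, hull, B, conn, ne⟩
  exact sum_cw_le hS hR hM hs (hG.en _ (hI (mem_cellI hM k))) (CT_nonneg _ _)

/-- The transported weights. -/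
theorem world_sum_wt_le (hs : s ≤ ms M) {κ R' s' : ℝ} {Θ : Dt → ℂ} {I : Finset (ℂ × ℝ)}
    (hG : GEnv κ Θ R' s' I T) (hI : cellI M ⊆ I) (k : ℕ) {V : Type*} (π : ℂ → V)
    (hπ : Fib w.X π) : ∑ q : w.D, ‖Vale.Agent.P148.R2.H203.wt w.hull π hπ (cw (hc M k) Θ) q‖ ^ 2 ≤
      CT κ (2 * ms M) := by
  refine (Finset.sum_le_sum fun q _ => ?_).trans (world_sum_cw_le hS hX hb hR hM hs hG hI k)
  unfold Vale.Agent.P148.R2.H203.wt
  split_ifs
  · exact le_rfl
  · rw [norm_zero, zero_pow two_ne_zero]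
    exact sq_nonneg _

theorem world_sum_th_le (hs : s ≤ ms M) {κ R' s' : ℝ} {Θ : Dt → ℂ} {I : Finset (ℂ × ℝ)}
    (hG : GEnv κ Θ R' s' I T) (hI : cellI M ⊆ I) (k : ℕ) :
    ∑ q : w.D, ‖w.th (cw (hc M k) Θ) q‖ ^ 2 ≤ CT κ (2 * ms M) :=
  world_sum_wt_le hS hX hb hR hM hs hG hI k w.π w.fib

/-- The circumcentres of the faces at the regions. -/
theorem world_cc_near (hs : 4 * s < ms M) {q : w.D} {l : ℕ} (hv : tail q ∈ reg M l) :
    cr (dt q).1 (dt q).2.1 (dt q).2.2 ≠ 0 ∧ cc (dt q) ∈ csq (tail q) (ms M / 16) := by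
  obtain ⟨X, b, hull, B, conn, ne⟩ := w
  dsimp only at hX hb
  subst hX hb
  exact cc_near hS hR hM hs hv

/-- **Support.** A dart with its tail in the region `a + j` has weight zero in the cells `a + k`
which are not equal or adjacent to it. -/
theorem world_supp (hs : 4 * s < ms M) {Θ : Dt → ℂ} {q : w.D} {a j k : ℕ} (hj : j < nc M)
    (hk : k < nc M) (hv : tail q ∈ reg M (a + j)) (hne : cw (hc M (a + k)) Θ (dt q) ≠ 0) :
    Nr (nc M) j k :=
  near_shift hM hj hk hv (world_cc_near hS hX hb hR hM hs hv).2 (cw_ne hne).2.1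

theorem world_supp_wt (hs : 4 * s < ms M) {Θ : Dt → ℂ} {q : w.D} {a j k : ℕ} (hj : j < nc M)
    (hk : k < nc M) (hv : tail q ∈ reg M (a + j)) {V : Type*} {π : ℂ → V} {hπ : Fib w.X π}
    (hne : Vale.Agent.P148.R2.H203.wt w.hull π hπ (cw (hc M (a + k)) Θ) q ≠ 0) :
    Nr (nc M) j k := by
  refine world_supp hS hX hb hR hM hs (Θ := Θ) (q := q) (a := a) hj hk hv fun h0 => hne ?_
  unfold Vale.Agent.P148.R2.H203.wt
  rw [h0]
  split_ifs <;> rfl

/-- **Partition.** On the darts with their tails in the regions the weights of the cells add up. -/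
theorem world_sum (hs : 4 * s < ms M) {Θ : Dt → ℂ} {q : w.D} (a : ℕ) {l : ℕ}
    (hv : tail q ∈ reg M l) :
    ∑ k ∈ Finset.range (nc M), cw (hc M (a + k)) Θ (dt q) = Θ (dt q) := by
  obtain ⟨h1, h2⟩ := world_cc_near hS hX hb hR hM hs hv
  obtain ⟨k, hk, h3, h4⟩ := exists_unique_shift hM a hv h2
  exact sum_cw (Finset.range (nc M)) (fun k => hc M (a + k)) h1 hk h3 h4

theorem world_sum_wt (hs : 4 * s < ms M) {Θ : Dt → ℂ} {q : w.D} (a : ℕ) {l : ℕ}
    (hv : tail q ∈ reg M l) {V : Type*} (π : ℂ → V) (hπ : Fib w.X π) :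
    ∑ k ∈ Finset.range (nc M), Vale.Agent.P148.R2.H203.wt w.hull π hπ (cw (hc M (a + k)) Θ) q =
      Vale.Agent.P148.R2.H203.wt w.hull π hπ Θ q := by
  unfold Vale.Agent.P148.R2.H203.wt
  by_cases h0 : (w.hull.tri258 π hπ).Good q
  · simp only [if_pos h0]
    exact world_sum hS hX hb hR hM hs a hv
  · simp only [if_neg h0, Finset.sum_const_zero]

end world

/-! ### frames -/

section frame

open Vale.Agent.P148.R2.H609 (TP)

variable {w : W0} {T : Set Pt} {R s : ℝ} (hS : SiteOK T R s) (hX : w.X = site T R)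
  (hb : w.b = bR R) {M : ℕ} (hR : 6 ≤ R) (hM : 0 < M) {x₀ : w.X} {col : w.X → Bool}

omit hS hX hb hR hM in
theorem frame_tail (F : Vale.Agent.P148.R2.H172.Frame M w x₀ col) {j m : ℕ} (h1 : F.t j ≤ m)
    (h2 : m < F.t (j + 1)) : tail (((TP w x₀).st col)^[m] F.o) ∈ reg M j := by
  have h := (F.seen j m h1 h2).1
  rwa [Vale.Agent.P148.R2.H871.src0] at h

omit hS hX hb hR hM in
theorem frame_per (F : Vale.Agent.P148.R2.H172.Frame M w x₀ col) :
    F.t (nc M) = Vale.Agent.P148.R2.H871.per (TP w x₀) col F.o := F.per_eq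

include hS hX hb hR hM

/-- **`H659` input `supp`** for the frame, weights `cw (hc M k) Θ`. -/
theorem frame_supp (hs : 4 * s < ms M) (F : Vale.Agent.P148.R2.H172.Frame M w x₀ col)
    {Θ : Dt → ℂ} : ∀ k < nc M, ∀ j < nc M, ∀ m, F.t j ≤ m → m < F.t (j + 1) →
      cw (hc M k) Θ (dt (((TP w x₀).st col)^[m] F.o)) ≠ 0 → Nr (nc M) j k := by
  intro k hk j hj m h1 h2 hne
  refine world_supp hS hX hb hR hM hs (a := 0) (Θ := Θ) hj hk ?_ (by rw [zero_add]; exact hne)
  rw [zero_add]
  exact frame_tail F h1 h2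

/-- **`H659` input `hsum`** for the frame. -/
theorem frame_hsum (hs : 4 * s < ms M) (F : Vale.Agent.P148.R2.H172.Frame M w x₀ col)
    {Θ : Dt → ℂ} (m : ℕ) : Θ (dt (((TP w x₀).st col)^[m] F.o)) =
      ∑ k ∈ Finset.range (nc M), cw (hc M k) Θ (dt (((TP w x₀).st col)^[m] F.o)) := by
  obtain ⟨j, h1, h2⟩ := F.lt.loc m
  have h := world_sum hS hX hb hR hM hs (Θ := Θ) 0 (frame_tail F h1 h2)
  simp only [zero_add] at h
  exact h.symm

end frame

end H729
end P148
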